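import Mathlib

/-!
# P245: the Maurey-Pisier exponential inequality for the standard Gaussian measure

`E exp (l (f X - f Y)) <= E exp (pi^2 l^2 / 8 * |Df X|^2)` by integrating along rotations.
-/

open MeasureTheory ProbabilityTheory Real
open scoped ENNReal RealInnerProductSpace

namespace Vale.Agent.P245

variable {E : Type*} [NormedAddCommGroup E] [InnerProductSpace ℝ E] [FiniteDimensional ℝ E]
  [MeasurableSpace E] [BorelSpace E]

theorem lintegral_exp_inner_stdGaussian (v : E) :
    ∫⁻ y, ENNReal.ofReal (exp ⟪v, y⟫) ∂stdGaussian E = ENNReal.ofReal (exp (‖v‖ ^ 2 / 2)) := by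
  set L : StrongDual ℝ E := innerSL ℝ v with hL
  have hmap : (stdGaussian E).map L = gaussianReal 0 (‖v‖ ^ 2).toNNReal := by
    rw [IsGaussian.map_eq_gaussianReal, integral_strongDual_stdGaussian, variance_dual_stdGaussian,
      hL, innerSL_apply_norm]
  calc ∫⁻ y, ENNReal.ofReal (exp ⟪v, y⟫) ∂stdGaussian E
      = ∫⁻ r, ENNReal.ofReal (exp r) ∂((stdGaussian E).map L) := by
        rw [lintegral_map (by fun_prop) L.continuous.measurable]
        rfl
    _ = ENNReal.ofReal (∫ r, exp r ∂gaussianReal 0 (‖v‖ ^ 2).toNNReal) := by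
        rw [hmap]
        have hi := integrable_exp_mul_gaussianReal (μ := 0) (v := (‖v‖ ^ 2).toNNReal) 1
        simp only [one_mul] at hi
        rw [ofReal_integral_eq_lintegral_ofReal hi (ae_of_all _ fun r => (exp_pos r).le)]
    _ = _ := by
        have h := congrFun (mgf_id_gaussianReal (μ := 0) (v := (‖v‖ ^ 2).toNNReal)) 1
        simp only [mgf, id_eq, one_mul] at h
        rw [h, Real.coe_toNNReal _ (sq_nonneg _)]
        congr 2
        ring

/-- The point at angle `π s / 2` between `y` and `x`. -/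
noncomputable def rotPt (x y : E) (s : ℝ) : E :=
  cos (π / 2 * s) • y + sin (π / 2 * s) • x

/-- Its velocity, up to the factor `π / 2`. -/
noncomputable def rotVel (x y : E) (s : ℝ) : E :=
  -sin (π / 2 * s) • y + cos (π / 2 * s) • x

omit [FiniteDimensional ℝ E] [MeasurableSpace E] [BorelSpace E] in
theorem exp_sub_le_average {f : E → ℝ} {G : E → E} (hf : ∀ x, HasFDerivAt f (innerSL ℝ (G x)) x)
    (hG : Continuous G) (x y : E) :
    exp (f x - f y) ≤ ∫ s in Set.Icc (0 : ℝ) 1, exp (π / 2 * ⟪G (rotPt x y s), rotVel x y s⟫) := by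
  set g : ℝ → ℝ := fun s => π / 2 * ⟪G (rotPt x y s), rotVel x y s⟫ with hg
  have hz : ∀ s, HasDerivAt (rotPt x y) ((π / 2) • rotVel x y s) s := fun s => by
    have hl : HasDerivAt (fun s => π / 2 * s) (π / 2) s := by
      simpa using (hasDerivAt_id s).const_mul (π / 2)
    refine ((hl.cos.smul_const y).add (hl.sin.smul_const x)).congr_deriv ?_
    simp only [rotVel, smul_add, smul_smul]
    congr 1 <;> · congr 1; ring
  have hd : ∀ s, HasDerivAt (fun s => f (rotPt x y s)) (g s) s := fun s => by
    refine ((hf (rotPt x y s)).comp_hasDerivAt s (hz s)).congr_deriv ?_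
    simp [hg, inner_smul_right]
  have hgc : Continuous g := by
    simp only [hg, rotPt, rotVel]
    fun_prop
  have hftc : f x - f y = ∫ s in Set.Icc (0 : ℝ) 1, g s := by
    rw [integral_Icc_eq_integral_Ioc, ← intervalIntegral.integral_of_le zero_le_one,
      intervalIntegral.integral_eq_sub_of_hasDerivAt (fun s _ => hd s) (hgc.intervalIntegrable _ _)]
    simp [rotPt]
  haveI : IsProbabilityMeasure (volume.restrict (Set.Icc (0 : ℝ) 1)) :=
    ⟨by simp⟩
  rw [hftc]
  exact convexOn_exp.map_integral_le continuous_exp.continuousOn isClosed_univ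
    (ae_of_all _ fun _ => Set.mem_univ _) hgc.continuousOn.integrableOn_Icc
    (continuous_exp.comp hgc).continuousOn.integrableOn_Icc

/-- The Maurey-Pisier inequality. -/
theorem lintegral_exp_sub_le {f : E → ℝ} {G : E → E}
    (hf : ∀ x, HasFDerivAt f (innerSL ℝ (G x)) x) (hG : Continuous G) :
    ∫⁻ p, ENNReal.ofReal (exp (f p.1 - f p.2)) ∂(stdGaussian E).prod (stdGaussian E)
      ≤ ∫⁻ x, ENNReal.ofReal (exp (π ^ 2 / 8 * ‖G x‖ ^ 2)) ∂stdGaussian E := by
  set P := (stdGaussian E).prod (stdGaussian E)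
  set I := volume.restrict (Set.Icc (0 : ℝ) 1)
  haveI : IsProbabilityMeasure I := ⟨by simp [I]⟩
  set F : (E × E) → ℝ → ℝ≥0∞ := fun p s =>
    ENNReal.ofReal (exp (π / 2 * ⟪G (rotPt p.1 p.2 s), rotVel p.1 p.2 s⟫)) with hF
  have hFm : Measurable (Function.uncurry F) := by
    simp only [hF, Function.uncurry_def, rotPt, rotVel]
    fun_prop
  have h1 : ∀ p : E × E, ENNReal.ofReal (exp (f p.1 - f p.2)) ≤ ∫⁻ s, F p s ∂I := fun p => by
    have hc : Continuous fun s => exp (π / 2 * ⟪G (rotPt p.1 p.2 s), rotVel p.1 p.2 s⟫) := by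
      simp only [rotPt, rotVel]; fun_prop
    rw [hF, ← ofReal_integral_eq_lintegral_ofReal hc.continuousOn.integrableOn_Icc
      (ae_of_all _ fun s => (exp_pos _).le)]
    exact ENNReal.ofReal_le_ofReal (exp_sub_le_average hf hG p.1 p.2)
  refine (lintegral_mono h1).trans (le_of_eq ?_)
  rw [lintegral_lintegral_swap hFm.aemeasurable]
  have h2 : ∀ s, ∫⁻ p, F p s ∂P
      = ∫⁻ x, ENNReal.ofReal (exp (π ^ 2 / 8 * ‖G x‖ ^ 2)) ∂stdGaussian E := fun s => by
    set Φ : E × E → ℝ≥0∞ := fun q => ENNReal.ofReal (exp (π / 2 * ⟪G q.1, q.2⟫)) with hΦ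
    have hΦm : Measurable Φ := by simp only [hΦ]; fun_prop
    have e : ∀ p : E × E,
        F p s = Φ (ContinuousLinearMap.rotation (π / 2 * s) (p.2, p.1)) := fun p => by
      simp [hF, hΦ, ContinuousLinearMap.rotation_apply, rotPt, rotVel]
    simp only [e]
    calc ∫⁻ p, Φ (ContinuousLinearMap.rotation (π / 2 * s) (p.2, p.1)) ∂P
        = ∫⁻ q, Φ (ContinuousLinearMap.rotation (π / 2 * s) q) ∂(P.map Prod.swap) := by
          exact (lintegral_map (f := fun q => Φ (ContinuousLinearMap.rotation (π / 2 * s) q))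
            (hΦm.comp (ContinuousLinearMap.measurable _)) measurable_swap).symm
      _ = ∫⁻ q, Φ q ∂(P.map (ContinuousLinearMap.rotation (π / 2 * s))) := by
          rw [Measure.prod_swap, lintegral_map hΦm (ContinuousLinearMap.measurable _)]
      _ = ∫⁻ x, ∫⁻ y, Φ (x, y) ∂stdGaussian E ∂stdGaussian E := by
          rw [IsGaussian.map_rotation_eq_self_of_forall_strongDual_eq_zero
            (fun L => integral_strongDual_stdGaussian L), lintegral_prod _ hΦm.aemeasurable]
      _ = _ := by
          refine lintegral_congr fun x => ?_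
          simp only [hΦ]
          have := lintegral_exp_inner_stdGaussian ((π / 2) • G x)
          simp only [inner_smul_left, RCLike.conj_to_real] at this
          rw [this, norm_smul, norm_of_nonneg (by positivity)]
          congr 2
          ring
  simp only [h2, lintegral_const, measure_univ, mul_one]

end Vale.Agent.P245
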