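import Vale.Agent.P245.Basic

/-!
The weighted Prekopa-Leindler inequality for Lebesgue measure on Euclidean space.
-/

noncomputable section

open MeasureTheory Set
open scoped ENNReal

namespace Vale.Agent.P245

/-- The weighted one-dimensional Brunn-Minkowski inequality, compact sets. -/
theorem bm_compact {l : ℝ} (h0 : 0 < l) (h1 : l < 1) {A B C : Set ℝ} (hA : IsCompact A)
    (hB : IsCompact B) (hA0 : A.Nonempty) (hB0 : B.Nonempty)
    (h : ∀ a ∈ A, ∀ b ∈ B, (1 - l) * a + l * b ∈ C) :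
    ENNReal.ofReal (1 - l) * volume A + ENNReal.ofReal l * volume B ≤ volume C := by
  set a := sSup A
  set b := sInf B
  have ha : a ∈ A := hA.sSup_mem hA0
  have hb : b ∈ B := hB.sInf_mem hB0
  have hvol : ∀ (S : Set ℝ) (c d : ℝ), 0 < c →
      volume ((fun x => c⁻¹ * (x + d)) ⁻¹' S) = ENNReal.ofReal c * volume S := by
    intro S c d hc
    have e : (fun x => c⁻¹ * (x + d)) ⁻¹' S = (fun x => x + d) ⁻¹' ((fun x => c⁻¹ * x) ⁻¹' S) := rfl
    rw [e, measure_preimage_add_right, Real.volume_preimage_mul_left (inv_ne_zero hc.ne'), inv_inv,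
      abs_of_pos hc]
  let A' : Set ℝ := (fun x => (1 - l)⁻¹ * (x + -(l * b))) ⁻¹' A
  let B' : Set ℝ := (fun x => l⁻¹ * (x + -((1 - l) * a))) ⁻¹' B
  have h1' : 0 < 1 - l := by linarith
  have hsub : A' ∪ B' ⊆ C := by
    rintro x (hx | hx)
    · have := h _ hx b hb
      rwa [show (1 - l) * ((1 - l)⁻¹ * (x + -(l * b))) + l * b = x by field_simp; ring] at this
    · have := h a ha _ hx
      rwa [show (1 - l) * a + l * (l⁻¹ * (x + -((1 - l) * a))) = x by field_simp; ring] at this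
  have hinter : volume (A' ∩ B') = 0 := by
    refine measure_mono_null (fun x hx => ?_)
      (Real.volume_singleton (a := (1 - l) * a + l * b))
    have e1 : (1 - l)⁻¹ * (x + -(l * b)) ≤ a := le_csSup hA.bddAbove hx.1
    have e2 : b ≤ l⁻¹ * (x + -((1 - l) * a)) := csInf_le hB.bddBelow hx.2
    rw [inv_mul_le_iff₀ h1'] at e1
    rw [le_inv_mul_iff₀ h0] at e2
    exact Set.mem_singleton_iff.2 (by linarith)
  have hmB : MeasurableSet B' :=
    (by fun_prop : Measurable fun x : ℝ => l⁻¹ * (x + -((1 - l) * a))) hB.measurableSet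
  have e := measure_union_add_inter (μ := (volume : Measure ℝ)) A' hmB
  rw [hinter, add_zero] at e
  rw [← hvol A (1 - l) (-(l * b)) h1', ← hvol B l (-((1 - l) * a)) h0]
  exact e ▸ measure_mono hsub

/-- The weighted one-dimensional Brunn-Minkowski inequality. -/
theorem bm_measurable {l : ℝ} (h0 : 0 < l) (h1 : l < 1) {A B C : Set ℝ} (hA : MeasurableSet A)
    (hB : MeasurableSet B) (hA0 : A.Nonempty) (hB0 : B.Nonempty)
    (h : ∀ a ∈ A, ∀ b ∈ B, (1 - l) * a + l * b ∈ C) :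
    ENNReal.ofReal (1 - l) * volume A + ENNReal.ofReal l * volume B ≤ volume C := by
  obtain ⟨a₀, ha₀⟩ := hA0
  obtain ⟨b₀, hb₀⟩ := hB0
  have key : ∀ S T : Set ℝ, S ⊆ A → T ⊆ B → IsCompact S → IsCompact T →
      ENNReal.ofReal (1 - l) * volume S + ENNReal.ofReal l * volume T ≤ volume C :=
    fun S T hS hT hSc hTc =>
    le_trans (add_le_add (mul_le_mul_right (measure_mono (Set.subset_insert a₀ S)) _)
        (mul_le_mul_right (measure_mono (Set.subset_insert b₀ T)) _))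
      (bm_compact h0 h1 (hSc.insert a₀) (hTc.insert b₀) (Set.insert_nonempty _ _)
        (Set.insert_nonempty _ _) fun x hx y hy =>
          h x (Set.insert_subset ha₀ hS hx) y (Set.insert_subset hb₀ hT hy))
  rw [hA.measure_eq_iSup_isCompact, hB.measure_eq_iSup_isCompact]
  simp only [ENNReal.mul_iSup]
  refine ENNReal.biSup_add_biSup_le' ?_ ?_ fun S hS T hT => ?_
  · exact ⟨∅, Set.empty_subset _⟩
  · exact ⟨∅, Set.empty_subset _⟩
  · rcases em (IsCompact S) with hSc | hSc <;> rcases em (IsCompact T) with hTc | hTc <;>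
      simp only [hSc, hTc, iSup_true, iSup_false, ENNReal.bot_eq_zero, zero_add, add_zero]
    · exact key S T hS hT hSc hTc
    · simpa using key S ∅ hS (Set.empty_subset _) hSc isCompact_empty
    · simpa using key ∅ T (Set.empty_subset _) hT isCompact_empty hTc
    · exact zero_le

theorem amgm {l : ℝ} (h0 : 0 < l) (h1 : l < 1) (a b : ℝ≥0∞) :
    a ^ (1 - l) * b ^ l ≤ ENNReal.ofReal (1 - l) * a + ENNReal.ofReal l * b := by
  rcases eq_or_ne a ∞ with rfl | ha
  · simp [ENNReal.mul_top, h1]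
  rcases eq_or_ne b ∞ with rfl | hb
  · simp [ENNReal.mul_top, h0]
  rw [← ENNReal.ofReal_toReal ha, ← ENNReal.ofReal_toReal hb,
    ENNReal.ofReal_rpow_of_nonneg ENNReal.toReal_nonneg (by linarith),
    ENNReal.ofReal_rpow_of_nonneg ENNReal.toReal_nonneg h0.le,
    ← ENNReal.ofReal_mul (by positivity), ← ENNReal.ofReal_mul (by linarith),
    ← ENNReal.ofReal_mul h0.le, ← ENNReal.ofReal_add (by
      exact mul_nonneg (by linarith) ENNReal.toReal_nonneg) (by positivity)]
  exact ENNReal.ofReal_le_ofReal (Real.geom_mean_le_arith_mean2_weighted (by linarith) h0.le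
    ENNReal.toReal_nonneg ENNReal.toReal_nonneg (by ring))

/-- Additive form on the line for functions with supremum one. -/
theorem pl_line_add {l : ℝ} (h0 : 0 < l) (h1 : l < 1) {f g h : ℝ → ℝ} (hf : Measurable f)
    (hg : Measurable g) (hh : Measurable h) (hh0 : ∀ x, 0 ≤ h x) (hf0 : ∀ x, 0 ≤ f x)
    (hg0 : ∀ x, 0 ≤ g x) (hf1 : ∀ x, f x ≤ 1) (hg1 : ∀ x, g x ≤ 1)
    (hfs : ∀ t < 1, ∃ x, t < f x) (hgs : ∀ t < 1, ∃ x, t < g x)
    (hfgh : ∀ x y, f x ^ (1 - l) * g y ^ l ≤ h ((1 - l) * x + l * y)) :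
    ENNReal.ofReal (1 - l) * (∫⁻ x, ENNReal.ofReal (f x))
        + ENNReal.ofReal l * ∫⁻ x, ENNReal.ofReal (g x)
      ≤ ∫⁻ x, ENNReal.ofReal (h x) := by
  have e : ∀ u : ℝ → ℝ, Measurable u → (∀ x, 0 ≤ u x) → (∀ x, u x ≤ 1) →
      ∫⁻ x, ENNReal.ofReal (u x) = ∫⁻ t in Set.Ioo (0 : ℝ) 1, volume {x | t < u x} := by
    intro u hu hu0 hu1
    rw [lintegral_eq_lintegral_meas_lt volume (Filter.Eventually.of_forall hu0) hu.aemeasurable,
      ← lintegral_indicator measurableSet_Ioi, ← lintegral_indicator measurableSet_Ioo]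
    refine lintegral_congr fun t => ?_
    by_cases h0 : 0 < t
    · by_cases h1 : t < 1
      · simp [h0, h1]
      · have : {x | t < u x} = ∅ := Set.eq_empty_iff_forall_notMem.2 fun x hx =>
          h1 (lt_of_lt_of_le hx (hu1 x))
        simp [h0, h1, this]
    · simp [h0]
  rw [e f hf hf0 hf1, e g hg hg0 hg1,
    lintegral_eq_lintegral_meas_lt volume (Filter.Eventually.of_forall hh0) hh.aemeasurable]
  have hm : ∀ u : ℝ → ℝ, Measurable fun t : ℝ => volume {x | t < u x} := fun u =>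
    (show Antitone fun t : ℝ => volume {x | t < u x} from fun s t hst =>
      measure_mono fun x hx => lt_of_le_of_lt hst hx).measurable
  rw [← lintegral_const_mul' _ _ ENNReal.ofReal_ne_top,
    ← lintegral_const_mul' _ _ ENNReal.ofReal_ne_top, ← lintegral_add_left ((hm f).const_mul _)]
  refine le_trans (setLIntegral_mono' measurableSet_Ioo fun t ht => ?_)
    (lintegral_mono_set Set.Ioo_subset_Ioi_self)
  refine bm_measurable h0 h1 (measurableSet_lt measurable_const hf)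
    (measurableSet_lt measurable_const hg) (hfs t ht.2) (hgs t ht.2) fun x hx y hy => ?_
  show t < h _
  refine lt_of_lt_of_le ?_ (hfgh x y)
  calc t = t ^ (1 - l) * t ^ l := by
        rw [← Real.rpow_add ht.1, sub_add_cancel, Real.rpow_one]
    _ < f x ^ (1 - l) * g y ^ l :=
        mul_lt_mul (Real.rpow_lt_rpow ht.1.le hx (by linarith))
          (Real.rpow_le_rpow ht.1.le (le_of_lt hy) h0.le) (Real.rpow_pos_of_pos ht.1 _)
          (Real.rpow_nonneg (hf0 x) _)

/-- Bounded functions on the line. -/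
theorem pl_line_bdd {l : ℝ} (h0 : 0 < l) (h1 : l < 1) {f g h : ℝ → ℝ≥0∞} (hf : Measurable f)
    (hg : Measurable g) (hh : Measurable h) {M : ℝ≥0∞} (hM : M ≠ ⊤) (hfM : ∀ x, f x ≤ M)
    (hgM : ∀ x, g x ≤ M) (hhM : ∀ x, h x ≤ M)
    (hfgh : ∀ x y, f x ^ (1 - l) * g y ^ l ≤ h ((1 - l) * x + l * y)) :
    (∫⁻ x, f x) ^ (1 - l) * (∫⁻ x, g x) ^ l ≤ ∫⁻ x, h x := by
  have h1' : 0 < 1 - l := by linarith
  set a := ⨆ x, f x with ha
  set b := ⨆ x, g x with hb
  have hfa : ∀ x, f x ≤ a := le_iSup f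
  have hgb : ∀ x, g x ≤ b := le_iSup g
  have haT : a ≠ ⊤ := ne_top_of_le_ne_top hM (iSup_le hfM)
  have hbT : b ≠ ⊤ := ne_top_of_le_ne_top hM (iSup_le hgM)
  rcases eq_or_ne a 0 with ha0 | ha0
  · have : ∀ x, f x = 0 := fun x => le_antisymm (ha0 ▸ hfa x) zero_le
    simp [this, ENNReal.zero_rpow_of_pos h1']
  rcases eq_or_ne b 0 with hb0 | hb0
  · have : ∀ x, g x = 0 := fun x => le_antisymm (hb0 ▸ hgb x) zero_le
    simp [this, ENNReal.zero_rpow_of_pos h0]
  set c := a ^ (1 - l) * b ^ l with hc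
  have hc0 : c ≠ 0 := mul_ne_zero (by simp [ha0, haT]) (by simp [hb0, hbT])
  have hcT : c ≠ ⊤ := ENNReal.mul_ne_top (ENNReal.rpow_ne_top_of_nonneg h1'.le haT)
    (ENNReal.rpow_ne_top_of_nonneg h0.le hbT)
  have hf1 : ∀ x, a⁻¹ * f x ≤ 1 := fun x =>
    (ENNReal.inv_mul_le_iff ha0 haT).2 (by simpa using hfa x)
  have hg1 : ∀ x, b⁻¹ * g x ≤ 1 := fun x =>
    (ENNReal.inv_mul_le_iff hb0 hbT).2 (by simpa using hgb x)
  have hh1 : ∀ x, c⁻¹ * h x ≠ ⊤ := fun x =>
    ENNReal.mul_ne_top (ENNReal.inv_ne_top.2 hc0) (ne_top_of_le_ne_top hM (hhM x))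
  have key := pl_line_add h0 h1 (f := fun x => (a⁻¹ * f x).toReal)
    (g := fun x => (b⁻¹ * g x).toReal) (h := fun x => (c⁻¹ * h x).toReal)
    (hf.const_mul _).ennreal_toReal (hg.const_mul _).ennreal_toReal
    (hh.const_mul _).ennreal_toReal (fun x => ENNReal.toReal_nonneg)
    (fun x => ENNReal.toReal_nonneg) (fun x => ENNReal.toReal_nonneg)
    (fun x => by simpa using ENNReal.toReal_mono ENNReal.one_ne_top (hf1 x))
    (fun x => by simpa using ENNReal.toReal_mono ENNReal.one_ne_top (hg1 x))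
    (fun t ht => by
      rcases lt_or_ge t 0 with ht0 | ht0
      · exact ⟨0, lt_of_lt_of_le ht0 ENNReal.toReal_nonneg⟩
      have hlt : ENNReal.ofReal t * a < a := by
        conv_rhs => rw [← one_mul a]
        exact ENNReal.mul_lt_mul_left ha0 haT (by simpa using ENNReal.ofReal_lt_one.2 ht)
      obtain ⟨x, hx⟩ := lt_iSup_iff.1 (lt_of_lt_of_eq hlt ha)
      refine ⟨x, (ENNReal.ofReal_lt_iff_lt_toReal ht0 (ne_top_of_le_ne_top ENNReal.one_ne_top
        (hf1 x))).1 ?_⟩
      rw [← ENNReal.mul_lt_mul_iff_left ha0 haT]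
      exact lt_of_lt_of_le hx (le_of_eq (by
        rw [mul_comm (_⁻¹), mul_assoc, ENNReal.inv_mul_cancel ha0 haT, mul_one])))
    (fun t ht => by
      rcases lt_or_ge t 0 with ht0 | ht0
      · exact ⟨0, lt_of_lt_of_le ht0 ENNReal.toReal_nonneg⟩
      have hlt : ENNReal.ofReal t * b < b := by
        conv_rhs => rw [← one_mul b]
        exact ENNReal.mul_lt_mul_left hb0 hbT (by simpa using ENNReal.ofReal_lt_one.2 ht)
      obtain ⟨x, hx⟩ := lt_iSup_iff.1 (lt_of_lt_of_eq hlt hb)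
      refine ⟨x, (ENNReal.ofReal_lt_iff_lt_toReal ht0 (ne_top_of_le_ne_top ENNReal.one_ne_top
        (hg1 x))).1 ?_⟩
      rw [← ENNReal.mul_lt_mul_iff_left hb0 hbT]
      exact lt_of_lt_of_le hx (le_of_eq (by
        rw [mul_comm (_⁻¹), mul_assoc, ENNReal.inv_mul_cancel hb0 hbT, mul_one])))
    (fun x y => by
      rw [ENNReal.toReal_rpow, ENNReal.toReal_rpow, ← ENNReal.toReal_mul]
      refine ENNReal.toReal_mono (hh1 _) ?_
      calc (a⁻¹ * f x) ^ (1 - l) * (b⁻¹ * g y) ^ l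
          = c⁻¹ * (f x ^ (1 - l) * g y ^ l) := by
            rw [ENNReal.mul_rpow_of_nonneg _ _ h1'.le, ENNReal.mul_rpow_of_nonneg _ _ h0.le,
              ENNReal.inv_rpow, ENNReal.inv_rpow, hc, ENNReal.mul_inv (by simp [ha0, haT])
                (Or.inr (by simp [hb0, hbT]))]
            ring
        _ ≤ c⁻¹ * h ((1 - l) * x + l * y) := mul_le_mul_right (hfgh x y) _)
  have e : ∀ (r : ℝ≥0∞) (u : ℝ → ℝ≥0∞), (∀ x, r * u x ≠ ⊤) → r ≠ ⊤ →
      ∫⁻ x, ENNReal.ofReal (r * u x).toReal = r * ∫⁻ x, u x := by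
    intro r u hu hr
    rw [← lintegral_const_mul' _ _ hr]
    exact lintegral_congr fun x => ENNReal.ofReal_toReal (hu x)
  rw [e _ _ (fun x => ne_top_of_le_ne_top ENNReal.one_ne_top (hf1 x)) (ENNReal.inv_ne_top.2 ha0),
    e _ _ (fun x => ne_top_of_le_ne_top ENNReal.one_ne_top (hg1 x)) (ENNReal.inv_ne_top.2 hb0),
    e _ _ hh1 (ENNReal.inv_ne_top.2 hc0)] at key
  set F := ∫⁻ x, f x
  set G := ∫⁻ x, g x
  have h4 := (amgm h0 h1 (a⁻¹ * F) (b⁻¹ * G)).trans key
  rw [ENNReal.mul_rpow_of_nonneg _ _ h1'.le, ENNReal.mul_rpow_of_nonneg _ _ h0.le,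
    ENNReal.inv_rpow, ENNReal.inv_rpow] at h4
  have h5 : c⁻¹ * (F ^ (1 - l) * G ^ l) ≤ c⁻¹ * ∫⁻ x, h x := by
    refine le_trans (le_of_eq ?_) h4
    rw [hc, ENNReal.mul_inv (by simp [ha0, haT]) (Or.inr (by simp [hb0, hbT]))]
    ring
  exact (ENNReal.mul_le_mul_iff_right (ENNReal.inv_ne_zero.2 hcT) (ENNReal.inv_ne_top.2 hc0)).1 h5

/-- Measurable functions on the line. -/
theorem pl_line {l : ℝ} (h0 : 0 < l) (h1 : l < 1) {f g h : ℝ → ℝ≥0∞} (hf : Measurable f)
    (hg : Measurable g) (hh : Measurable h)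
    (hfgh : ∀ x y, f x ^ (1 - l) * g y ^ l ≤ h ((1 - l) * x + l * y)) :
    (∫⁻ x, f x) ^ (1 - l) * (∫⁻ x, g x) ^ l ≤ ∫⁻ x, h x := by
  have h1' : 0 < 1 - l := by linarith
  have key : ∀ k : ℕ,
      (∫⁻ x, min (f x) k) ^ (1 - l) * (∫⁻ x, min (g x) k) ^ l ≤ ∫⁻ x, h x := by
    intro k
    refine le_trans (pl_line_bdd h0 h1 (hf.min measurable_const) (hg.min measurable_const)
      (hh.min measurable_const) (M := (k : ℝ≥0∞)) (ENNReal.natCast_ne_top k)
      (fun x => min_le_right _ _) (fun x => min_le_right _ _)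
      (h := fun x => min (h x) k) (fun x => min_le_right _ _) fun x y => le_min ?_ ?_)
      (lintegral_mono fun x => min_le_left _ _)
    · exact le_trans (mul_le_mul' (ENNReal.rpow_le_rpow (min_le_left _ _) h1'.le)
        (ENNReal.rpow_le_rpow (min_le_left _ _) h0.le)) (hfgh x y)
    · refine le_trans (mul_le_mul' (ENNReal.rpow_le_rpow (min_le_right _ _) h1'.le)
        (ENNReal.rpow_le_rpow (min_le_right _ _) h0.le)) ?_
      rw [← ENNReal.rpow_add_of_nonneg _ _ h1'.le h0.le, sub_add_cancel, ENNReal.rpow_one]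
  have hsup : ∀ u : ℝ → ℝ≥0∞, Measurable u → ∫⁻ x, u x = ⨆ k : ℕ, ∫⁻ x, min (u x) k := by
    intro u hu
    rw [← lintegral_iSup (fun k => hu.min measurable_const)
      (fun i j hij x => min_le_min le_rfl (Nat.cast_le.2 hij))]
    refine lintegral_congr fun x => ?_
    refine le_antisymm ?_ (iSup_le fun k => min_le_left _ _)
    rcases eq_or_ne (u x) ⊤ with hx | hx
    · simp [hx, ENNReal.iSup_natCast]
    · obtain ⟨k, hk⟩ := ENNReal.exists_nat_gt hx
      exact le_iSup_of_le k (le_min le_rfl hk.le)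
  rw [hsup f hf, hsup g hg]
  rw [show (⨆ k : ℕ, ∫⁻ x, min (f x) k) ^ (1 - l) = ⨆ k : ℕ, (∫⁻ x, min (f x) k) ^ (1 - l) from
      (ENNReal.orderIsoRpow (1 - l) h1').map_iSup _,
    show (⨆ k : ℕ, ∫⁻ x, min (g x) k) ^ l = ⨆ k : ℕ, (∫⁻ x, min (g x) k) ^ l from
      (ENNReal.orderIsoRpow l h0).map_iSup _]
  simp only [ENNReal.iSup_mul, ENNReal.mul_iSup]
  refine iSup_le fun i => iSup_le fun j => le_trans ?_ (key (max i j))
  exact mul_le_mul'
    (ENNReal.rpow_le_rpow (lintegral_mono fun x => min_le_min le_rfl (by simp)) h1'.le)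
    (ENNReal.rpow_le_rpow (lintegral_mono fun x => min_le_min le_rfl (by simp)) h0.le)

/-- The weighted inequality on a finite product of lines. -/
theorem pl_pi {l : ℝ} (h0 : 0 < l) (h1 : l < 1) : ∀ {n : ℕ} {f g h : (Fin n → ℝ) → ℝ≥0∞},
    Measurable f → Measurable g → Measurable h →
    (∀ x y, f x ^ (1 - l) * g y ^ l ≤ h (fun i => (1 - l) * x i + l * y i)) →
    (∫⁻ x, f x) ^ (1 - l) * (∫⁻ x, g x) ^ l ≤ ∫⁻ x, h x := by
  intro n
  induction n with
  | zero =>
    intro f g h hf hg hh hfgh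
    simp only [volume_pi]
    rw [lintegral_unique, lintegral_unique, lintegral_unique, Measure.pi_empty_univ, mul_one,
      mul_one, mul_one]
    refine (hfgh _ _).trans (le_of_eq ?_)
    congr 1
    exact Subsingleton.elim _ _
  | succ n ih =>
    intro f g h hf hg hh hfgh
    let e := MeasurableEquiv.piFinSuccAbove (fun _ : Fin (n + 1) => ℝ) 0
    have he : MeasurePreserving e volume volume :=
      volume_preserving_piFinSuccAbove (fun _ : Fin (n + 1) => ℝ) 0
    have hsymm : ∀ (s : ℝ) (z : Fin n → ℝ), e.symm (s, z) = Fin.cons s z := by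
      intro s z
      simp [e, Fin.consEquiv]
    have key : ∀ u : (Fin (n + 1) → ℝ) → ℝ≥0∞, Measurable u → ∫⁻ x, u x
        = ∫⁻ s : ℝ, ∫⁻ z : Fin n → ℝ, u (Fin.cons s z) := by
      intro u hu
      rw [← (he.symm e).lintegral_comp hu, Measure.volume_eq_prod, lintegral_prod _ ?_]
      · simp only [hsymm]
      · exact (hu.comp e.symm.measurable).aemeasurable
    have hcons : ∀ s : ℝ, Measurable fun z : Fin n → ℝ => (Fin.cons s z : Fin (n + 1) → ℝ) :=
      fun s => by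
        have : (fun z : Fin n → ℝ => (Fin.cons s z : Fin (n + 1) → ℝ))
            = fun z => e.symm (s, z) := by funext z; rw [hsymm]
        rw [this]
        exact e.symm.measurable.comp (measurable_const.prodMk measurable_id)
    have hout : ∀ u : (Fin (n + 1) → ℝ) → ℝ≥0∞, Measurable u →
        Measurable fun s : ℝ => ∫⁻ z : Fin n → ℝ, u (Fin.cons s z) := by
      intro u hu
      have := (hu.comp e.symm.measurable).lintegral_prod_right'
        (ν := (volume : Measure (Fin n → ℝ)))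
      simpa only [Function.comp_apply, hsymm] using this
    rw [key f hf, key g hg, key h hh]
    refine pl_line h0 h1 (hout f hf) (hout g hg) (hout h hh) fun s t => ?_
    refine ih (hf.comp (hcons s)) (hg.comp (hcons t)) (hh.comp (hcons _)) fun x y => ?_
    refine (hfgh _ _).trans (le_of_eq ?_)
    congr 1
    funext i
    refine Fin.cases ?_ (fun j => ?_) i <;> simp

/-- The weighted Prekopa-Leindler inequality on Euclidean space. -/
theorem prekopa {n : ℕ} {l : ℝ} (h0 : 0 < l) (h1 : l < 1) {f g h : Space n → ℝ≥0∞}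
    (hf : Measurable f) (hg : Measurable g) (hh : Measurable h)
    (hfgh : ∀ x y, f x ^ (1 - l) * g y ^ l ≤ h ((1 - l) • x + l • y)) :
    (∫⁻ x, f x) ^ (1 - l) * (∫⁻ x, g x) ^ l ≤ ∫⁻ x, h x := by
  have hp := PiLp.volume_preserving_toLp (Fin n)
  rw [← hp.lintegral_comp hf, ← hp.lintegral_comp hg, ← hp.lintegral_comp hh]
  refine pl_pi h0 h1 (hf.comp hp.measurable) (hg.comp hp.measurable) (hh.comp hp.measurable)
    fun x y => ?_
  refine (hfgh _ _).trans (le_of_eq ?_)
  congr 1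

end Vale.Agent.P245
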