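import Vale.Agent.P245.Pins

/-!
Reduction of the main theorem to compactly supported measures: truncation to a ball, recentring
and scaling.
-/

noncomputable section

open MeasureTheory Set Filter Topology
open scoped ENNReal

namespace Vale.Agent.P245

variable {n : ℕ}

/-- A log-concave density agrees almost everywhere with a measurable extended density that
satisfies the multiplicative form of log-concavity. -/
theorem exists_weight {ρ : Space n → ℝ} (hS : Convex ℝ {x | 0 < ρ x})
    (hlc : ConcaveOn ℝ {x | 0 < ρ x} fun x => Real.log (ρ x)) :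
    ∃ w : Space n → ℝ≥0∞, Measurable w ∧
      (∀ l : ℝ, 0 < l → l < 1 → ∀ x y, w x ^ (1 - l) * w y ^ l ≤ w ((1 - l) • x + l • y)) ∧
      (volume : Measure (Space n)).withDensity (fun x => ENNReal.ofReal (ρ x))
        = volume.withDensity w := by
  classical
  set S := {x | 0 < ρ x}
  have hU : Convex ℝ (interior S) := hS.interior
  have hsub : interior S ⊆ S := interior_subset
  refine ⟨(interior S).indicator fun x => ENNReal.ofReal (ρ x), ?_, ?_, ?_⟩
  · have hc : ContinuousOn (fun x => ENNReal.ofReal (ρ x)) (interior S) := by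
      refine ((ENNReal.continuous_ofReal.comp Real.continuous_exp).comp_continuousOn
        hlc.continuousOn_interior).congr fun x hx => ?_
      simp only [Function.comp_apply, Real.exp_log (show 0 < ρ x from hsub hx)]
    exact hc.measurable_piecewise continuousOn_const isOpen_interior.measurableSet
  · intro l h0l h1l x y
    rcases em (x ∈ interior S) with hx | hx
    · rcases em (y ∈ interior S) with hy | hy
      · have hz : (1 - l) • x + l • y ∈ interior S :=
          hU hx hy (by linarith) h0l.le (by ring)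
        have px : 0 < ρ x := hsub hx
        have py : 0 < ρ y := hsub hy
        have pz : 0 < ρ ((1 - l) • x + l • y) := hsub hz
        rw [indicator_of_mem hx, indicator_of_mem hy, indicator_of_mem hz,
          ENNReal.ofReal_rpow_of_pos px, ENNReal.ofReal_rpow_of_pos py,
          ← ENNReal.ofReal_mul (Real.rpow_nonneg px.le _)]
        refine ENNReal.ofReal_le_ofReal ?_
        rw [← Real.exp_log pz, Real.rpow_def_of_pos px, Real.rpow_def_of_pos py, ← Real.exp_add]
        refine Real.exp_le_exp.2 ?_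
        have := hlc.2 (hsub hx) (hsub hy) (by linarith : (0 : ℝ) ≤ 1 - l) h0l.le (by ring)
        simp only [smul_eq_mul] at this
        linarith
      · simp [indicator_of_notMem hy, ENNReal.zero_rpow_of_pos h0l]
    · simp [indicator_of_notMem hx, ENNReal.zero_rpow_of_pos (show 0 < 1 - l by linarith)]
  · refine withDensity_congr_ae ?_
    have hnull : ∀ᵐ x : Space n, x ∉ frontier S :=
      measure_eq_zero_iff_ae_notMem.1 (hS.addHaar_frontier _)
    filter_upwards [hnull] with x hx
    rcases em (x ∈ interior S) with hi | hi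
    · rw [indicator_of_mem hi]
    · have hnS : x ∉ S := fun hxS => hx ⟨subset_closure hxS, hi⟩
      rw [indicator_of_notMem hi, ENNReal.ofReal_eq_zero]
      exact not_lt.1 hnS

/-- The map used to recentre and rescale. -/
def recen (A : ℝ) (m : Space n) (x : Space n) : Space n := A⁻¹ • (x - m)

@[fun_prop]
theorem continuous_recen (A : ℝ) (m : Space n) : Continuous (recen A m) := by
  unfold recen; fun_prop

theorem recen_inv {A : ℝ} (hA : A ≠ 0) (m x : Space n) : A • recen A m x + m = x := by
  simp [recen, smul_smul, hA]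

/-- An affine image of the restriction to a ball is compactly supported and log-concave. -/
theorem slc_map_restrict {w : Space n → ℝ≥0∞} (hw : Measurable w)
    (hlc : ∀ l : ℝ, 0 < l → l < 1 → ∀ x y, w x ^ (1 - l) * w y ^ l ≤ w ((1 - l) • x + l • y))
    {A r : ℝ} (hA : 0 < A) (m : Space n) {c : ℝ≥0∞}
    (hp : IsProbabilityMeasure
      ((c • (volume.withDensity w).restrict (Metric.closedBall 0 r)).map (recen A m))) :
    IsSLC 0 ((c • (volume.withDensity w).restrict (Metric.closedBall 0 r)).map (recen A m)) := by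
  set B : Set (Space n) := Metric.closedBall 0 r
  have hB : MeasurableSet B := Metric.isClosed_closedBall.measurableSet
  obtain ⟨d, hd⟩ : ∃ d : ℝ≥0∞,
      (volume : Measure (Space n)).map (recen A m) = d • volume := by
    refine ⟨ENNReal.ofReal |((A⁻¹) ^ Module.finrank ℝ (Space n))⁻¹|, ?_⟩
    rw [show recen A m = (fun y => A⁻¹ • y) ∘ fun x => x - m from rfl,
      ← Measure.map_map (by fun_prop) (by fun_prop), map_sub_right_eq_self,
      Measure.map_addHaar_smul _ (inv_ne_zero hA.ne')]
  set u : Space n → ℝ≥0∞ := fun y => c * B.indicator w (A • y + m)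
  have hu : Measurable u := measurable_const.mul ((hw.indicator hB).comp (by fun_prop))
  have heq : (c • (volume.withDensity w).restrict B).map (recen A m)
      = (volume : Measure (Space n)).withDensity (fun y => d * u y) := by
    refine Measure.ext fun s hs => ?_
    have hTs : MeasurableSet (recen A m ⁻¹' s) := (continuous_recen A m).measurable hs
    rw [Measure.map_apply (continuous_recen A m).measurable hs, Measure.smul_apply,
      restrict_withDensity hB, ← withDensity_indicator hB, withDensity_apply _ hTs,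
      withDensity_apply _ hs, lintegral_const_mul _ hu, smul_eq_mul,
      ← lintegral_const_mul _ (hw.indicator hB)]
    calc ∫⁻ x in recen A m ⁻¹' s, c * B.indicator w x
        = ∫⁻ x in recen A m ⁻¹' s, u (recen A m x) := by
          simp only [u, recen_inv hA.ne']
      _ = ∫⁻ y in s, u y ∂(volume : Measure (Space n)).map (recen A m) :=
          (setLIntegral_map hs hu (continuous_recen A m).measurable).symm
      _ = d * ∫⁻ y in s, u y := by rw [hd, Measure.restrict_smul, lintegral_smul_measure, smul_eq_mul]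
  refine ⟨hp, fun y => d * u y, (|r| + ‖m‖) / A, measurable_const.mul hu, heq,
    fun y hy => ?_, fun l h0 h1 x y => ?_⟩
  · have : A • y + m ∉ B := fun h => by
      rw [Metric.mem_closedBall, dist_zero_right] at h
      rw [div_lt_iff₀ hA] at hy
      have h2 : ‖A • y‖ ≤ ‖A • y + m‖ + ‖m‖ := norm_le_add_norm_add _ _
      rw [norm_smul, Real.norm_eq_abs, abs_of_pos hA] at h2
      nlinarith [le_abs_self r]
    simp [u, this]
  · have key : B.indicator w (A • x + m) ^ (1 - l) * B.indicator w (A • y + m) ^ l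
        ≤ B.indicator w (A • ((1 - l) • x + l • y) + m) := by
      rw [show A • ((1 - l) • x + l • y) + m = (1 - l) • (A • x + m) + l • (A • y + m) by module]
      rcases em (A • x + m ∈ B) with hx | hx
      · rcases em (A • y + m ∈ B) with hy | hy
        · rw [indicator_of_mem hx, indicator_of_mem hy, indicator_of_mem
            (convex_closedBall (0 : Space n) r hx hy (by linarith) h0.le (by ring))]
          exact hlc l h0 h1 _ _
        · simp [indicator_of_notMem hy, ENNReal.zero_rpow_of_pos h0]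
      · simp [indicator_of_notMem hx, ENNReal.zero_rpow_of_pos (show 0 < 1 - l by linarith)]
    simp only [u, zero_mul, zero_div, Real.exp_zero, ENNReal.ofReal_one, mul_one]
    rw [← mul_assoc, ← mul_assoc, ← mul_assoc, ENNReal.mul_rpow_of_nonneg _ _ (by linarith),
      ENNReal.mul_rpow_of_nonneg _ _ h0.le]
    calc _ = ((d * c) ^ (1 - l) * (d * c) ^ l)
          * (B.indicator w (A • x + m) ^ (1 - l) * B.indicator w (A • y + m) ^ l) := by ring
      _ ≤ (d * c) * B.indicator w (A • ((1 - l) • x + l • y) + m) := by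
          rw [← ENNReal.rpow_add_of_nonneg _ _ (by linarith) h0.le, sub_add_cancel,
            ENNReal.rpow_one]
          gcongr

/-- The integral against an affine image of a normalised restriction. -/
theorem integral_map_restrict {μ : Measure (Space n)} [IsFiniteMeasure μ] {B : Set (Space n)}
    (A : ℝ) (m : Space n) {F : Type*} [NormedAddCommGroup F] [NormedSpace ℝ F]
    [SecondCountableTopology F] [MeasurableSpace F] [BorelSpace F] {G : Space n → F}
    (hG : Continuous G) :
    ∫ y, G y ∂((μ B)⁻¹ • μ.restrict B).map (recen A m)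
      = (μ.real B)⁻¹ • ∫ x in B, G (recen A m x) ∂μ := by
  rw [integral_map (continuous_recen A m).aemeasurable hG.aestronglyMeasurable,
    integral_smul_measure, ENNReal.toReal_inv, measureReal_def]

/-- Linear subgaussianity gives integrability of linear forms and of a smaller exponential
moment. -/
theorem subgauss_moment {μ : Measure (Space n)} [IsProbabilityMeasure μ] {a : ℝ} (ha : 0 < a)
    {θ : Space n}
    (h : ∫⁻ x, ENNReal.ofReal (Real.exp (inner ℝ x θ ^ 2 / a ^ 2)) ∂μ ≤ 2) :
    Integrable (fun x => inner ℝ x θ) μ ∧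
      Integrable (fun x => Real.exp (inner ℝ x θ ^ 2 / (4 * a ^ 2))) μ ∧
      ∫ x, Real.exp (inner ℝ x θ ^ 2 / (4 * a ^ 2)) ∂μ ≤ 5 / 4 := by
  have hc : Continuous fun x : Space n => Real.exp (inner ℝ x θ ^ 2 / a ^ 2) := by fun_prop
  have hfin : Integrable (fun x => Real.exp (inner ℝ x θ ^ 2 / a ^ 2)) μ :=
    (lintegral_ofReal_ne_top_iff_integrable hc.aestronglyMeasurable
      (ae_of_all _ fun x => (Real.exp_pos _).le)).1 (ne_top_of_le_ne_top (by norm_num) h)
  have h2 : ∫ x, Real.exp (inner ℝ x θ ^ 2 / a ^ 2) ∂μ ≤ 2 := by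
    rw [← ENNReal.ofReal_le_ofReal_iff (by norm_num),
      ofReal_integral_eq_lintegral_ofReal hfin (ae_of_all _ fun x => (Real.exp_pos _).le)]
    simpa using h
  have hpt : ∀ x : Space n, Real.exp (inner ℝ x θ ^ 2 / (4 * a ^ 2))
      ≤ (3 + Real.exp (inner ℝ x θ ^ 2 / a ^ 2)) / 4 := fun x => by
    have he : Real.exp (inner ℝ x θ ^ 2 / a ^ 2)
        = Real.exp (inner ℝ x θ ^ 2 / (4 * a ^ 2)) ^ 4 := by
      rw [← Real.exp_nat_mul]; congr 1; push_cast; ring
    have hu := Real.exp_pos (inner ℝ x θ ^ 2 / (4 * a ^ 2))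
    rw [he]
    nlinarith [sq_nonneg (Real.exp (inner ℝ x θ ^ 2 / (4 * a ^ 2)) ^ 2 - 1),
      sq_nonneg (Real.exp (inner ℝ x θ ^ 2 / (4 * a ^ 2)) - 1)]
  have hi4 : Integrable (fun x => Real.exp (inner ℝ x θ ^ 2 / (4 * a ^ 2))) μ :=
    (((integrable_const 3).add hfin).div_const 4).mono' (by fun_prop : Continuous fun x : Space n =>
      Real.exp (inner ℝ x θ ^ 2 / (4 * a ^ 2))).aestronglyMeasurable
      (ae_of_all _ fun x => by
        rw [Real.norm_eq_abs, abs_of_pos (Real.exp_pos _)]; exact hpt x)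
  refine ⟨(hfin.const_mul a).mono' (by fun_prop : Continuous fun x : Space n =>
    inner ℝ x θ).aestronglyMeasurable (ae_of_all _ fun x => ?_), hi4, ?_⟩
  · have h1 := Real.add_one_le_exp (inner ℝ x θ ^ 2 / a ^ 2)
    have h3 : |inner ℝ x θ / a| ≤ Real.exp (inner ℝ x θ ^ 2 / a ^ 2) := by
      rw [← div_pow] at h1 ⊢
      nlinarith [sq_nonneg (|inner ℝ x θ / a| - 1 / 2), sq_abs (inner ℝ x θ / a)]
    rw [abs_div, abs_of_pos ha, div_le_iff₀ ha] at h3
    rw [Real.norm_eq_abs]; linarith
  · calc _ ≤ ∫ x, (3 + Real.exp (inner ℝ x θ ^ 2 / a ^ 2)) / 4 ∂μ :=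
          integral_mono hi4 (((integrable_const 3).add hfin).div_const 4) hpt
      _ ≤ _ := by
          rw [integral_div, integral_add (integrable_const _) hfin, integral_const]
          simp only [probReal_univ, one_smul]
          linarith

/-- The identity is integrable when all coordinates are. -/
theorem integrable_id_of_coord {μ : Measure (Space n)}
    (h : ∀ i, Integrable (fun x : Space n => inner ℝ x (ev i)) μ) :
    Integrable (fun x : Space n => x) μ := by
  have hsum : Integrable (fun x : Space n => ∑ i, ‖inner ℝ x (ev i)‖) μ :=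
    integrable_finsetSum Finset.univ fun i _ => (h i).norm
  refine hsum.mono' (continuous_id'.aestronglyMeasurable (μ := μ)) (ae_of_all _ fun x => ?_)
  calc ‖x‖ = ‖∑ i, x i • ev i‖ := by
        congr 1; ext j; simp [ev, Pi.single_apply]
    _ ≤ ∑ i, ‖x i • ev i‖ := norm_sum_le _ _
    _ = _ := by simp [norm_smul, EuclideanSpace.inner_single_right]

/-- The bound on one recentred and rescaled truncation. -/
theorem trunc_bound {C b : ℝ}
    (hcore : ∀ (n : ℕ) (μ : Measure (Space n)), 1 ≤ n → IsSLC 0 μ → Sub1 μ →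
      ∀ f : Space n → ℝ, ContDiff ℝ 2 f →
        ent μ (fun x => f x ^ 2) ≤ C * (n : ℝ) ^ b * dir μ f)
    (hn : 1 ≤ n) {μ : Measure (Space n)} [IsProbabilityMeasure μ] {w : Space n → ℝ≥0∞}
    (hw : Measurable w)
    (hwlc : ∀ l : ℝ, 0 < l → l < 1 → ∀ x y, w x ^ (1 - l) * w y ^ l ≤ w ((1 - l) • x + l • y))
    (hμ : μ = (volume : Measure (Space n)).withDensity w)
    (hid : Integrable (fun x : Space n => x) μ) {a : ℝ} (ha : 0 < a)
    (hsub : ∀ θ : Space n, ‖θ‖ = 1 →
      ∫⁻ x, ENNReal.ofReal (Real.exp (inner ℝ x θ ^ 2 / a ^ 2)) ∂μ ≤ 2)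
    {r : ℝ} {p : ℝ} {m : Space n} (hp : p = μ.real (Metric.closedBall 0 r)) (hpk : 0 < p)
    (hm : m = p⁻¹ • ∫ x in Metric.closedBall 0 r, x ∂μ)
    (hk : p⁻¹ * Real.exp (‖m‖ ^ 2 / (4 * a ^ 2)) * (5 / 4) ≤ 2)
    {A : ℝ} (hA : 0 < A) (hA2 : A ^ 2 = 8 * a ^ 2) {f : Space n → ℝ} (hf2 : ContDiff ℝ 2 f) :
    p⁻¹ * (∫ x in Metric.closedBall 0 r, f x ^ 2 * Real.log (f x ^ 2) ∂μ)
      - p⁻¹ * (∫ x in Metric.closedBall 0 r, f x ^ 2 ∂μ)
        * Real.log (p⁻¹ * ∫ x in Metric.closedBall 0 r, f x ^ 2 ∂μ)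
    ≤ C * (n : ℝ) ^ b * (A ^ 2 * (p⁻¹ *
        ∫ x in Metric.closedBall 0 r, ‖fderiv ℝ f x‖ ^ 2 ∂μ)) := by
  set ν := ((μ (Metric.closedBall 0 r))⁻¹ • μ.restrict (Metric.closedBall 0 r)).map (recen A m)
  have hB0 : μ (Metric.closedBall 0 r) ≠ 0 := fun e => by simp [hp, measureReal_def, e] at hpk
  have hνp : IsProbabilityMeasure ν := by
    refine ⟨?_⟩
    rw [Measure.map_apply (continuous_recen _ _).measurable MeasurableSet.univ]
    simp [ENNReal.inv_mul_cancel hB0 (measure_ne_top _ _)]
  have hint : ∀ {G : Space n → ℝ}, Continuous G →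
      ∫ y, G y ∂ν = p⁻¹ * ∫ x in Metric.closedBall 0 r, G (recen A m x) ∂μ :=
    fun hG => by rw [hp]; exact integral_map_restrict A m hG
  have hslc : IsSLC 0 ν := by
    have := slc_map_restrict hw hwlc hA m (r := r) (c := (μ (Metric.closedBall 0 r))⁻¹)
    rw [← hμ] at this
    exact this hνp
  have hsub1 : Sub1 ν := by
    refine ⟨?_, fun θ hθ => ?_⟩
    · rw [show ν = ((μ (Metric.closedBall 0 r))⁻¹ • μ.restrict (Metric.closedBall 0 r)).map (recen A m) from rfl,
        integral_map_restrict A m continuous_id']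
      simp only [recen]
      rw [integral_smul, integral_sub hid.integrableOn (integrable_const _), setIntegral_const]
      rw [← hp, hm]
      simp only [smul_smul]
      rw [mul_inv_cancel₀ hpk.ne', one_smul, sub_self, smul_zero]
    · obtain ⟨-, hi4, h54⟩ := subgauss_moment ha (hsub θ hθ)
      rw [hint (by fun_prop)]
      have hpt : ∀ x, Real.exp (inner ℝ (recen A m x) θ ^ 2)
          ≤ Real.exp (‖m‖ ^ 2 / (4 * a ^ 2)) * Real.exp (inner ℝ x θ ^ 2 / (4 * a ^ 2)) := by
        intro x
        rw [← Real.exp_add, Real.exp_le_exp, recen, real_inner_smul_left, mul_pow, inv_pow, hA2,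
          inner_sub_left, inv_mul_le_iff₀ (by positivity), mul_add,
          show 8 * a ^ 2 * (‖m‖ ^ 2 / (4 * a ^ 2)) = 2 * ‖m‖ ^ 2 by field_simp; ring,
          show 8 * a ^ 2 * (inner ℝ x θ ^ 2 / (4 * a ^ 2)) = 2 * inner ℝ x θ ^ 2 by
            field_simp; ring]
        have h1 : inner ℝ m θ ^ 2 ≤ ‖m‖ ^ 2 := by
          have h2 := abs_real_inner_le_norm m θ
          rw [hθ, mul_one] at h2
          exact sq_le_sq' (abs_le.1 h2).1 (abs_le.1 h2).2
        nlinarith [sq_nonneg (inner ℝ x θ + inner ℝ m θ)]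
      calc p⁻¹ * ∫ x in Metric.closedBall 0 r, Real.exp (inner ℝ (recen A m x) θ ^ 2) ∂μ
          ≤ p⁻¹ * ∫ x, Real.exp (‖m‖ ^ 2 / (4 * a ^ 2))
              * Real.exp (inner ℝ x θ ^ 2 / (4 * a ^ 2)) ∂μ := by
            refine mul_le_mul_of_nonneg_left ?_ (by positivity)
            refine le_trans (integral_mono_of_nonneg (ae_of_all _ fun x => (Real.exp_pos _).le)
              (hi4.const_mul _).integrableOn (ae_of_all _ hpt)) ?_
            exact setIntegral_le_integral (hi4.const_mul _) (ae_of_all _ fun x => by positivity)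
        _ ≤ p⁻¹ * (Real.exp (‖m‖ ^ 2 / (4 * a ^ 2)) * (5 / 4)) := by
            rw [integral_const_mul]; gcongr
        _ ≤ 2 := by rw [← mul_assoc]; exact hk
  set g : Space n → ℝ := fun y => f (A • y + m) with hg
  have hgC : ContDiff ℝ 2 g := hf2.comp ((contDiff_id.const_smul A).add contDiff_const)
  have hge : ∀ x, g (recen A m x) = f x := fun x => by simp [hg, recen_inv hA.ne']
  have hgd : ∀ y, ‖fderiv ℝ g y‖ ^ 2 = A ^ 2 * ‖fderiv ℝ f (A • y + m)‖ ^ 2 := fun y => by
    have h1 : HasFDerivAt (fun z : Space n => A • z + m)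
        (A • ContinuousLinearMap.id ℝ (Space n)) y :=
      ((hasFDerivAt_id y).const_smul A).add_const m
    have h2 := ((hf2.differentiable (by norm_num)).differentiableAt
      (x := A • y + m)).hasFDerivAt.comp y h1
    rw [show g = f ∘ fun z => A • z + m from rfl, h2.fderiv,
      ContinuousLinearMap.comp_smul, ContinuousLinearMap.comp_id, norm_smul, Real.norm_eq_abs,
      mul_pow, sq_abs]
  have hfd : Continuous (fderiv ℝ f) := hf2.continuous_fderiv (by norm_num)
  have key := hcore n ν hn hslc hsub1 g hgC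
  have e1 : ∫ y, g y ^ 2 ∂ν = p⁻¹ * ∫ x in Metric.closedBall 0 r, f x ^ 2 ∂μ := by
    rw [hint (G := fun y => g y ^ 2) (hgC.continuous.pow 2)]; simp only [hge]
  have e2 : ∫ y, g y ^ 2 * Real.log (g y ^ 2) ∂ν
      = p⁻¹ * ∫ x in Metric.closedBall 0 r, f x ^ 2 * Real.log (f x ^ 2) ∂μ := by
    rw [hint (G := fun y => g y ^ 2 * Real.log (g y ^ 2))
      (Real.continuous_mul_log.comp (hgC.continuous.pow 2))]
    simp only [hge]
  have e3 : dir ν g = A ^ 2 * (p⁻¹ * ∫ x in Metric.closedBall 0 r, ‖fderiv ℝ f x‖ ^ 2 ∂μ) := by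
    simp only [dir, hgd]
    rw [integral_const_mul, hint (G := fun y => ‖fderiv ℝ f (A • y + m)‖ ^ 2) (by fun_prop)]
    simp only [recen_inv hA.ne']
  simp only [ent] at key
  rw [e1, e2, e3] at key
  exact key

/-- The three functions of a test function that enter the inequality are integrable. -/
theorem integrable_test {μ : Measure (Space n)} [IsProbabilityMeasure μ] {f : Space n → ℝ}
    (hf : ContDiff ℝ 2 f) (hfs : HasCompactSupport f) :
    Integrable (fun x => f x ^ 2) μ ∧ Integrable (fun x => f x ^ 2 * Real.log (f x ^ 2)) μ ∧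
      Integrable (fun x => ‖fderiv ℝ f x‖ ^ 2) μ := by
  have hc := hf.continuous
  have key : ∀ G : Space n → ℝ, Continuous G → (∀ x, x ∉ tsupport f → G x = 0) →
      Integrable G μ := fun G hG h0 =>
    hG.integrable_of_hasCompactSupport
      (HasCompactSupport.intro hfs.isCompact fun x hx => h0 x hx)
  refine ⟨key _ (hc.pow 2) fun x hx => ?_, key _ (Real.continuous_mul_log.comp (hc.pow 2))
    fun x hx => ?_, key _ ((hf.continuous_fderiv (by norm_num)).norm.pow 2) fun x hx => ?_⟩
  · simp [image_eq_zero_of_notMem_tsupport hx]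
  · simp [image_eq_zero_of_notMem_tsupport hx]
  · simp [fderiv_of_notMem_tsupport ℝ hx]

/-- The core bound for compactly supported measures gives the bound for all centred log-concave
densities. -/
theorem final_of_core {b : ℝ} (h : CoreBound b) :
    ∃ C : ℝ, 0 < C ∧ ∀ n : ℕ, 1 ≤ n → ∀ ρ : Space n → ℝ, (∀ x, 0 ≤ ρ x) →
      Convex ℝ {x | 0 < ρ x} → ConcaveOn ℝ {x | 0 < ρ x} (fun x => Real.log (ρ x)) →
      ∀ μ : Measure (Space n),
        μ = (volume : Measure (Space n)).withDensity (fun x => ENNReal.ofReal (ρ x)) →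
      IsProbabilityMeasure μ → (∫ x, x ∂μ) = 0 →
      ∀ a : ℝ, 0 < a →
      (∀ θ : Space n, ‖θ‖ = 1 →
        ∫⁻ x, ENNReal.ofReal (Real.exp (inner ℝ x θ ^ 2 / a ^ 2)) ∂μ ≤ 2) →
      ∀ f : Space n → ℝ, ContDiff ℝ (⊤ : ℕ∞) f → HasCompactSupport f →
        ent μ (fun x => f x ^ 2) ≤ C * (n : ℝ) ^ b * a ^ 2 * dir μ f := by
  obtain ⟨C, hC, hcore⟩ := h
  refine ⟨8 * C, by positivity, fun n hn ρ _ hS hlc μ hμ hprob hcen a ha hsub f hf hfs => ?_⟩
  obtain ⟨w, hw, hwlc, hweq⟩ := exists_weight hS hlc
  rw [hweq] at hμ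
  set A : ℝ := √8 * a
  have hA : 0 < A := by positivity
  have hA2 : A ^ 2 = 8 * a ^ 2 := by simp [A, mul_pow]
  -- integrability of the identity
  have hid : Integrable (fun x : Space n => x) μ := integrable_id_of_coord fun i =>
    (subgauss_moment ha (hsub (ev i) (by simp))).1
  set B : ℕ → Set (Space n) := fun k => Metric.closedBall 0 k
  have hBm : ∀ k, MeasurableSet (B k) := fun k => Metric.isClosed_closedBall.measurableSet
  have hlim : ∀ {F : Type} [NormedAddCommGroup F] [NormedSpace ℝ F] {G : Space n → F},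
      Integrable G μ → Tendsto (fun k => ∫ x in B k, G x ∂μ) atTop (𝓝 (∫ x, G x ∂μ)) := by
    intro F _ _ G hG
    have hun : ⋃ k, B k = univ := eq_univ_of_forall fun x => mem_iUnion.2
      ⟨⌈‖x‖⌉₊, by simpa [B] using Nat.le_ceil ‖x‖⟩
    have := tendsto_setIntegral_of_monotone hBm
      (fun i j hij => Metric.closedBall_subset_closedBall (by exact_mod_cast hij))
      (f := G) (μ := μ) hG.integrableOn
    rwa [hun, setIntegral_univ] at this
  set p : ℕ → ℝ := fun k => μ.real (B k)
  have hp : Tendsto p atTop (𝓝 1) := by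
    have := hlim (integrable_const (μ := μ) (1 : ℝ))
    simpa [p] using this
  set m : ℕ → Space n := fun k => (p k)⁻¹ • ∫ x in B k, x ∂μ
  have hm : Tendsto m atTop (𝓝 0) := by
    have := (hp.inv₀ one_ne_zero).smul (hlim hid)
    simpa [m, hcen] using this
  -- eventually the recentred truncation is one-subgaussian
  have hev : ∀ᶠ k in atTop,
      0 < p k ∧ (p k)⁻¹ * Real.exp (‖m k‖ ^ 2 / (4 * a ^ 2)) * (5 / 4) ≤ 2 := by
    refine Filter.Eventually.and (hp.eventually (eventually_gt_nhds one_pos)) ?_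
    have : Tendsto (fun k => (p k)⁻¹ * Real.exp (‖m k‖ ^ 2 / (4 * a ^ 2)) * (5 / 4)) atTop
        (𝓝 (5 / 4)) := by
      simpa using (((hp.inv₀ one_ne_zero).mul ((Real.continuous_exp.tendsto _).comp
        ((hm.norm.pow 2).div_const (4 * a ^ 2)))).mul_const (5 / 4 : ℝ))
    exact (this.eventually (eventually_lt_nhds (by norm_num))).mono fun k hk => hk.le
  have hf2 : ContDiff ℝ 2 f := hf.of_le (by norm_cast)
  -- the bound on each truncation
  have hbound : ∀ᶠ k in atTop,
      (p k)⁻¹ * (∫ x in B k, f x ^ 2 * Real.log (f x ^ 2) ∂μ)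
        - (p k)⁻¹ * (∫ x in B k, f x ^ 2 ∂μ)
          * Real.log ((p k)⁻¹ * ∫ x in B k, f x ^ 2 ∂μ)
      ≤ C * (n : ℝ) ^ b * (A ^ 2 * ((p k)⁻¹ * ∫ x in B k, ‖fderiv ℝ f x‖ ^ 2 ∂μ)) :=
    hev.mono fun k hk => trunc_bound hcore hn hw hwlc hμ hid ha hsub rfl hk.1 rfl hk.2 hA hA2 hf2
  -- the limit
  have hc := hf2.continuous
  obtain ⟨i1, i2, i3⟩ := integrable_test (μ := μ) hf2 hfs
  have hpi := hp.inv₀ one_ne_zero
  rw [inv_one] at hpi
  have l1 := hpi.mul (hlim i1)
  have l2 := hpi.mul (hlim i2)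
  have l3 := hpi.mul (hlim i3)
  rw [one_mul] at l1 l2 l3
  have hlog := (Real.continuous_mul_log.tendsto _).comp l1
  have := le_of_tendsto_of_tendsto (l2.sub hlog) ((l3.const_mul (A ^ 2)).const_mul (C * (n : ℝ) ^ b))
    hbound
  rw [hA2] at this
  calc ent μ (fun x => f x ^ 2) ≤ C * (n : ℝ) ^ b * (8 * a ^ 2 * dir μ f) := this
    _ = _ := by ring

end Vale.Agent.P245
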