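import Mathlib

/-!
# Log-Sobolev constants of subgaussian log-concave measures: basic definitions

Compactly supported strongly log-concave probability measures on Euclidean space, the entropy
functional and the Dirichlet form.
-/

noncomputable section

open MeasureTheory Set
open scoped ENNReal

namespace Vale.Agent.P245

/-- Euclidean space of dimension `n`. -/
abbrev Space (n : ℕ) := EuclideanSpace ℝ (Fin n)

variable {n : ℕ}

/-- The entropy of a function. -/
def ent (μ : Measure (Space n)) (F : Space n → ℝ) : ℝ :=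
  ∫ x, F x * Real.log (F x) ∂μ - (∫ x, F x ∂μ) * Real.log (∫ x, F x ∂μ)

/-- The variance of a function. -/
def var (μ : Measure (Space n)) (F : Space n → ℝ) : ℝ :=
  ∫ x, (F x - ∫ y, F y ∂μ) ^ 2 ∂μ

/-- The Dirichlet form. -/
def dir (μ : Measure (Space n)) (f : Space n → ℝ) : ℝ :=
  ∫ x, ‖fderiv ℝ f x‖ ^ 2 ∂μ

/-- A compactly supported probability measure with a density that is `τ`-strongly log-concave
(plainly log-concave for `τ = 0`). -/
def IsSLC (τ : ℝ) (μ : Measure (Space n)) : Prop :=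
  IsProbabilityMeasure μ ∧ ∃ (w : Space n → ℝ≥0∞) (R : ℝ), Measurable w ∧
    μ = (volume : Measure (Space n)).withDensity w ∧ (∀ x, R < ‖x‖ → w x = 0) ∧
    ∀ l : ℝ, 0 < l → l < 1 → ∀ x y,
      w x ^ (1 - l) * w y ^ l * ENNReal.ofReal (Real.exp (τ * l * (1 - l) * ‖x - y‖ ^ 2 / 2))
        ≤ w ((1 - l) • x + l • y)

/-- Linear one-subgaussianity of a centred measure. -/
def Sub1 (μ : Measure (Space n)) : Prop :=
  (∫ x, x ∂μ) = 0 ∧ ∀ θ : Space n, ‖θ‖ = 1 → ∫ x, Real.exp (inner ℝ x θ ^ 2) ∂μ ≤ 2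

end Vale.Agent.P245
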