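import Vale.Agent.P245.Func

/-!
Borell's lemma: seminorms of a log-concave vector have exponential tails at the scale of their
second moment.
-/

noncomputable section

open MeasureTheory Set Filter Topology
open scoped ENNReal

namespace Vale.Agent.P245

variable {n : ℕ} {τ : ℝ} {μ : Measure (Space n)}

theorem lintegral_exp_eighth_le {ν : Measure (Space n)} [IsProbabilityMeasure ν] {Y : Space n → ℝ}
    (hY : Measurable Y) (htail : ∀ u : ℝ, 0 ≤ u → ν {x | u < Y x} ≤
      ENNReal.ofReal (2 * Real.exp (-(u / 4)))) :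
    ∫⁻ x, ENNReal.ofReal (Real.exp (Y x / 8)) ∂ν ≤ ENNReal.ofReal 32 := by
  set c : ℕ → ℝ := fun j => Real.exp (((j : ℝ) + 2) / 8) with hc
  have hm : ∀ j : ℕ, MeasurableSet {x | (j : ℝ) + 1 < Y x} := fun j =>
    measurableSet_lt measurable_const hY
  have hpt : ∀ x, ENNReal.ofReal (Real.exp (Y x / 8)) ≤ ENNReal.ofReal (Real.exp (1 / 8))
      + ∑' j : ℕ, {x | (j : ℝ) + 1 < Y x}.indicator (fun _ => ENNReal.ofReal (c j)) x := by
    intro x
    rcases le_or_gt (Y x) 1 with hx | hx
    · exact le_add_right (ENNReal.ofReal_le_ofReal (Real.exp_le_exp.2 (by linarith)))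
    · set j := ⌈Y x⌉₊ - 2 with hj
      have h2 : 2 ≤ ⌈Y x⌉₊ := Nat.lt_ceil.2 (by exact_mod_cast hx)
      have hjc : (j : ℝ) + 2 = ⌈Y x⌉₊ := by rw [hj, Nat.cast_sub h2]; ring
      refine le_add_left (le_trans ?_ (ENNReal.le_tsum j))
      rw [indicator_of_mem]
      · refine ENNReal.ofReal_le_ofReal (Real.exp_le_exp.2 ?_)
        have := Nat.le_ceil (Y x)
        linarith
      · show (j : ℝ) + 1 < Y x
        have := Nat.ceil_lt_add_one (show 0 ≤ Y x by linarith)
        linarith
  refine (lintegral_mono hpt).trans ?_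
  rw [lintegral_add_left measurable_const, lintegral_const, measure_univ, mul_one,
    lintegral_tsum fun j => (measurable_const.indicator (hm j)).aemeasurable]
  set r := Real.exp (-(1 / 8 : ℝ)) with hr
  have hr1 : r < 1 := Real.exp_lt_one_iff.2 (by norm_num)
  have hgeom : HasSum (fun j : ℕ => 2 * r ^ j) (2 * (1 - r)⁻¹) :=
    (hasSum_geometric_of_lt_one (Real.exp_pos _).le hr1).mul_left 2
  have hterm : ∀ j : ℕ, ∫⁻ x, {x | (j : ℝ) + 1 < Y x}.indicator (fun _ => ENNReal.ofReal (c j)) x ∂ν
      ≤ ENNReal.ofReal (2 * r ^ j) := by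
    intro j
    rw [lintegral_indicator_const (hm j)]
    refine (mul_le_mul_right (htail _ (by positivity)) _).trans ?_
    rw [← ENNReal.ofReal_mul (Real.exp_pos _).le]
    refine ENNReal.ofReal_le_ofReal (le_of_eq ?_)
    rw [hr, ← Real.exp_nat_mul]
    rw [mul_left_comm, ← Real.exp_add]
    congr 2
    ring
  refine (add_le_add le_rfl (ENNReal.tsum_le_tsum hterm)).trans ?_
  rw [← ENNReal.ofReal_tsum_of_nonneg (fun j => by positivity) hgeom.summable, hgeom.tsum_eq,
    ← ENNReal.ofReal_add (Real.exp_pos _).le (by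
      have : 0 < 1 - r := by linarith
      positivity)]
  refine ENNReal.ofReal_le_ofReal ?_
  have h8 : Real.exp (1 / 8) ≤ 8 / 7 := by
    have := Real.exp_bound_div_one_sub_of_interval (x := 1 / 8) (by norm_num) (by norm_num)
    norm_num at this ⊢; exact this
  have hr9 : r ≤ 8 / 9 := by
    rw [hr, Real.exp_neg]
    have := Real.add_one_le_exp (1 / 8 : ℝ)
    rw [inv_le_comm₀ (Real.exp_pos _) (by norm_num)]
    linarith
  have : (1 - r)⁻¹ ≤ 9 := by
    rw [inv_le_comm₀ (by linarith) (by norm_num)]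
    linarith
  linarith

/-- Borell's lemma for a function with the reverse triangle inequality. -/
theorem IsSLC.borell (h : IsSLC τ μ) (hτ : 0 ≤ τ) {N : Space n → ℝ} (hc : Continuous N)
    (h0 : ∀ x, 0 ≤ N x)
    (hN : ∀ x y (a : ℝ), 0 ≤ a → a ≤ 1 → a * N x - (1 - a) * N y ≤ N (a • x + (1 - a) • y)) :
    ∫ x, Real.exp (N x / (40 * Real.sqrt (∫ y, N y ^ 2 ∂μ))) ∂μ ≤ 2 ∧
      ∫ x, N x ^ 4 ∂μ ≤ 2 ^ 22 * (∫ y, N y ^ 2 ∂μ) ^ 2 := by
  have hpr := h.prob
  obtain ⟨R, hR0, hR, hpl⟩ := h.pl
  set S := ∫ y, N y ^ 2 ∂μ with hS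
  set s := Real.sqrt S with hs
  have hS0 : 0 ≤ S := integral_nonneg fun x => sq_nonneg _
  have hi : ∀ u : Space n → ℝ, Continuous u → Integrable u μ := fun u hu => integrable_of_ball hR hu
  rcases hS0.eq_or_lt with hz | hpos
  · have hz' : (fun x => N x ^ 2) =ᵐ[μ] 0 :=
      (integral_eq_zero_iff_of_nonneg (fun x => sq_nonneg _) (hi _ (hc.pow 2))).1 hz.symm
    have hs0 : s = 0 := by rw [hs, ← hz, Real.sqrt_zero]
    constructor
    · simp [hs0]
    · rw [← hz]
      refine le_of_eq ?_
      rw [zero_pow two_ne_zero, mul_zero]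
      exact integral_eq_zero_of_ae (hz'.mono fun x hx => by
        simp [show N x ^ 4 = (N x ^ 2) ^ 2 by ring, show N x ^ 2 = 0 from hx])
  have hs0 : 0 < s := Real.sqrt_pos.2 hpos
  have hmeas : ∀ u : ℝ, MeasurableSet {x | u < N x} := fun u =>
    measurableSet_lt measurable_const hc.measurable
  set θ := μ.real {x | 2 * s < N x}ᶜ with hθ
  have hθ' : μ.real {x | 2 * s < N x} ≤ 1 / 4 := by
    have := mul_meas_ge_le_integral_of_nonneg (μ := μ)
      (ae_of_all _ fun x => sq_nonneg (N x)) (hi _ (hc.pow 2)) ((2 * s) ^ 2)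
    have hsub : μ.real {x | 2 * s < N x} ≤ μ.real {x | (2 * s) ^ 2 ≤ N x ^ 2} :=
      measureReal_mono fun x hx => pow_le_pow_left₀ (show (0 : ℝ) ≤ 2 * s by positivity) (le_of_lt hx) 2
    rw [mul_pow, Real.sq_sqrt hS0] at this hsub
    rw [← hS] at this
    nlinarith
  have hθeq : θ = 1 - μ.real {x | 2 * s < N x} := probReal_compl_eq_one_sub (hmeas _)
  have hθ3 : 3 / 4 ≤ θ := by linarith
  have htail : ∀ u : ℝ, 0 ≤ u → μ {x | u < N x / s} ≤ ENNReal.ofReal (2 * Real.exp (-(u / 4))) := by
    intro u hu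
    have hset : {x | u < N x / s} = {x | u * s < N x} := by
      ext x; exact lt_div_iff₀ hs0
    rcases le_or_gt u 2 with h2 | h2
    · refine (prob_le_one).trans ?_
      rw [← ENNReal.ofReal_one]
      refine ENNReal.ofReal_le_ofReal ?_
      have := Real.add_one_le_exp (-(u / 4))
      linarith
    · set a : ℝ := 2 / (u / 2 + 1) with ha
      have ha0 : 0 < a := by positivity
      have ha1 : a < 1 := by rw [ha, div_lt_one (by linarith)]; linarith
      have key := hpl (l := 1 - a) (by linarith) (by linarith)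
        (A := {x | u * s < N x}.indicator (1 : Space n → ℝ≥0∞))
        (B := {x | 2 * s < N x}ᶜ.indicator (1 : Space n → ℝ≥0∞))
        (C := {x | 2 * s < N x}.indicator (1 : Space n → ℝ≥0∞)) (measurable_one.indicator (hmeas _))
        (measurable_one.indicator (hmeas _).compl) (measurable_one.indicator (hmeas _))
        fun x y _ _ => by
        rw [sub_sub_cancel]
        by_cases hx : x ∈ {x | u * s < N x}
        · by_cases hy : y ∈ {x | 2 * s < N x}ᶜ
          · rw [indicator_of_mem hx, indicator_of_mem hy]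
            have hz : a • x + (1 - a) • y ∈ {x | 2 * s < N x} := by
              show 2 * s < N _
              refine lt_of_lt_of_le ?_ (hN x y a ha0.le ha1.le)
              have hy' : N y ≤ 2 * s := not_lt.1 hy
              have e : a * (u * s) = (2 - a) * (2 * s) := by rw [ha]; field_simp; ring
              nlinarith [mul_lt_mul_of_pos_left (show u * s < N x from hx) ha0,
                mul_le_mul_of_nonneg_left hy' (show 0 ≤ 1 - a by linarith)]
            rw [indicator_of_mem hz]
            simp only [Pi.one_apply, ENNReal.one_rpow, mul_one]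
            rw [← ENNReal.ofReal_one]
            refine ENNReal.ofReal_le_ofReal (Real.one_le_exp ?_)
            have : 0 ≤ 1 - a := by linarith
            positivity
          · simp [indicator_of_notMem hy, ENNReal.zero_rpow_of_pos (show 0 < 1 - a by linarith)]
        · simp [indicator_of_notMem hx, ENNReal.zero_rpow_of_pos ha0]
      rw [lintegral_indicator_one (hmeas _), lintegral_indicator_one (hmeas _).compl,
        lintegral_indicator_one (hmeas _), sub_sub_cancel, ← ofReal_measureReal,
        ← ofReal_measureReal, ← ofReal_measureReal,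
        ENNReal.ofReal_rpow_of_nonneg measureReal_nonneg ha0.le,
        ENNReal.ofReal_rpow_of_nonneg measureReal_nonneg (by linarith),
        ← ENNReal.ofReal_mul (by positivity),
        ENNReal.ofReal_le_ofReal_iff measureReal_nonneg, ← hθ] at key
      set P := μ.real {x | u * s < N x} with hP
      rw [hset, ← ofReal_measureReal]
      refine ENNReal.ofReal_le_ofReal ?_
      have h3 : (3 / 4 : ℝ) ^ (1 - a) ≤ θ ^ (1 - a) :=
        Real.rpow_le_rpow (by norm_num) hθ3 (by linarith)
      have h4 : P ^ a * (3 / 4 : ℝ) ^ (1 - a) ≤ 1 / 4 :=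
        le_trans (mul_le_mul_of_nonneg_left h3 (Real.rpow_nonneg measureReal_nonneg a))
          (key.trans hθ')
      have h34 : (3 / 4 : ℝ) ^ (1 - a) * (3 / 4 : ℝ) ^ a = 3 / 4 := by
        rw [← Real.rpow_add (by norm_num)]; simp
      have h5 : P ^ a ≤ (1 / 3) * (3 / 4 : ℝ) ^ a := by
        refine le_of_mul_le_mul_right ?_ (show 0 < (3 / 4 : ℝ) ^ (1 - a) by positivity)
        refine h4.trans (le_of_eq ?_)
        rw [mul_assoc, mul_comm ((3 / 4 : ℝ) ^ a), h34]
        norm_num
      have h6 := Real.rpow_le_rpow (Real.rpow_nonneg measureReal_nonneg a) h5 (inv_nonneg.2 ha0.le)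
      rw [Real.rpow_rpow_inv measureReal_nonneg ha0.ne', Real.mul_rpow (by norm_num) (by positivity),
        Real.rpow_rpow_inv (by norm_num) ha0.ne'] at h6
      refine h6.trans ?_
      have h7 : (1 / 3 : ℝ) ^ a⁻¹ ≤ Real.exp (-(u / 4)) := by
        rw [Real.rpow_def_of_pos (by norm_num)]
        refine Real.exp_le_exp.2 ?_
        have hl : Real.log (1 / 3) ≤ -1 := by
          rw [Real.log_div one_ne_zero (by norm_num), Real.log_one, zero_sub]
          have : (1 : ℝ) ≤ Real.log 3 := by
            rw [← Real.log_exp 1]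
            exact Real.log_le_log (Real.exp_pos _) Real.exp_one_lt_three.le
          linarith
        have hb : u / 4 ≤ a⁻¹ := by rw [ha, inv_div]; linarith
        calc Real.log (1 / 3) * a⁻¹ ≤ -1 * a⁻¹ := mul_le_mul_of_nonneg_right hl (by positivity)
          _ ≤ _ := by linarith
      nlinarith [Real.exp_pos (-(u / 4))]
  have hY : Measurable fun x => N x / s := hc.measurable.div_const _
  have h32 : ∫ x, Real.exp (N x / s / 8) ∂μ ≤ 32 := by
    have := lintegral_exp_eighth_le hY htail
    rwa [← ofReal_integral_eq_lintegral_ofReal (hi _ (by fun_prop))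
      (ae_of_all _ fun x => (Real.exp_pos _).le), ENNReal.ofReal_le_ofReal_iff (by norm_num)] at this
  constructor
  · have hpt : ∀ x, Real.exp (N x / (40 * s)) ≤ 1 / 80 * Real.exp (N x / s / 8) + 8 / 5 := by
      intro x
      have e : Real.exp (N x / s / 8) = Real.exp (N x / (40 * s)) ^ 5 := by
        rw [← Real.exp_nat_mul]
        congr 1
        push_cast
        field_simp
        ring
      rw [e]
      set v := Real.exp (N x / (40 * s))
      have hv : 0 ≤ v := (Real.exp_pos _).le
      nlinarith [mul_nonneg (sq_nonneg (v - 2)) (show 0 ≤ v ^ 3 + 4 * v ^ 2 + 12 * v + 32 by positivity)]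
    refine (integral_mono (hi _ (by fun_prop)) (hi _ (by fun_prop)) hpt).trans ?_
    rw [integral_add (hi _ (by fun_prop)) (integrable_const _), integral_const_mul, integral_const]
    simp only [probReal_univ, one_smul]
    linarith
  · have hpt : ∀ x, N x ^ 4 ≤ 98304 * s ^ 4 * Real.exp (N x / s / 8) := by
      intro x
      have hy : 0 ≤ N x / s / 8 := div_nonneg (div_nonneg (h0 x) hs0.le) (by norm_num)
      have := Real.pow_div_factorial_le_exp _ hy 4
      rw [show ((Nat.factorial 4 : ℕ) : ℝ) = 24 by norm_num [Nat.factorial]] at this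
      calc N x ^ 4 = 98304 * s ^ 4 * ((N x / s / 8) ^ 4 / 24) := by field_simp; ring
        _ ≤ _ := mul_le_mul_of_nonneg_left this (by positivity)
    refine (integral_mono (hi _ (by fun_prop)) (hi _ (by fun_prop)) hpt).trans ?_
    rw [integral_const_mul, show s ^ 4 = S ^ 2 by rw [← Real.sq_sqrt hS0, ← hs]; ring]
    nlinarith [mul_le_mul_of_nonneg_left h32 (show 0 ≤ 98304 * S ^ 2 by positivity), sq_nonneg S]

/-- Norms of affine images satisfy the reverse triangle inequality. -/
theorem norm_affine_reverse {F : Type*} [NormedAddCommGroup F] [NormedSpace ℝ F]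
    (T : Space n →L[ℝ] F) (c x y : Space n) (a : ℝ) (ha0 : 0 ≤ a) (ha1 : a ≤ 1) :
    a * ‖T (x - c)‖ - (1 - a) * ‖T (y - c)‖ ≤ ‖T ((a • x + (1 - a) • y) - c)‖ := by
  have e : T (a • x + (1 - a) • y - c) = a • T (x - c) - (1 - a) • (-T (y - c)) := by
    simp only [map_sub, map_add, map_smul, sub_smul, smul_sub, one_smul, smul_neg]
    abel
  rw [e]
  refine le_trans (le_of_eq ?_) (norm_sub_norm_le _ _)
  rw [norm_smul, norm_smul, norm_neg, Real.norm_eq_abs, Real.norm_eq_abs, abs_of_nonneg ha0,
    abs_of_nonneg (sub_nonneg.2 ha1)]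

end Vale.Agent.P245
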