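import Vale.Agent.P245.Jet

/-!
Evolution of expectations along the Gaussian channel attached to a measure carried by a ball.
-/

noncomputable section

open MeasureTheory Set Filter Topology
open scoped ENNReal

namespace Vale.Agent.P245

variable {n : ℕ} {μ : Measure (Space n)} {R : ℝ}

/-- The law of the tilt parameter at time `t`, applied to an observable. -/
def Et (μ : Measure (Space n)) (t : ℝ) (G : Par n → ℝ) : ℝ :=
  ∫ g, G (t, √t • g) * Zf μ (t, √t • g) ∂gam n

theorem continuous_Zf (hμ : Car μ R) : Continuous (Zf μ) :=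
  (differentiable_Nf hμ (adm_continuous continuous_const R)).continuous

theorem obs_Zf_mul {G : Par n → ℝ} (hμ : Car μ R) (hG : Obs G) (t : ℝ) :
    Integrable (fun g => G (t, √t • g) * Zf μ (t, √t • g)) (gam n) := by
  obtain ⟨hc, C, hC⟩ := hG
  have hz := continuous_Zf hμ
  refine Tame.integrable ⟨C * Real.exp (|t| * R ^ 2 / 2), R * √t, fun g => ?_⟩ (by fun_prop)
  rw [abs_mul, abs_of_pos (Zf_pos hμ _), mul_assoc, ← Real.exp_add]
  refine mul_le_mul (hC _) ((Zf_le hμ _).trans (Real.exp_le_exp.2 (le_of_eq ?_))) (Zf_pos hμ _).le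
    ((abs_nonneg _).trans (hC (t, √t • g)))
  rw [norm_smul, Real.norm_eq_abs, abs_of_nonneg (Real.sqrt_nonneg t)]
  ring

theorem Et_mono {F G : Par n → ℝ} (hμ : Car μ R) (hF : Obs F) (hG : Obs G) (t : ℝ)
    (h : ∀ g, F (t, √t • g) ≤ G (t, √t • g)) : Et μ t F ≤ Et μ t G :=
  integral_mono (obs_Zf_mul hμ hF t) (obs_Zf_mul hμ hG t) fun g =>
    mul_le_mul_of_nonneg_right (h g) (Zf_pos hμ _).le

theorem Et_nonneg {F : Par n → ℝ} (hμ : Car μ R) (t : ℝ) (h : ∀ p, 0 ≤ F p) : 0 ≤ Et μ t F :=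
  integral_nonneg fun _ => mul_nonneg (h _) (Zf_pos hμ _).le

theorem Et_add {F G : Par n → ℝ} (hμ : Car μ R) (hF : Obs F) (hG : Obs G) (t : ℝ) :
    Et μ t (fun p => F p + G p) = Et μ t F + Et μ t G := by
  simp only [Et, add_mul]
  exact integral_add (obs_Zf_mul hμ hF t) (obs_Zf_mul hμ hG t)

theorem Et_sub {F G : Par n → ℝ} (hμ : Car μ R) (hF : Obs F) (hG : Obs G) (t : ℝ) :
    Et μ t (fun p => F p - G p) = Et μ t F - Et μ t G := by
  simp only [Et, sub_mul]
  exact integral_sub (obs_Zf_mul hμ hF t) (obs_Zf_mul hμ hG t)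

theorem Et_smul (c : ℝ) (F : Par n → ℝ) (t : ℝ) :
    Et μ t (fun p => c * F p) = c * Et μ t F := by
  simp only [Et, mul_assoc]; exact integral_const_mul c _

theorem Et_zero (hμ : Car μ R) (F : Par n → ℝ) : Et μ 0 F = F 0 := by
  simp [Et, show ((0 : ℝ), (0 : Space n)) = (0 : Par n) from rfl, Zf_zero hμ]

theorem dir_decomp (v : Space n) : ((0 : ℝ), v) = ∑ i, v i • ex i := by
  refine Prod.ext ?_ ?_
  · simp [Prod.fst_sum]
  · ext j
    simp [Prod.snd_sum, Finset.sum_apply, Pi.single_apply]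

/-- The derivative along the path of the tilt parameter. -/
theorem hasDerivAt_path {U Ut : Par n → ℝ} {Ui : Fin n → Par n → ℝ} (hU : Differentiable ℝ U)
    (ht : ∀ p, HasDerivAt (fun s : ℝ => U (p + s • et n)) (Ut p) 0)
    (hi : ∀ i p, HasDerivAt (fun s : ℝ => U (p + s • ex i)) (Ui i p) 0)
    (g : Space n) {s : ℝ} (hs : 0 < s) :
    HasDerivAt (fun s : ℝ => U (s, √s • g))
      (Ut (s, √s • g) + 1 / (2 * √s) * ∑ i, g i * Ui i (s, √s • g)) s := by
  set p : Par n := (s, √s • g) with hp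
  have hline : ∀ w : Par n, HasDerivAt (fun r : ℝ => U (p + r • w)) (fderiv ℝ U p w) 0 := by
    intro w
    have h1 : HasDerivAt (fun r : ℝ => p + r • w) w 0 := by
      simpa using ((hasDerivAt_id (0 : ℝ)).smul_const w).const_add p
    exact (hU p).hasFDerivAt.comp_hasDerivAt_of_eq (0 : ℝ) h1 (by simp)
  have e0 : fderiv ℝ U p (et n) = Ut p := (hline _).unique (ht p)
  have ei : ∀ i, fderiv ℝ U p (ex i) = Ui i p := fun i => (hline _).unique (hi i p)
  have hpath : HasDerivAt (fun r : ℝ => ((r, √r • g) : Par n))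
      ((1 : ℝ), (1 / (2 * √s)) • g) s :=
    (hasDerivAt_id s).prodMk ((Real.hasDerivAt_sqrt hs.ne').smul_const g)
  refine ((hU p).hasFDerivAt.comp_hasDerivAt s hpath).congr_deriv ?_
  have : ((1 : ℝ), (1 / (2 * √s)) • g) = et n + (1 / (2 * √s)) • ∑ i, g i • ex i := by
    rw [← dir_decomp g]
    refine Prod.ext ?_ ?_ <;> simp [et]
  rw [this]
  simp only [map_add, map_smul, map_sum, e0, ei, smul_eq_mul]

/-- Evolution of an expectation, at positive times. -/
theorem evolve (hμ : Car μ R) {J : Jet n} (hJ : J.Valid) {t : ℝ} (ht : 0 < t) :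
    HasDerivAt (fun s => Et μ s J.v) (Et μ t (Lop μ J)) t := by
  have hone : Adm R fun _ : Space n => (1 : ℝ) := adm_continuous continuous_const R
  have hx : ∀ i : Fin n, Adm R fun x : Space n => 1 * x i := fun i =>
    adm_continuous (by fun_prop) R
  set U : Par n → ℝ := fun p => J.v p * Zf μ p with hU
  set Ut : Par n → ℝ := fun p => J.dt p * Zf μ p
    + J.v p * Nf μ (fun x => 1 * (-(‖x‖ ^ 2) / 2)) p with hUt
  set Ui : Fin n → Par n → ℝ := fun i p => J.d i p * Zf μ p
    + J.v p * Nf μ (fun x => 1 * x i) p with hUi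
  set Uii : Fin n → Par n → ℝ := fun i p => J.dd i p * Zf μ p
    + 2 * (J.d i p * Nf μ (fun x => 1 * x i) p) + J.v p * Nf μ (fun x => 1 * x i * x i) p with hUii
  have hUd : Differentiable ℝ U := hJ.diff.mul (differentiable_Nf hμ hone)
  have hUid : ∀ i, Differentiable ℝ (Ui i) := fun i =>
    ((hJ.diffd i).mul (differentiable_Nf hμ hone)).add (hJ.diff.mul (differentiable_Nf hμ (hx i)))
  have dt' : ∀ p, HasDerivAt (fun s : ℝ => U (p + s • et n)) (Ut p) 0 := fun p =>
    ((hJ.htime p).mul (hasDerivAt_Nf_time hμ hone p)).congr_deriv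
      (by simp only [hUt, zero_smul, add_zero]; rfl)
  have di : ∀ i p, HasDerivAt (fun s : ℝ => U (p + s • ex i)) (Ui i p) 0 := fun i p =>
    ((hJ.hd i p).mul (hasDerivAt_Nf_space hμ hone p i)).congr_deriv
      (by simp only [hUi, zero_smul, add_zero]; rfl)
  have dii : ∀ i p, HasDerivAt (fun s : ℝ => Ui i (p + s • ex i)) (Uii i p) 0 := fun i p =>
    (((hJ.hdd i p).mul (hasDerivAt_Nf_space hμ hone p i)).add
      ((hJ.hd i p).mul (hasDerivAt_Nf_space hμ (hx i) p i))).congr_deriv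
      (by simp only [hUii, zero_smul, add_zero, Zf]; ring)
  have bnd : ∀ {G : Par n → ℝ} {φ : Space n → ℝ}, Obs G → Adm R φ →
      Continuous (fun p => G p * Nf μ φ p) ∧ ∃ C, 0 ≤ C ∧ ∀ p, |G p * Nf μ φ p| ≤ C * Zf μ p := by
    intro G φ hG hφ
    obtain ⟨hc, C, hC⟩ := hG
    obtain ⟨hm, D, hD⟩ := hφ
    refine ⟨hc.mul (differentiable_Nf hμ ⟨hm, D, hD⟩).continuous, |C * D|, abs_nonneg _, fun p => ?_⟩
    rw [abs_mul]
    calc |G p| * |Nf μ φ p| ≤ C * (D * Zf μ p) :=
          mul_le_mul (hC p) (abs_Nf_le hμ hm hD p) (abs_nonneg _) ((abs_nonneg _).trans (hC p))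
      _ ≤ |C * D| * Zf μ p := by
          rw [← mul_assoc]
          exact mul_le_mul_of_nonneg_right (le_abs_self _) (Zf_pos hμ p).le
  have addb : ∀ {F G : Par n → ℝ},
      (Continuous F ∧ ∃ C, 0 ≤ C ∧ ∀ p, |F p| ≤ C * Zf μ p) →
      (Continuous G ∧ ∃ C, 0 ≤ C ∧ ∀ p, |G p| ≤ C * Zf μ p) →
      (Continuous (fun p => F p + G p) ∧ ∃ C, 0 ≤ C ∧ ∀ p, |F p + G p| ≤ C * Zf μ p) := by
    intro F G ⟨hc, C, hC0, hC⟩ ⟨hc', C', hC0', hC'⟩
    exact ⟨hc.add hc', C + C', add_nonneg hC0 hC0', fun p =>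
      (abs_add_le _ _).trans (by rw [add_mul]; exact add_le_add (hC p) (hC' p))⟩
  have bU : Continuous U ∧ ∃ C, 0 ≤ C ∧ ∀ p, |U p| ≤ C * Zf μ p := bnd hJ.ov hone
  have bUt : Continuous Ut ∧ ∃ C, 0 ≤ C ∧ ∀ p, |Ut p| ≤ C * Zf μ p :=
    addb (bnd hJ.odt hone) (bnd hJ.ov (adm_continuous (by fun_prop) R))
  have bUi : ∀ i, Continuous (Ui i) ∧ ∃ C, 0 ≤ C ∧ ∀ p, |Ui i p| ≤ C * Zf μ p := fun i =>
    addb (bnd (hJ.od i) hone) (bnd hJ.ov (hx i))
  have bUii : ∀ i, Continuous (Uii i) ∧ ∃ C, 0 ≤ C ∧ ∀ p, |Uii i p| ≤ C * Zf μ p := fun i => by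
    have := bnd ((Obs.const 2).mul (hJ.od i)) (hx i)
    simp only [mul_assoc] at this
    exact addb (addb (bnd (hJ.odd i) hone) this) (bnd hJ.ov (adm_continuous (by fun_prop) R))
  have hz : ∀ (s : ℝ), 0 ≤ s → s ≤ 2 * t → ∀ g : Space n,
      Zf μ (s, √s • g) ≤ Real.exp (t * R ^ 2) * Real.exp (R * √(2 * t) * ‖g‖) := by
    intro s h0 h2 g
    refine (Zf_le hμ _).trans ?_
    rw [← Real.exp_add, norm_smul, Real.norm_eq_abs, abs_of_nonneg (Real.sqrt_nonneg s),
      abs_of_nonneg h0]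
    refine Real.exp_le_exp.2 ?_
    have hR := hμ.nonneg
    have : R * (√s * ‖g‖) ≤ R * √(2 * t) * ‖g‖ := by
      rw [mul_assoc]; gcongr
    nlinarith [sq_nonneg R]
  have tame : ∀ {G : Par n → ℝ} {C : ℝ}, 0 ≤ C → (∀ p, |G p| ≤ C * Zf μ p) → ∀ s, 0 ≤ s → s ≤ 2 * t →
      ∀ g : Space n,
        |G (s, √s • g)| ≤ C * Real.exp (t * R ^ 2) * Real.exp (R * √(2 * t) * ‖g‖) := by
    intro G C hC0 hG s h0 h2 g
    rw [mul_assoc]
    exact (hG _).trans (mul_le_mul_of_nonneg_left (hz s h0 h2 g) hC0)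
  obtain ⟨cU, CU, hCU0, hCU⟩ := bU
  obtain ⟨cUt, CUt, hCUt0, hCUt⟩ := bUt
  choose cUi CUi hCUi0 hCUi using bUi
  choose cUii CUii hCUii0 hCUii using bUii
  set E := fun g : Space n => Real.exp (R * √(2 * t) * ‖g‖) with hE
  set B : Space n → ℝ := fun g =>
    CUt * Real.exp (t * R ^ 2) * E g
      + 1 / √(2 * t) * ∑ i, (CUi i * Real.exp (t * R ^ 2)) * (‖g‖ * E g) with hB
  have hBi : Integrable B (gam n) := by
    refine ((integrable_exp_norm _).const_mul _).add ((integrable_finsetSum _ fun i _ => ?_).const_mul _)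
    refine (Tame.integrable (Tame.mul_norm (F := E) ⟨1, R * √(2 * t), fun g => ?_⟩
      (G := fun g => ‖g‖) fun g => (abs_norm g).le) (by fun_prop)).const_mul _
    rw [one_mul, abs_of_pos (Real.exp_pos _)]
  have hint : ∀ {G : Par n → ℝ} {C : ℝ}, Continuous G → 0 ≤ C → (∀ p, |G p| ≤ C * Zf μ p) →
      Integrable (fun g => G (t, √t • g)) (gam n) := fun hc hC0 hG =>
    Tame.integrable ⟨_, _, fun g => tame hC0 hG t ht.le (by linarith) g⟩ (by fun_prop)
  have hinti : ∀ i, Integrable (fun g : Space n => g i * Ui i (t, √t • g)) (gam n) := fun i =>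
    Tame.integrable (Tame.mul_norm (F := fun g => Ui i (t, √t • g))
      ⟨_, _, fun g => tame (hCUi0 i) (hCUi i) t ht.le (by linarith) g⟩
      (G := fun g => g i) fun g => abs_coord_le g i) (by have := cUi i; fun_prop)
  have key := (hasDerivAt_integral_of_dominated_loc_of_deriv_le (μ := gam n)
    (F := fun s g => U (s, √s • g))
    (F' := fun s g => Ut (s, √s • g) + 1 / (2 * √s) * ∑ i, g i * Ui i (s, √s • g))
    (Ioo_mem_nhds (show t / 2 < t by linarith) (show t < 2 * t by linarith))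
    (Eventually.of_forall fun s => (by fun_prop : Continuous _).aestronglyMeasurable)
    (hint cU hCU0 hCU)
    ((by fun_prop : Continuous _).aestronglyMeasurable)
    (ae_of_all _ fun g s hs => ?_) hBi
    (ae_of_all _ fun g s hs => hasDerivAt_path hUd dt' di g (by linarith [hs.1]))).2
  · refine key.congr_deriv ?_
    have hst : ∀ i, ∫ g, g i * Ui i (t, √t • g) ∂gam n = √t * ∫ g, Uii i (t, √t • g) ∂gam n := by
      intro i
      rw [← integral_const_mul]
      have hmap : ∀ g : Space n,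
          HasDerivAt (fun s : ℝ => Ui i (t, √t • (g + s • ev i))) (√t * Uii i (t, √t • g)) 0 := by
        intro g
        have h := dii i (t, √t • g)
        have h' : HasDerivAt (fun r : ℝ => √t * r) (√t) 0 := by
          simpa using (hasDerivAt_id (0 : ℝ)).const_mul √t
        have e : (fun s : ℝ => Ui i (t, √t • (g + s • ev i)))
            = (fun r => Ui i ((t, √t • g) + r • ex i)) ∘ fun r : ℝ => √t * r := by
          funext s
          simp only [Function.comp_apply, Prod.smul_mk, smul_zero, Prod.mk_add_mk, add_zero,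
            smul_add, smul_smul]
        rw [e, mul_comm]
        exact h.comp_of_eq (0 : ℝ) h' (by simp)
      refine stein i ?_ hmap (by have := cUii i; fun_prop)
        ⟨_, _, fun g => tame (hCUi0 i) (hCUi i) t ht.le (by linarith) g⟩
        ⟨√t * (CUii i * Real.exp (t * R ^ 2)), R * √(2 * t), fun g => ?_⟩
      · intro g
        refine DifferentiableAt.comp (f := fun g : Space n => ((t, √t • g) : Par n)) g (hUid i _) ?_
        fun_prop
      · rw [abs_mul, abs_of_nonneg (Real.sqrt_nonneg t), mul_assoc]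
        exact mul_le_mul_of_nonneg_left (tame (hCUii0 i) (hCUii i) t ht.le (by linarith) g)
          (Real.sqrt_nonneg t)
    rw [integral_add (hint cUt hCUt0 hCUt) ((integrable_finsetSum _ fun i _ => hinti i).const_mul _),
      integral_const_mul, integral_finsetSum _ fun i _ => hinti i]
    simp only [hst, ← Finset.mul_sum, ← mul_assoc]
    rw [← integral_finsetSum _ fun i _ => hint (cUii i) (hCUii0 i) (hCUii i),
      show 1 / (2 * √t) * √t = 1 / 2 by
        have := Real.sqrt_pos.2 ht; field_simp,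
      ← integral_const_mul,
      ← integral_add (hint cUt hCUt0 hCUt)
        ((integrable_finsetSum _ fun i _ => hint (cUii i) (hCUii0 i) (hCUii i)).const_mul _)]
    refine integral_congr_ae (ae_of_all _ fun g => ?_)
    set p : Par n := (t, √t • g)
    have hsum : ∑ i, Nf μ (fun x => 1 * x i * x i) p = -2 * Nf μ (fun x => 1 * (-(‖x‖ ^ 2) / 2)) p := by
      simp only [Nf]
      rw [← integral_finsetSum _ fun i _ => hμ.integrable_kexp ((hx i).mul
        (adm_continuous (by fun_prop) R)) p, ← integral_const_mul]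
      refine integral_congr_ae (ae_of_all _ fun x => ?_)
      simp only [one_mul, ← Finset.sum_mul, sum_coord_sq]
      ring
    have hb : ∀ i, Nf μ (fun x => 1 * x i) p = bar μ i p * Zf μ p := fun i => by
      rw [bar, M, div_mul_cancel₀ _ (Zf_pos hμ p).ne']; simp
    have hS : ∑ i, J.d i p * Nf μ (fun x => 1 * x i) p = (∑ i, bar μ i p * J.d i p) * Zf μ p := by
      rw [Finset.sum_mul]
      exact Finset.sum_congr rfl fun i _ => by rw [hb]; ring
    simp only [hUt, hUii, Lop, Finset.sum_add_distrib, ← Finset.mul_sum, ← Finset.sum_mul]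
    rw [hsum, hS]
    ring
  · have hs0 : 0 ≤ s := by linarith [hs.1]
    rw [Real.norm_eq_abs]
    refine (abs_add_le _ _).trans (add_le_add (tame hCUt0 hCUt s hs0 hs.2.le g) ?_)
    rw [abs_mul]
    refine mul_le_mul ?_ ((Finset.abs_sum_le_sum_abs _ _).trans (Finset.sum_le_sum fun i _ => ?_))
      (abs_nonneg _) (by positivity)
    · rw [abs_of_nonneg (by positivity)]
      refine one_div_le_one_div_of_le (Real.sqrt_pos.2 (by linarith)) ?_
      rw [show (2 : ℝ) * √s = √(4 * s) by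
        rw [Real.sqrt_mul (by norm_num), show (4 : ℝ) = 2 ^ 2 by norm_num, Real.sqrt_sq two_pos.le]]
      exact Real.sqrt_le_sqrt (by linarith [hs.1])
    · rw [abs_mul, ← mul_left_comm]
      exact mul_le_mul (abs_coord_le g i) (tame (hCUi0 i) (hCUi i) s hs0 hs.2.le g)
        (abs_nonneg _) (norm_nonneg _)

/-- Continuity up to time zero. -/
theorem continuousOn_Et (hμ : Car μ R) {G : Par n → ℝ} (hG : Obs G) :
    ContinuousOn (fun s => Et μ s G) (Ici 0) := by
  obtain ⟨hc, C, hC⟩ := hG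
  have hz := continuous_Zf hμ
  intro a ha
  have ha0 : (0 : ℝ) ≤ a := ha
  refine continuousWithinAt_of_dominated
    (bound := fun g => C * (Real.exp ((a + 1) * R ^ 2 / 2) * Real.exp (R * √(a + 1) * ‖g‖)))
    (Eventually.of_forall fun s => (by fun_prop : Continuous _).aestronglyMeasurable) ?_
    (((integrable_exp_norm _).const_mul _).const_mul _)
    (ae_of_all _ fun g => (by fun_prop : Continuous fun s : ℝ =>
      G (s, √s • g) * Zf μ (s, √s • g)).continuousWithinAt)
  filter_upwards [self_mem_nhdsWithin, mem_nhdsWithin_of_mem_nhds (Iic_mem_nhds (lt_add_one a))]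
    with s hs0 hs1
  refine ae_of_all _ fun g => ?_
  rw [Real.norm_eq_abs, abs_mul, abs_of_pos (Zf_pos hμ _), ← Real.exp_add]
  refine mul_le_mul (hC _) ((Zf_le hμ _).trans (Real.exp_le_exp.2 ?_)) (Zf_pos hμ _).le
    ((abs_nonneg _).trans (hC (s, √s • g)))
  have hR := hμ.nonneg
  rw [norm_smul, Real.norm_eq_abs, abs_of_nonneg (Real.sqrt_nonneg s),
    abs_of_nonneg (mem_Ici.1 hs0)]
  have h1 : R * (√s * ‖g‖) ≤ R * √(a + 1) * ‖g‖ := by
    rw [mul_assoc]; gcongr; exact hs1
  nlinarith [sq_nonneg R, mem_Iic.1 hs1]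

/-- Comparison with a majorant of the drift. -/
theorem Et_sub_le (hμ : Car μ R) {J : Jet n} (hJ : J.Valid) {a b : ℝ} (ha : 0 ≤ a) (hab : a ≤ b)
    {B B' : ℝ → ℝ} (hB : ContinuousOn B (Icc a b))
    (hB' : ∀ t ∈ Ioo a b, HasDerivAt B (B' t) t)
    (hle : ∀ t ∈ Ioo a b, Et μ t (Lop μ J) ≤ B' t) :
    Et μ b J.v - Et μ a J.v ≤ B b - B a := by
  have h : AntitoneOn (fun s => Et μ s J.v - B s) (Icc a b) := by
    refine antitoneOn_of_hasDerivWithinAt_nonpos (convex_Icc a b)
      (f' := fun s => Et μ s (Lop μ J) - B' s)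
      (((continuousOn_Et hμ hJ.ov).mono fun s hs => ha.trans hs.1).sub hB) ?_ ?_
    · intro s hs
      rw [interior_Icc] at hs
      exact ((evolve hμ hJ (ha.trans_lt hs.1)).sub (hB' s hs)).hasDerivWithinAt
    · intro s hs
      rw [interior_Icc] at hs
      exact sub_nonpos.2 (hle s hs)
  have := h (left_mem_Icc.2 hab) (right_mem_Icc.2 hab) hab
  simp only at this
  linarith

/-- Gronwall comparison. -/
theorem Et_le_exp (hμ : Car μ R) {J : Jet n} (hJ : J.Valid) {a b : ℝ} (ha : 0 ≤ a) (hab : a ≤ b)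
    {K k : ℝ → ℝ} (hK : ContinuousOn K (Icc a b)) (hK' : ∀ t ∈ Ioo a b, HasDerivAt K (k t) t)
    (hle : ∀ t ∈ Ioo a b, Et μ t (Lop μ J) ≤ k t * Et μ t J.v) :
    Et μ b J.v ≤ Et μ a J.v * Real.exp (K b - K a) := by
  have h : AntitoneOn (fun s => Et μ s J.v * Real.exp (-K s)) (Icc a b) := by
    refine antitoneOn_of_hasDerivWithinAt_nonpos (convex_Icc a b)
      (f' := fun s => Et μ s (Lop μ J) * Real.exp (-K s)
        + Et μ s J.v * (Real.exp (-K s) * -k s))
      (((continuousOn_Et hμ hJ.ov).mono fun s hs => ha.trans hs.1).mul hK.neg.rexp) ?_ ?_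
    · intro s hs
      rw [interior_Icc] at hs
      exact ((evolve hμ hJ (ha.trans_lt hs.1)).mul (hK' s hs).neg.exp).hasDerivWithinAt
    · intro s hs
      rw [interior_Icc] at hs
      nlinarith [mul_le_mul_of_nonneg_right (hle s hs) (Real.exp_pos (-K s)).le]
  have := h (left_mem_Icc.2 hab) (right_mem_Icc.2 hab) hab
  simp only at this
  rw [Real.exp_sub, mul_div_assoc']
  rw [le_div_iff₀ (Real.exp_pos _)]
  rw [Real.exp_neg, Real.exp_neg] at this
  field_simp at this ⊢
  exact this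

/-- Expectations of tilted means are constant. -/
theorem Et_M (hμ : Car μ R) {φ : Space n → ℝ} (h : Adm R φ) {t : ℝ} (ht : 0 ≤ t) :
    Et μ t (M μ φ) = ∫ x, φ x ∂μ := by
  have hJ := Jet.mom_valid hμ h
  have h0 : ∀ s, Et μ s (Lop μ (Jet.mom μ φ)) = 0 := fun s => by
    simp [Et, Lop_mom hμ h]
  have h1 := Et_sub_le hμ hJ le_rfl ht (B := fun _ => 0) (B' := fun _ => 0) continuousOn_const
    (fun s _ => hasDerivAt_const s 0) fun s _ => (h0 s).le
  have h2 := Et_le_exp hμ hJ le_rfl ht (K := fun _ => 0) (k := fun _ => 0) continuousOn_const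
    (fun s _ => hasDerivAt_const s 0) fun s _ => by simp [h0]
  have hA : AntitoneOn (fun s => -Et μ s (M μ φ)) (Icc 0 t) := by
    refine antitoneOn_of_hasDerivWithinAt_nonpos (convex_Icc 0 t) (f' := fun _ => 0)
      ((continuousOn_Et hμ (obs_M hμ h)).mono fun s hs => hs.1).neg ?_ fun s _ => le_rfl
    intro s hs
    rw [interior_Icc] at hs
    exact ((evolve hμ hJ hs.1).neg.congr_deriv (by simp [h0])).hasDerivWithinAt
  have h3 := hA (left_mem_Icc.2 ht) (right_mem_Icc.2 ht) ht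
  simp only [Jet.mom, sub_self, Real.exp_zero, mul_one] at h1 h2 h3
  rw [Et_zero hμ, M_zero hμ] at h1 h3
  linarith

/-- The law of the tilt parameter is a probability measure. -/
theorem Et_const (hμ : Car μ R) (c : ℝ) {t : ℝ} (ht : 0 ≤ t) : Et μ t (fun _ => c) = c := by
  have := hμ.prob
  have h := Et_M hμ (adm_continuous (continuous_const (y := c)) R) ht
  simpa [funext (M_const hμ c)] using h

end Vale.Agent.P245
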