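import Vale.Agent.P245.Pins
import Vale.Agent.P245.Rotation

/-!
The defective logarithmic Sobolev inequality: the entropy splits along the Gaussian channel into
the entropies of the tilts and the entropy of their means. The latter is bounded by the Gaussian
logarithmic Sobolev inequality, the variational formula and the Maurey-Pisier inequality.
-/

noncomputable section

open MeasureTheory Set Filter Topology
open scoped ENNReal

namespace Vale.Agent.P245

variable {n : ℕ} {μ : Measure (Space n)} {R : ℝ}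

/-- The variational bound, pointwise. -/
theorem dv_pt {y m K : ℝ} (hy : 0 < y) (hm : 0 < m) (hK : 0 < K) (u : ℝ) :
    y * u ≤ y * Real.log y - y * Real.log m + y * Real.log K + m / K * Real.exp u - y := by
  have h := Real.log_le_sub_one_of_pos (show 0 < m * Real.exp u / (K * y) by positivity)
  rw [Real.log_div (by positivity) (by positivity), Real.log_mul hm.ne' (Real.exp_pos u).ne',
    Real.log_mul hK.ne' hy.ne', Real.log_exp] at h
  have h2 := mul_le_mul_of_nonneg_left h hy.le
  have h3 : y * (m * Real.exp u / (K * y) - 1) = m / K * Real.exp u - y := by field_simp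
  nlinarith

/-- The variational bound for the entropy. -/
theorem dv (hμ : Car μ R) {w u : Space n → ℝ} (hw : Continuous w) (hu : Continuous u)
    (h0 : ∀ x, 0 < w x) :
    ∫ x, w x * u x ∂μ ≤ ent μ w + (∫ x, w x ∂μ) * Real.log (∫ x, Real.exp (u x) ∂μ) := by
  have := hμ.prob
  have hi : ∀ v : Space n → ℝ, Continuous v → Integrable v μ :=
    fun v hv => hμ.integrable (adm_continuous hv R)
  set m := ∫ x, w x ∂μ with hm
  set K := ∫ x, Real.exp (u x) ∂μ with hK
  have hK0 : 0 < K := integral_exp_pos (hi _ (by fun_prop))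
  have hm0 : 0 < m := by
    have e : m = ∫ x, Real.exp (Real.log (w x)) ∂μ :=
      integral_congr_ae (ae_of_all _ fun x => (Real.exp_log (h0 x)).symm)
    rw [e]
    exact integral_exp_pos ((hi w hw).congr (ae_of_all _ fun x => (Real.exp_log (h0 x)).symm))
  have i1 : Integrable (fun x => w x * Real.log (w x)) μ :=
    hi _ (Real.continuous_mul_log.comp hw)
  have i2 : Integrable (fun x => w x * Real.log m) μ := (hi w hw).mul_const _
  have i3 : Integrable (fun x => w x * Real.log K) μ := (hi w hw).mul_const _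
  have i4 : Integrable (fun x => m / K * Real.exp (u x)) μ := (hi _ (by fun_prop)).const_mul _
  have key := integral_mono (f := fun x => w x * u x) (hi _ (by fun_prop))
    ((((i1.sub i2).add i3).add i4).sub (hi w hw)) fun x => dv_pt (h0 x) hm0 hK0 (u x)
  have e : ∫ x, (w x * Real.log (w x) - w x * Real.log m + w x * Real.log K
      + m / K * Real.exp (u x) - w x) ∂μ = ent μ w + m * Real.log K := by
    have j2 : Integrable (fun x => w x * Real.log (w x) - w x * Real.log m) μ := i1.sub i2
    have j3 : Integrable (fun x => w x * Real.log (w x) - w x * Real.log m + w x * Real.log K) μ :=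
      j2.add i3
    have j4 : Integrable (fun x => w x * Real.log (w x) - w x * Real.log m + w x * Real.log K
        + m / K * Real.exp (u x)) μ := j3.add i4
    rw [integral_sub j4 (hi w hw), integral_add j3 i4,
      integral_add j2 i3, integral_sub i1 i2, integral_mul_const, integral_mul_const,
      integral_const_mul, ← hm, ← hK, div_mul_cancel₀ _ hK0.ne', ent]
    ring
  simp only [Pi.sub_apply, Pi.add_apply] at key
  linarith

/-! ### Linear forms of a centred subgaussian measure -/

theorem exp_le_add_exp_sq (x : ℝ) : Real.exp x ≤ x + Real.exp (x ^ 2) := by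
  rcases le_or_gt |x| 1 with h | h
  · nlinarith [(abs_le.1 (Real.abs_exp_sub_one_sub_id_le h)).2, Real.add_one_le_exp (x ^ 2)]
  · rcases le_or_gt 0 x with h0 | h0
    · rw [abs_of_nonneg h0] at h
      have : Real.exp x ≤ Real.exp (x ^ 2) := Real.exp_le_exp.2 (by nlinarith)
      linarith
    · have h1 : Real.exp x ≤ 1 := Real.exp_le_one_iff.2 h0.le
      have h2 : 1 < x ^ 2 := by rw [abs_of_neg h0] at h; nlinarith
      nlinarith [Real.add_one_le_exp (x ^ 2), sq_nonneg (x + 1 / 2)]

theorem Sub1.mgf (hμ : Car μ R) (h : Sub1 μ) (θ : Space n) :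
    ∫ x, Real.exp (inner ℝ θ x) ∂μ ≤ Real.exp (‖θ‖ ^ 2) := by
  have := hμ.prob
  have hi : ∀ v : Space n → ℝ, Continuous v → Integrable v μ :=
    fun v hv => hμ.integrable (adm_continuous hv R)
  rcases eq_or_ne θ 0 with rfl | hθ
  · simp
  set s := ‖θ‖ with hs
  have hs0 : 0 < s := norm_pos_iff.2 hθ
  set e := s⁻¹ • θ with he
  have hθe : θ = s • e := by rw [he, smul_smul, mul_inv_cancel₀ hs0.ne', one_smul]
  have hB : ∫ x, Real.exp (inner ℝ x e ^ 2) ∂μ ≤ 2 := h.2 e (norm_smul_inv_norm hθ)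
  have hX : ∀ x, inner ℝ θ x = s * inner ℝ x e := fun x => by
    rw [hθe, real_inner_smul_left, real_inner_comm]
  simp only [hX]
  rcases le_or_gt s 1 with h1 | h1
  · have hmean : ∫ x, inner ℝ x e ∂μ = 0 := by
      simp only [real_inner_comm e]
      rw [integral_inner (f := fun x : Space n => x)
        (integrable_of_ball hμ.bd continuous_id) e, h.1, inner_zero_right]
    have hpt : ∀ x : Space n, Real.exp (s * inner ℝ x e)
        ≤ s * inner ℝ x e + (s ^ 2 * Real.exp (inner ℝ x e ^ 2) + (1 - s ^ 2)) := fun x => by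
      refine (exp_le_add_exp_sq _).trans (add_le_add le_rfl ?_)
      have := convexOn_exp.2 (mem_univ (inner ℝ x e ^ 2)) (mem_univ (0 : ℝ)) (sq_nonneg s)
        (show 0 ≤ 1 - s ^ 2 by nlinarith) (by ring)
      simpa [mul_pow] using this
    refine (integral_mono (hi _ (by fun_prop)) (hi _ (by fun_prop)) hpt).trans ?_
    rw [integral_add (hi _ (by fun_prop)) (hi _ (by fun_prop)),
      integral_add (hi _ (by fun_prop)) (integrable_const _), integral_const_mul, integral_const_mul,
      hmean, integral_const]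
    simp only [probReal_univ, one_smul, mul_zero, zero_add]
    nlinarith [Real.add_one_le_exp (s ^ 2), mul_le_mul_of_nonneg_left hB (sq_nonneg s)]
  · have hpt : ∀ x : Space n, Real.exp (s * inner ℝ x e)
        ≤ Real.exp (s ^ 2 / 4) * Real.exp (inner ℝ x e ^ 2) := fun x => by
      rw [← Real.exp_add]
      exact Real.exp_le_exp.2 (by nlinarith [sq_nonneg (s / 2 - inner ℝ x e)])
    refine (integral_mono (hi _ (by fun_prop)) (hi _ (by fun_prop)) hpt).trans ?_
    rw [integral_const_mul]
    refine (mul_le_mul_of_nonneg_left hB (Real.exp_pos _).le).trans ?_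
    have h34 : (2 : ℝ) ≤ Real.exp (3 * s ^ 2 / 4) := by
      have := Real.quadratic_le_exp_of_nonneg (show (0 : ℝ) ≤ 3 * s ^ 2 / 4 by positivity)
      nlinarith
    calc Real.exp (s ^ 2 / 4) * 2 ≤ Real.exp (s ^ 2 / 4) * Real.exp (3 * s ^ 2 / 4) := by gcongr
      _ = _ := by rw [← Real.exp_add]; congr 1; ring

theorem Sub1.norm_sq_le (hμ : Car μ R) (h : Sub1 μ) : ∫ x, ‖x‖ ^ 2 ∂μ ≤ n := by
  have := hμ.prob
  have hi : ∀ v : Space n → ℝ, Continuous v → Integrable v μ :=
    fun v hv => hμ.integrable (adm_continuous hv R)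
  calc ∫ x, ‖x‖ ^ 2 ∂μ = ∑ i, ∫ x : Space n, x i * x i ∂μ := by
        rw [← integral_finsetSum _ fun i _ => hi _ (by fun_prop)]
        simp only [sum_coord_sq]
    _ ≤ ∑ _i : Fin n, (1 : ℝ) := by
        refine Finset.sum_le_sum fun i _ => ?_
        have hB : ∫ x, Real.exp (inner ℝ x (ev i) ^ 2) ∂μ ≤ 2 := h.2 (ev i) (by simp)
        have hpt : ∀ x : Space n, x i * x i + 1 ≤ Real.exp (inner ℝ x (ev i) ^ 2) := fun x => by
          have := Real.add_one_le_exp (x i ^ 2)
          simpa [EuclideanSpace.inner_single_right, ← pow_two] using this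
        have := (integral_mono (hi _ (by fun_prop)) (hi _ (by fun_prop)) hpt).trans hB
        rw [integral_add (hi _ (by fun_prop)) (integrable_const _), integral_const] at this
        simp only [probReal_univ, one_smul] at this
        linarith
    _ = n := by simp

/-! ### Means of the tilts, weighted -/

theorem Nf_mono (hμ : Car μ R) {φ ψ : Space n → ℝ} (hφ : Adm R φ) (hψ : Adm R ψ) (p : Par n)
    (h : ∀ x, ‖x‖ ≤ R → φ x ≤ ψ x) : Nf μ φ p ≤ Nf μ ψ p :=
  integral_mono_ae (hμ.integrable_kexp hφ p) (hμ.integrable_kexp hψ p)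
    (hμ.bd.mono fun x hx => mul_le_mul_of_nonneg_right (h x hx) (Real.exp_pos _).le)

theorem Nf_smul (c : ℝ) (φ : Space n → ℝ) (p : Par n) :
    Nf μ (fun x => c * φ x) p = c * Nf μ φ p := by
  simp only [Nf, mul_assoc]; exact integral_const_mul c _

theorem Nf_pos (hμ : Car μ R) {w : Space n → ℝ} (hw : Continuous w) (h0 : ∀ x, 0 < w x)
    (p : Par n) : 0 < Nf μ w p := by
  have := hμ.prob
  have e : ∀ x, w x * Real.exp (ker p.1 p.2 x) = Real.exp (Real.log (w x) + ker p.1 p.2 x) :=
    fun x => by rw [Real.exp_add, Real.exp_log (h0 x)]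
  simp only [Nf, e]
  exact integral_exp_pos
    ((hμ.integrable_kexp (adm_continuous hw R) p).congr (ae_of_all _ e))

/-- The mean of the tilt `p` reweighted by `w`. -/
def mid (μ : Measure (Space n)) (w : Space n → ℝ) (p : Par n) : Space n :=
  (Nf μ w p)⁻¹ • ∑ i, Nf μ (fun x => w x * x i) p • ev i

theorem inner_mid (hμ : Car μ R) {w : Space n → ℝ} (hw : Continuous w) (p : Par n) (θ : Space n) :
    inner ℝ θ (mid μ w p) = (Nf μ w p)⁻¹ * Nf μ (fun x => w x * inner ℝ θ x) p := by
  rw [mid, real_inner_smul_right, inner_sum]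
  congr 1
  have e : ∀ i, inner ℝ θ (Nf μ (fun x => w x * x i) p • ev i)
      = Nf μ (fun x => θ i * (w x * x i)) p := fun i => by
    rw [real_inner_smul_right, Nf_smul, EuclideanSpace.inner_single_right]
    simp [mul_comm]
  rw [Finset.sum_congr rfl fun i _ => e i]
  simp only [Nf]
  rw [← integral_finsetSum _ fun i _ =>
    hμ.integrable_kexp (adm_continuous (by fun_prop) R) p]
  refine integral_congr_ae (ae_of_all _ fun x => ?_)
  simp only [PiLp.inner_apply, RCLike.inner_apply, conj_trivial, Finset.sum_mul, Finset.mul_sum]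
  exact Finset.sum_congr rfl fun i _ => by ring

theorem norm_mid_le (hμ : Car μ R) {w : Space n → ℝ} (hw : Continuous w) (h0 : ∀ x, 0 < w x)
    (p : Par n) : ‖mid μ w p‖ ≤ R := by
  set v := mid μ w p with hv
  rcases eq_or_ne v 0 with h | h
  · simp [h, hμ.nonneg]
  have hN := Nf_pos hμ hw h0 p
  refine le_of_mul_le_mul_left ?_ (norm_pos_iff.2 h)
  rw [← real_inner_self_eq_norm_mul_norm]
  calc inner ℝ v v = (Nf μ w p)⁻¹ * Nf μ (fun x => w x * inner ℝ v x) p := inner_mid hμ hw p v
    _ ≤ (Nf μ w p)⁻¹ * Nf μ (fun x => ‖v‖ * R * w x) p := by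
        refine mul_le_mul_of_nonneg_left (Nf_mono hμ (adm_continuous (by fun_prop) R)
          (adm_continuous (by fun_prop) R) p fun x hx => ?_) (by positivity)
        rw [mul_comm (w x)]
        exact mul_le_mul_of_nonneg_right
          ((real_inner_le_norm v x).trans (mul_le_mul_of_nonneg_left hx (norm_nonneg _))) (h0 x).le
    _ = ‖v‖ * R := by rw [Nf_smul]; field_simp

theorem hasFDerivAt_logNf (hμ : Car μ R) {w : Space n → ℝ} (hw : Continuous w)
    (h0 : ∀ x, 0 < w x) (t : ℝ) (g : Space n) :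
    HasFDerivAt (fun g => Real.log (Nf μ w (t, √t • g)))
      (innerSL ℝ (√t • mid μ w (t, √t • g))) g := by
  have hL : HasFDerivAt (fun g : Space n => ((t, √t • g) : Par n))
      ((0 : Space n →L[ℝ] ℝ).prod (√t • ContinuousLinearMap.id ℝ (Space n))) g :=
    (hasFDerivAt_const t g).prodMk ((hasFDerivAt_id g).const_smul √t)
  have hc := (hasFDerivAt_Nf hμ (adm_continuous hw R) (t, √t • g)).comp g hL
  refine (hc.log (show (Nf μ w ∘ fun g => ((t, √t • g) : Par n)) g ≠ 0 from
    (Nf_pos hμ hw h0 _).ne')).congr_fderiv ?_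
  refine ContinuousLinearMap.ext fun v => ?_
  simp only [mid, Function.comp_apply, smul_apply, innerSL_apply_apply, real_inner_smul_left, sum_inner,
    EuclideanSpace.inner_single_left, conj_trivial, one_mul, smul_eq_mul, Finset.mul_sum,
    ContinuousLinearMap.comp_apply, add_apply, ContinuousLinearMap.sum_apply,
    ContinuousLinearMap.prod_apply, ContinuousLinearMap.coe_fst', ContinuousLinearMap.coe_snd',
    zero_apply, ContinuousLinearMap.id_apply, mul_zero, zero_add, PiLp.proj_apply, PiLp.smul_apply]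
  exact Finset.sum_congr rfl fun i _ => by ring

theorem contDiff_logNf (hμ : Car μ R) {w : Space n → ℝ} (hw : Continuous w)
    (h0 : ∀ x, 0 < w x) (t : ℝ) :
    ContDiff ℝ 2 fun g => Real.log (Nf μ w (t, √t • g)) :=
  ((contDiff_Nf hμ 2 (adm_continuous hw R)).comp
    (f := fun g : Space n => ((t, √t • g) : Par n))
    (contDiff_const.prodMk (contDiff_const_smul √t))).log fun g => (Nf_pos hμ hw h0 _).ne'

theorem continuous_mid (hμ : Car μ R) {w : Space n → ℝ} (hw : Continuous w)
    (h0 : ∀ x, 0 < w x) : Continuous (mid μ w) :=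
  ((differentiable_Nf hμ (adm_continuous hw R)).continuous.inv₀
    fun p => (Nf_pos hμ hw h0 p).ne').smul
    (continuous_finsetSum _ fun i _ =>
      ((differentiable_Nf hμ (adm_continuous (by fun_prop) R)).continuous).smul continuous_const)

theorem abs_logNf_le (hμ : Car μ R) {w : Space n → ℝ} (hw : Continuous w)
    (h0 : ∀ x, 0 < w x) (t : ℝ) (g : Space n) :
    |Real.log (Nf μ w (t, √t • g))| ≤ |Real.log (Nf μ w (t, √t • (0 : Space n)))| + √t * R * ‖g‖ := by
  have h := convex_univ.norm_image_sub_le_of_norm_hasFDerivWithin_le (C := √t * R)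
    (fun x _ => (hasFDerivAt_logNf hμ hw h0 t x).hasFDerivWithinAt) (fun x _ => ?_)
    (mem_univ (0 : Space n)) (mem_univ g)
  · rw [sub_zero, Real.norm_eq_abs] at h
    linarith [abs_sub_abs_le_abs_sub (Real.log (Nf μ w (t, √t • g)))
      (Real.log (Nf μ w (t, √t • (0 : Space n))))]
  · rw [innerSL_apply_norm, norm_smul, Real.norm_eq_abs, abs_of_nonneg (Real.sqrt_nonneg t)]
    exact mul_le_mul_of_nonneg_left (norm_mid_le hμ hw h0 _) (Real.sqrt_nonneg t)

theorem mid_one_eq (hμ : Car μ R) (p : Par n) :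
    mid μ (fun _ => 1) p = ∫ y, y ∂tlt μ p := by
  have := (hμ.tlt p).prob
  refine ext_inner_left ℝ fun θ => ?_
  rw [inner_mid hμ continuous_const, ← integral_inner (f := fun y : Space n => y)
    (integrable_of_ball (hμ.tlt p).bd continuous_id) θ, ← M_eq, M, Zf]
  simp only [one_mul]
  ring

/-- Reweighting a tilt moves its mean by at most the entropy. -/
theorem mid_sub_sq_le (hs : IsSLC 0 μ) (hμ : Car μ R) {w : Space n → ℝ} (hw : Continuous w)
    (h0 : ∀ x, 0 < w x) {p : Par n} (hp : 0 < p.1) :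
    p.1 * ‖mid μ w p - mid μ (fun _ => 1) p‖ ^ 2 * M μ w p ≤ 2 * ent (tlt μ p) w := by
  set b := mid μ (fun _ => 1) p with hb
  set d := mid μ w p - b with hd
  set θ := p.1 • d with hθ
  have hN := Nf_pos hμ hw h0 p
  have hZ := Zf_pos hμ p
  have hF : 0 < M μ w p := div_pos hN hZ
  have h1 := dv (hμ.tlt p) hw (u := fun x => inner ℝ θ (x - b)) (by fun_prop) h0
  have h2 : Real.log (∫ x, Real.exp (inner ℝ θ (x - b)) ∂tlt μ p) ≤ ‖θ‖ ^ 2 / (2 * p.1) := by
    have := (hμ.tlt p).prob
    rw [← Real.log_exp (‖θ‖ ^ 2 / (2 * p.1))]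
    refine Real.log_le_log (integral_exp_pos
      ((hμ.tlt p).integrable (adm_continuous (by fun_prop) R))) ?_
    have := (hs.tlt p).mgf (by simpa using hp) θ
    rwa [zero_add, ← mid_one_eq hμ, ← hb] at this
  have h3 : ∫ x, w x * inner ℝ θ (x - b) ∂tlt μ p = M μ w p * inner ℝ θ d := by
    have hi : ∀ v : Space n → ℝ, Continuous v → Integrable v (tlt μ p) :=
      fun v hv => (hμ.tlt p).integrable (adm_continuous hv R)
    simp only [inner_sub_right, mul_sub, hd]
    rw [integral_sub (hi _ (by fun_prop)) (hi _ (by fun_prop)), integral_mul_const, ← M_eq, ← M_eq,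
      inner_mid hμ hw, M, M]
    field_simp
  rw [h3, ← M_eq] at h1
  have h4 := h1.trans (add_le_add le_rfl (mul_le_mul_of_nonneg_left h2 hF.le))
  rw [hθ, real_inner_smul_left, real_inner_self_eq_norm_sq, norm_smul, Real.norm_eq_abs,
    abs_of_pos hp] at h4
  have e : M μ w p * ((p.1 * ‖d‖) ^ 2 / (2 * p.1)) = p.1 * ‖d‖ ^ 2 * M μ w p / 2 := by
    field_simp
  rw [e] at h4
  linarith [show M μ w p * (p.1 * ‖d‖ ^ 2) = p.1 * ‖d‖ ^ 2 * M μ w p by ring]

/-- The mean of a tilt of a centred subgaussian measure. -/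
theorem norm_mid_one_sq_le (hμ : Car μ R) (h : Sub1 μ) {p : Par n} (hp : 0 ≤ p.1) :
    ‖mid μ (fun _ => 1) p‖ ^ 2 ≤ 16 * ‖p.2‖ ^ 2 + 4 * p.1 * n := by
  have := hμ.prob
  have hi : ∀ v : Space n → ℝ, Continuous v → Integrable v μ :=
    fun v hv => hμ.integrable (adm_continuous hv R)
  set b := mid μ (fun _ => 1) p with hb
  set Z := Zf μ p with hZd
  have hZ : 0 < Z := Zf_pos hμ p
  set w : Space n → ℝ := fun x => Real.exp (ker p.1 p.2 x) with hwd
  have hw : Continuous w := by simp only [hwd]; fun_prop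
  have hwZ : ∫ x, w x ∂μ = Z := by simp [hwd, hZd, Zf, Nf]
  have h1 := dv hμ hw (u := fun x => inner ℝ ((1 / 2 : ℝ) • b) x) (by fun_prop)
    (fun x => Real.exp_pos _)
  have h2 : Real.log (∫ x, Real.exp (inner ℝ ((1 / 2 : ℝ) • b) x) ∂μ) ≤ ‖b‖ ^ 2 / 4 := by
    refine (Real.log_le_log (integral_exp_pos (hi _ (by fun_prop))) (h.mgf hμ _)).trans_eq ?_
    rw [Real.log_exp, norm_smul]
    norm_num
    ring
  have hbi : ∀ θ : Space n, ∫ x, w x * inner ℝ θ x ∂μ = Z * inner ℝ θ b := fun θ => by
    rw [hb, inner_mid hμ continuous_const, ← Zf, ← hZd, ← mul_assoc, mul_inv_cancel₀ hZ.ne',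
      one_mul, Nf]
    exact integral_congr_ae (ae_of_all _ fun x => by simp only [hwd]; ring)
  rw [hbi, hwZ, real_inner_smul_left, real_inner_self_eq_norm_sq] at h1
  have h3 : ent μ w ≤ Z * (inner ℝ p.2 b + p.1 * n / 2) := by
    have hmean : ∫ x, inner ℝ p.2 x ∂μ = 0 := by
      rw [integral_inner (f := fun x : Space n => x) (integrable_of_ball hμ.bd continuous_id) p.2,
        h.1, inner_zero_right]
    set m := ∫ x, ker p.1 p.2 x ∂μ with hm
    have hm0 : -(p.1 * n / 2) ≤ m := by
      have : m = -(p.1 / 2) * ∫ x, ‖x‖ ^ 2 ∂μ := by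
        simp only [hm, ker]
        rw [integral_sub (hi _ (by fun_prop)) (hi _ (by fun_prop)), hmean, zero_sub,
          ← integral_const_mul, ← integral_neg]
        exact integral_congr_ae (ae_of_all _ fun x => by ring)
      rw [this]
      nlinarith [h.norm_sq_le hμ]
    have hlog : m ≤ Real.log Z := by
      rw [Real.le_log_iff_exp_le hZ, ← hwZ]
      exact convexOn_exp.map_integral_le Real.continuous_exp.continuousOn isClosed_univ
        (ae_of_all _ fun _ => mem_univ _) (hi _ (by fun_prop)) (hi _ (by fun_prop))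
    have hfirst : ∫ x, w x * Real.log (w x) ∂μ ≤ Z * inner ℝ p.2 b := by
      rw [← hbi]
      refine integral_mono (hi _ (Real.continuous_mul_log.comp hw)) (hi _ (by fun_prop)) fun x => ?_
      simp only [hwd, Real.log_exp, ker]
      exact mul_le_mul_of_nonneg_left (sub_le_self _ (by positivity)) (Real.exp_pos _).le
    rw [ent, hwZ]
    nlinarith [mul_le_mul_of_nonneg_left hlog hZ.le]
  have h4 : Z * (1 / 2 * ‖b‖ ^ 2) ≤ Z * (inner ℝ p.2 b + p.1 * n / 2 + ‖b‖ ^ 2 / 4) := by
    nlinarith [mul_le_mul_of_nonneg_left h2 hZ.le]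
  have h5 := le_of_mul_le_mul_left h4 hZ
  nlinarith [real_inner_le_norm p.2 b, sq_nonneg (‖b‖ - 4 * ‖p.2‖), norm_nonneg p.2,
    norm_nonneg b]

/-! ### Exponential growth -/

theorem Tame.of_le_exp {F : Space n → ℝ} {A B : ℝ} (h : ∀ x, |F x| ≤ Real.exp (A + B * ‖x‖)) :
    Tame F := ⟨Real.exp A, B, fun x => (h x).trans_eq (Real.exp_add _ _)⟩

theorem Tame.of_lin {F : Space n → ℝ} {A B : ℝ} (h : ∀ x, |F x| ≤ A + B * ‖x‖) : Tame F :=
  Tame.of_le_exp fun x => (h x).trans (by linarith [Real.add_one_le_exp (A + B * ‖x‖)])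

theorem Tame.of_bdd {F : Space n → ℝ} {C : ℝ} (h : ∀ x, |F x| ≤ C) : Tame F :=
  Tame.of_lin (A := C) (B := 0) fun x => by simpa using h x

theorem Tame.exp_lin {F : Space n → ℝ} {A B : ℝ} (h : ∀ x, |F x| ≤ A + B * ‖x‖) :
    Tame fun x => Real.exp (F x) :=
  Tame.of_le_exp fun x => by
    rw [abs_of_pos (Real.exp_pos _)]; exact Real.exp_le_exp.2 ((le_abs_self _).trans (h x))

theorem Tame.mul {F G : Space n → ℝ} (hF : Tame F) (hG : Tame G) : Tame fun x => F x * G x := by
  obtain ⟨A, c, hA⟩ := hF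
  obtain ⟨B, d, hB⟩ := hG
  refine ⟨A * B, c + d, fun x => ?_⟩
  rw [abs_mul, add_mul, Real.exp_add]
  calc |F x| * |G x| ≤ A * Real.exp (c * ‖x‖) * (B * Real.exp (d * ‖x‖)) :=
        mul_le_mul (hA x) (hB x) (abs_nonneg _) ((abs_nonneg _).trans (hA x))
    _ = _ := by ring

/-! ### The defective inequality -/

theorem integral_pos_of_pos {ν : Measure (Space n)} [NeZero ν] {F : Space n → ℝ}
    (h : ∀ x, 0 < F x) (hi : Integrable F ν) : 0 < ∫ x, F x ∂ν := by
  have e : ∀ x, F x = Real.exp (Real.log (F x)) := fun x => (Real.exp_log (h x)).symm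
  rw [integral_congr_ae (ae_of_all _ e)]
  exact integral_exp_pos (hi.congr (ae_of_all _ e))

theorem tame_exp_mid (hμ : Car μ R) (t : ℝ) {a : ℝ} (ha : 0 ≤ a) :
    Tame fun g : Space n => Real.exp (a * ‖mid μ (fun _ => 1) (t, √t • g)‖ ^ 2) :=
  Tame.of_bdd (C := Real.exp (a * R ^ 2)) fun g => by
    rw [abs_of_pos (Real.exp_pos _)]
    exact Real.exp_le_exp.2 (mul_le_mul_of_nonneg_left (pow_le_pow_left₀ (norm_nonneg _)
      (norm_mid_le hμ continuous_const (fun _ => one_pos) _) 2) ha)

theorem tame_Zf (hμ : Car μ R) (t : ℝ) : Tame fun g : Space n => Zf μ (t, √t • g) := by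
  have := Tame.exp_lin (F := fun g : Space n => Real.log (Zf μ (t, √t • g)))
    (abs_logNf_le hμ continuous_const (fun _ => one_pos) t)
  simpa [Real.exp_log (Zf_pos hμ _)] using this

theorem tame_inv_Zf (hμ : Car μ R) (t : ℝ) :
    Tame fun g : Space n => 1 / Zf μ (t, √t • g) := by
  have := Tame.exp_lin (F := fun g : Space n => -Real.log (Zf μ (t, √t • g))) fun g => by
    rw [abs_neg]
    exact abs_logNf_le hμ continuous_const (fun _ => one_pos) t g
  simpa [Real.exp_neg, Real.exp_log (Zf_pos hμ _), one_div] using this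

theorem moment_mid_le (hμ : Car μ R) (h : Sub1 μ) {t : ℝ} (ht : 0 < t) {a : ℝ} (ha : 0 ≤ a)
    (hat : 16 * a * t ≤ 1 / 4) :
    ∫ g, Real.exp (a * ‖mid μ (fun _ => 1) (t, √t • g)‖ ^ 2) ∂gam n
      ≤ Real.exp (36 * a * t * n) := by
  have cb : Continuous fun g : Space n => mid μ (fun _ => 1) (t, √t • g) :=
    (continuous_mid hμ continuous_const fun _ => one_pos).comp (by fun_prop)
  set b : Space n → Space n := fun g => mid μ (fun _ => 1) (t, √t • g) with hb
  have hpt : ∀ g, Real.exp (a * ‖b g‖ ^ 2)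
      ≤ Real.exp (4 * a * t * n) * Real.exp (16 * a * t * ‖g‖ ^ 2) := fun g => by
    rw [← Real.exp_add]
    refine Real.exp_le_exp.2 ?_
    have h2 := norm_mid_one_sq_le hμ h (p := (t, √t • g)) ht.le
    simp only [norm_smul, Real.norm_eq_abs, abs_of_nonneg (Real.sqrt_nonneg t), mul_pow,
      Real.sq_sqrt ht.le] at h2
    refine (mul_le_mul_of_nonneg_left h2 ha).trans_eq ?_
    ring
  refine (integral_mono ((tame_exp_mid hμ t ha).integrable (((cb.norm.pow 2).const_mul a).rexp))
    ((gam_exp_sq (by linarith)).1.const_mul _) hpt).trans ?_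
  rw [integral_const_mul]
  refine (mul_le_mul_of_nonneg_left (gam_exp_sq_le (by positivity) hat)
    (Real.exp_pos _).le).trans_eq ?_
  rw [← Real.exp_add]
  congr 1
  ring

theorem exp_mul_exp_neg_le {f : Space n → ℝ} {G : Space n → Space n}
    (hf : ∀ x, HasFDerivAt f (innerSL ℝ (G x)) x) (hG : Continuous G)
    (i1 : Integrable (fun x => Real.exp (f x)) (gam n))
    (i2 : Integrable (fun x => Real.exp (-f x)) (gam n))
    {u : Space n → ℝ} (iu : Integrable u (gam n))
    (hu : ∀ x, Real.exp (Real.pi ^ 2 / 8 * ‖G x‖ ^ 2) ≤ u x) :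
    (∫ x, Real.exp (f x) ∂gam n) * ∫ x, Real.exp (-f x) ∂gam n ≤ ∫ x, u x ∂gam n := by
  have hfc : Continuous f := continuous_iff_continuousAt.2 fun x => (hf x).continuousAt
  have hMP := (lintegral_exp_sub_le hf hG).trans
    (lintegral_mono fun x => ENNReal.ofReal_le_ofReal (hu x))
  simp only [sub_eq_add_neg, Real.exp_add, ENNReal.ofReal_mul (Real.exp_pos _).le] at hMP
  have m1 : AEMeasurable (fun x => ENNReal.ofReal (Real.exp (f x))) (gam n) := by fun_prop
  have m2 : AEMeasurable (fun x => ENNReal.ofReal (Real.exp (-f x))) (gam n) := by fun_prop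
  rw [lintegral_prod_mul m1 m2,
    ← ofReal_integral_eq_lintegral_ofReal i1 (ae_of_all _ fun x => (Real.exp_pos _).le),
    ← ofReal_integral_eq_lintegral_ofReal i2 (ae_of_all _ fun x => (Real.exp_pos _).le),
    ← ofReal_integral_eq_lintegral_ofReal iu
      (ae_of_all _ fun x => (Real.exp_pos _).le.trans (hu x)),
    ← ENNReal.ofReal_mul (integral_nonneg fun x => (Real.exp_pos _).le)] at hMP
  exact (ENNReal.ofReal_le_ofReal_iff
    (integral_nonneg fun x => (Real.exp_pos _).le.trans (hu x))).1 hMP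

theorem integral_inv_sq_le (hμ : Car μ R) (h : Sub1 μ) {t : ℝ} (ht : 0 < t) (ht1 : t ≤ 1 / 20) :
    ∫ g, (1 / Zf μ (t, √t • g)) ^ 2 ∂gam n ≤ Real.exp (180 * t ^ 2 * n) := by
  set b : Space n → Space n := fun g => mid μ (fun _ => 1) (t, √t • g) with hb
  set Z : Space n → ℝ := fun g => Zf μ (t, √t • g) with hZd
  have hZ : ∀ g, 0 < Z g := fun g => Zf_pos hμ _
  have cZ : Continuous Z := (continuous_Zf hμ).comp (by fun_prop)
  have cb : Continuous b :=
    (continuous_mid hμ continuous_const fun _ => one_pos).comp (by fun_prop)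
  have tZi : Tame fun g => 1 / Z g := tame_inv_Zf hμ t
  have tZ : Tame Z := tame_Zf hμ t
  have cZi : Continuous fun g => 1 / Z g := continuous_const.div cZ fun g => (hZ g).ne'
  have iY : Integrable (fun g => (1 / Z g) ^ 2) (gam n) := by
    simpa [sq] using (tZi.mul tZi).integrable (cZi.mul cZi)
  have iZ : Integrable (fun g => Z g ^ 2) (gam n) := by
    simpa [sq] using (tZ.mul tZ).integrable (cZ.mul cZ)
  have hZ1 : ∫ g, Z g ∂gam n = 1 := by simpa [Et, hZd] using Et_const hμ 1 ht.le
  have hZ2 : 1 ≤ ∫ g, Z g ^ 2 ∂gam n := by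
    have := integral_mono (f := fun g => 2 * Z g - 1)
      (((tZ.integrable cZ).const_mul 2).sub (integrable_const 1)) iZ
      fun g => by nlinarith [sq_nonneg (Z g - 1)]
    rw [integral_sub ((tZ.integrable cZ).const_mul 2) (integrable_const 1), integral_const_mul,
      hZ1, integral_const] at this
    simp only [probReal_univ, one_smul] at this
    linarith
  have hder : ∀ g, HasFDerivAt (fun g => -(2 * Real.log (Z g)))
      (innerSL ℝ ((-2 * √t) • b g)) g := fun g => by
    refine (((hasFDerivAt_logNf hμ continuous_const (fun _ => one_pos) t g).const_mul (2 : ℝ)).neg).congr_fderiv ?_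
    refine ContinuousLinearMap.ext fun v => ?_
    simp only [neg_apply, smul_apply, innerSL_apply_apply, real_inner_smul_left, smul_eq_mul,
      hb]
    ring
  have hexp : ∀ g, Real.exp (-(2 * Real.log (Z g))) = (1 / Z g) ^ 2 := fun g => by
    rw [two_mul, neg_add, Real.exp_add, Real.exp_neg, Real.exp_log (hZ g), sq, one_div]
  have hexp' : ∀ g, Real.exp (- -(2 * Real.log (Z g))) = Z g ^ 2 := fun g => by
    rw [neg_neg, two_mul, Real.exp_add, Real.exp_log (hZ g), sq]
  have c5 : Continuous fun g => Real.exp (5 * t * ‖b g‖ ^ 2) :=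
    ((cb.norm.pow 2).const_mul (5 * t)).rexp
  have i5 : Integrable (fun g => Real.exp (5 * t * ‖b g‖ ^ 2)) (gam n) :=
    (tame_exp_mid hμ t (by positivity)).integrable c5
  have hMP := exp_mul_exp_neg_le hder (cb.const_smul (-2 * √t))
    (iY.congr (ae_of_all _ fun g => (hexp g).symm))
    (iZ.congr (ae_of_all _ fun g => (hexp' g).symm)) i5 fun g => by
      rw [norm_smul, mul_pow, Real.norm_eq_abs, sq_abs, mul_pow, Real.sq_sqrt ht.le]
      have : Real.pi ^ 2 ≤ 10 := by nlinarith [Real.pi_lt_d2, Real.pi_pos]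
      refine Real.exp_le_exp.2 ?_
      nlinarith [mul_nonneg ht.le (sq_nonneg ‖b g‖)]
  simp only [hexp, hexp'] at hMP
  refine le_trans ?_ ((moment_mid_le hμ h ht (a := 5 * t) (by positivity) (by nlinarith)).trans_eq
    (by congr 1; ring))
  exact le_trans (le_mul_of_one_le_right (integral_nonneg fun g => sq_nonneg _) hZ2) hMP

theorem log_K_le (hμ : Car μ R) (h : Sub1 μ) {t : ℝ} (ht : 0 < t) (ht1 : t ≤ 1 / 20) :
    Real.log (∫ g, Real.exp (2 * t * ‖mid μ (fun _ => 1) (t, √t • g)‖ ^ 2)
        / Zf μ (t, √t • g) ∂gam n) ≤ 162 * t ^ 2 * n := by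
  set P : Space n → Par n := fun g => (t, √t • g) with hP
  have h1c : Continuous fun _ : Space n => (1 : ℝ) := continuous_const
  have h10 : ∀ _x : Space n, (0 : ℝ) < 1 := fun _ => one_pos
  set b : Space n → Space n := fun g => mid μ (fun _ => 1) (P g) with hb
  set Z : Space n → ℝ := fun g => Zf μ (P g) with hZd
  have hZ : ∀ g, 0 < Z g := fun g => Zf_pos hμ _
  have cZ : Continuous Z := (continuous_Zf hμ).comp (by fun_prop)
  have cb : Continuous b := (continuous_mid hμ h1c h10).comp (by fun_prop)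
  have tExp : ∀ a : ℝ, 0 ≤ a → Tame fun g => Real.exp (a * ‖b g‖ ^ 2) := fun a ha =>
    tame_exp_mid hμ t ha
  have tZi : Tame fun g => 1 / Z g := tame_inv_Zf hμ t
  have cZi : Continuous fun g => 1 / Z g := continuous_const.div cZ fun g => (hZ g).ne'
  have hX : ∫ g, Real.exp (4 * t * ‖b g‖ ^ 2) ∂gam n ≤ Real.exp (144 * t ^ 2 * n) := by
    refine (moment_mid_le hμ h ht (a := 4 * t) (by positivity) (by nlinarith)).trans_eq ?_
    congr 1; ring
  have hY : ∫ g, (1 / Z g) ^ 2 ∂gam n ≤ Real.exp (180 * t ^ 2 * n) := integral_inv_sq_le hμ h ht ht1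
  set X := 144 * t ^ 2 * (n : ℝ) with hXd
  set Y := 180 * t ^ 2 * (n : ℝ) with hYd
  have hpt : ∀ g, Real.exp (2 * t * ‖b g‖ ^ 2) / Z g
      ≤ Real.exp ((Y - X) / 2) / 2 * Real.exp (4 * t * ‖b g‖ ^ 2)
        + Real.exp ((X - Y) / 2) / 2 * (1 / Z g) ^ 2 := fun g => by
    have e1 : Real.exp (4 * t * ‖b g‖ ^ 2) = Real.exp (2 * t * ‖b g‖ ^ 2) ^ 2 := by
      rw [← Real.exp_nat_mul]; congr 1; push_cast; ring
    have e2 : Real.exp ((X - Y) / 2) = (Real.exp ((Y - X) / 2))⁻¹ := by
      rw [← Real.exp_neg]; congr 1; ring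
    rw [e1, e2]
    have hs := Real.exp_pos ((Y - X) / 2)
    set s := Real.exp ((Y - X) / 2)
    set a := Real.exp (2 * t * ‖b g‖ ^ 2)
    have key : s / 2 * a ^ 2 + s⁻¹ / 2 * (1 / Z g) ^ 2 - a / Z g
        = s⁻¹ / 2 * (s * a - 1 / Z g) ^ 2 := by
      field_simp
      ring
    nlinarith [show 0 ≤ s⁻¹ / 2 * (s * a - 1 / Z g) ^ 2 by positivity]
  have i1 := ((tExp (4 * t) (by positivity)).integrable (by fun_prop)).const_mul
    (Real.exp ((Y - X) / 2) / 2)
  have i2 := ((tZi.mul tZi).integrable (cZi.mul cZi)).const_mul (Real.exp ((X - Y) / 2) / 2)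
  simp only [← sq] at i2
  have iK : Integrable (fun g => Real.exp (2 * t * ‖b g‖ ^ 2) / Z g) (gam n) := by
    simpa [div_eq_mul_one_div (Real.exp _)] using
      ((tExp (2 * t) (by positivity)).mul tZi).integrable ((by fun_prop : Continuous _).mul cZi)
  have hK : ∫ g, Real.exp (2 * t * ‖b g‖ ^ 2) / Z g ∂gam n ≤ Real.exp (162 * t ^ 2 * n) := by
    refine (integral_mono iK (i1.add i2) hpt).trans ?_
    rw [integral_add' i1 i2, integral_const_mul, integral_const_mul]
    refine (add_le_add (mul_le_mul_of_nonneg_left hX (by positivity))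
      (mul_le_mul_of_nonneg_left hY (by positivity))).trans_eq ?_
    rw [div_mul_eq_mul_div, div_mul_eq_mul_div, ← Real.exp_add, ← Real.exp_add, ← add_div]
    rw [show (Y - X) / 2 + X = 162 * t ^ 2 * n by rw [hXd, hYd]; ring,
      show (X - Y) / 2 + Y = 162 * t ^ 2 * n by rw [hXd, hYd]; ring]
    ring
  have hK0 : 0 < ∫ g, Real.exp (2 * t * ‖b g‖ ^ 2) / Z g ∂gam n :=
    integral_pos_of_pos (fun g => div_pos (Real.exp_pos _) (hZ g)) iK
  rw [← Real.log_exp (162 * t ^ 2 * n)]
  exact Real.log_le_log hK0 hK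

/-- The defective inequality for shifted squares. -/
theorem defective_add (hs : IsSLC 0 μ) (h : Sub1 μ) {t : ℝ} (ht : 0 < t) (ht1 : t ≤ 1 / 20)
    {f : Space n → ℝ} (hf : ContDiff ℝ 2 f) {η : ℝ} (hη : 0 < η) :
    ent μ (fun x => f x ^ 2 + η)
      ≤ 10 / t * dir μ f + 162 * t ^ 2 * n * ∫ x, (f x ^ 2 + η) ∂μ := by
  obtain ⟨R, hμ⟩ := hs.car
  have := hμ.prob
  set w : Space n → ℝ := fun x => f x ^ 2 + η with hwd
  have hw : Continuous w := by have := hf.continuous; simp only [hwd]; fun_prop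
  have hw0 : ∀ x, 0 < w x := fun x => by positivity
  have h1c : Continuous fun _ : Space n => (1 : ℝ) := continuous_const
  have h10 : ∀ _x : Space n, (0 : ℝ) < 1 := fun _ => one_pos
  have aw : Adm R w := adm_continuous hw R
  have awl : Adm R fun x => w x * Real.log (w x) :=
    adm_continuous (Real.continuous_mul_log.comp hw) R
  have hdc : Continuous fun x => ‖fderiv ℝ f x‖ ^ 2 := by
    have := hf.continuous_fderiv (by norm_num); fun_prop
  set M₀ := ∫ x, w x ∂μ with hM₀
  -- the observables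
  set H : Par n → ℝ := fun p => M μ w p * Real.log (M μ w p) with hH
  set G : Par n → ℝ := fun p => M μ (fun x => w x * Real.log (w x)) p - H p with hG
  have oH : Obs H := (obs_M hμ aw).comp_continuous Real.continuous_mul_log
  have oG : Obs G := (obs_M hμ awl).sub oH
  have hGe : ∀ p, G p = ent (tlt μ p) w := fun p => by simp only [hG, hH, ent, M_eq]
  have hA : Et μ t G ≤ 2 / t * dir μ f := by
    have oD := obs_M hμ (adm_continuous hdc R)
    refine (Et_mono hμ oG ((Obs.const (2 / t)).mul oD) t fun g => ?_).trans_eq ?_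
    · rw [hGe, M_eq]
      have := (hs.tlt (t, √t • g)).lsi_add (by simpa using ht) hf hη
      simpa [dir] using this
    · rw [Et_smul, Et_M hμ (adm_continuous hdc R) ht.le]
      rfl
  have hEnt : ent μ w = Et μ t G + (Et μ t H - M₀ * Real.log M₀) := by
    rw [hG, Et_sub hμ (obs_M hμ awl) oH, Et_M hμ awl ht.le, ent]
    ring
  -- functions of the Gaussian vector
  set P : Space n → Par n := fun g => (t, √t • g) with hP
  set N : Space n → ℝ := fun g => Nf μ w (P g) with hN
  set Z : Space n → ℝ := fun g => Zf μ (P g) with hZd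
  set b : Space n → Space n := fun g => mid μ (fun _ => 1) (P g) with hb
  set bw : Space n → Space n := fun g => mid μ w (P g) with hbw
  have hN0 : ∀ g, 0 < N g := fun g => Nf_pos hμ hw hw0 _
  have hZ0 : ∀ g, 0 < Z g := fun g => Zf_pos hμ _
  have hFN : ∀ g, M μ w (P g) * Z g = N g := fun g => div_mul_cancel₀ _ (hZ0 g).ne'
  have cN : Continuous N := (differentiable_Nf hμ aw).continuous.comp (by fun_prop)
  have cZ : Continuous Z := (continuous_Zf hμ).comp (by fun_prop)
  have cb : Continuous b := (continuous_mid hμ h1c h10).comp (by fun_prop)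
  have cbw : Continuous bw := (continuous_mid hμ hw hw0).comp (by fun_prop)
  have clZ : Continuous fun g => Real.log (Z g) := cZ.log fun g => (hZ0 g).ne'
  have clN : Continuous fun g => Real.log (N g) := cN.log fun g => (hN0 g).ne'
  have lN := abs_logNf_le hμ hw hw0 t
  have lZ := abs_logNf_le hμ h1c h10 t
  have tN : Tame N := by
    have := Tame.exp_lin (F := fun g => Real.log (N g)) lN
    simpa [Real.exp_log (hN0 _)] using this
  have tsq : ∀ v : Space n → Space n, (∀ g, ‖v g‖ ≤ R) → Tame fun g => ‖v g‖ ^ 2 := fun v hv =>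
    Tame.of_bdd (C := R ^ 2) fun g => by
      rw [abs_of_nonneg (sq_nonneg _)]; exact pow_le_pow_left₀ (norm_nonneg _) (hv g) 2
  have iN : Integrable N (gam n) := tN.integrable cN
  have iNlN : Integrable (fun g => N g * Real.log (N g)) (gam n) :=
    (tN.mul (Tame.of_lin lN)).integrable (cN.mul clN)
  have iNlZ : Integrable (fun g => N g * Real.log (Z g)) (gam n) :=
    (tN.mul (Tame.of_lin lZ)).integrable (cN.mul clZ)
  have iNb : Integrable (fun g => N g * ‖b g‖ ^ 2) (gam n) :=
    (tN.mul (tsq b fun g => norm_mid_le hμ h1c h10 _)).integrable (by fun_prop)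
  have iNbw : Integrable (fun g => N g * ‖bw g‖ ^ 2) (gam n) :=
    (tN.mul (tsq bw fun g => norm_mid_le hμ hw hw0 _)).integrable (by fun_prop)
  have hNint : ∫ g, N g ∂gam n = M₀ := by
    rw [← funext hFN]; exact Et_M hμ aw ht.le
  have hM0 : 0 < M₀ := by
    have := Nf_pos hμ hw hw0 (0 : Par n)
    simpa [hM₀, Nf, ker] using this
  -- Gross
  have hgross : ent (gam n) N ≤ 1 / 2 * t * ∫ g, N g * ‖bw g‖ ^ 2 ∂gam n := by
    have hder : ∀ g, fderiv ℝ (fun g => Real.log (N g)) g = innerSL ℝ (√t • bw g) := fun g =>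
      (hasFDerivAt_logNf hμ hw hw0 t g).fderiv
    have key := gam_lsi_exp (φ := fun g => Real.log (N g)) (contDiff_logNf hμ hw hw0 t)
      (B := √t * R) lN fun g => by
        rw [hder, innerSL_apply_norm, norm_smul, Real.norm_eq_abs,
          abs_of_nonneg (Real.sqrt_nonneg t)]
        exact mul_le_mul_of_nonneg_left (norm_mid_le hμ hw hw0 _) (Real.sqrt_nonneg t)
    simp only [Real.exp_log (hN0 _), hder, innerSL_apply_norm, norm_smul, Real.norm_eq_abs,
      mul_pow, sq_abs, Real.sq_sqrt ht.le] at key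
    refine key.trans_eq ?_
    rw [mul_assoc, ← integral_const_mul t]
    congr 1
    exact integral_congr_ae (ae_of_all _ fun g => by ring)
  have hmove : ∫ g, N g * ‖bw g‖ ^ 2 ∂gam n
      ≤ 4 / t * Et μ t G + 2 * ∫ g, N g * ‖b g‖ ^ 2 ∂gam n := by
    have i1 := (obs_Zf_mul hμ oG t).const_mul (4 / t)
    refine (integral_mono iNbw (i1.add (iNb.const_mul 2)) fun g => ?_).trans_eq ?_
    · have h2 := mid_sub_sq_le hs hμ hw hw0 (p := P g) ht
      rw [← hGe] at h2
      simp only [Pi.add_apply]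
      have h3 : N g * ‖bw g - b g‖ ^ 2 ≤ 2 / t * (G (P g) * Z g) := by
        rw [← hFN g, div_mul_eq_mul_div, le_div_iff₀ ht]
        have := mul_le_mul_of_nonneg_right h2 (hZ0 g).le
        simp only [hP, hbw, hb] at this ⊢
        linarith
      have h4 : ‖bw g‖ ^ 2 ≤ 2 * ‖bw g - b g‖ ^ 2 + 2 * ‖b g‖ ^ 2 := by
        have := norm_le_norm_add_norm_sub' (bw g) (b g)
        nlinarith [sq_nonneg (‖bw g - b g‖ - ‖b g‖), norm_nonneg (bw g)]
      have h5 := mul_le_mul_of_nonneg_left h4 (hN0 g).le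
      simp only [hP, hZd] at h3 h5 ⊢
      linarith [show 4 / t * (G (t, √t • g) * Zf μ (t, √t • g))
        = 2 * (2 / t * (G (t, √t • g) * Zf μ (t, √t • g))) by ring]
    · rw [integral_add' i1 (iNb.const_mul 2), integral_const_mul, integral_const_mul]
      rfl
  set J := ∫ g, N g * ‖b g‖ ^ 2 ∂gam n with hJ
  set L := ∫ g, N g * Real.log (Z g) ∂gam n with hL
  have hH1 : Et μ t H = ∫ g, N g * Real.log (N g) ∂gam n - L := by
    rw [hL, ← integral_sub iNlN iNlZ]
    refine integral_congr_ae (ae_of_all _ fun g => ?_)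
    beta_reduce
    have e : Real.log (M μ w (P g)) = Real.log (N g) - Real.log (Z g) :=
      Real.log_div (hN0 g).ne' (hZ0 g).ne'
    rw [show H (t, √t • g) * Zf μ (t, √t • g)
      = M μ w (P g) * Z g * Real.log (M μ w (P g)) by simp only [hH, hP, hZd]; ring, hFN, e]
    ring
  set B := Et μ t H - M₀ * Real.log M₀ with hB
  have hB1 : B ≤ 2 * Et μ t G + (t * J - L) := by
    have h6 := hgross.trans (mul_le_mul_of_nonneg_left hmove (by positivity))
    rw [ent, hNint] at h6
    have : 1 / 2 * t * (4 / t * Et μ t G + 2 * J) = 2 * Et μ t G + t * J := by field_simp; ring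
    linarith
  -- the variational bound
  set K := ∫ g, Real.exp (2 * t * ‖b g‖ ^ 2) / Z g ∂gam n with hK
  have iK : Integrable (fun g => Real.exp (2 * t * ‖b g‖ ^ 2) / Z g) (gam n) := by
    have hc : Continuous fun g => Real.exp (2 * t * ‖b g‖ ^ 2) * Real.exp (-Real.log (Z g)) := by
      fun_prop
    have h1 : Tame fun g => Real.exp (2 * t * ‖b g‖ ^ 2) :=
      Tame.of_bdd (C := Real.exp (2 * t * R ^ 2)) fun g => by
        rw [abs_of_pos (Real.exp_pos _)]
        exact Real.exp_le_exp.2 (mul_le_mul_of_nonneg_left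
          (pow_le_pow_left₀ (norm_nonneg _) (norm_mid_le hμ h1c h10 _) 2) (by positivity))
    have h2 := (h1.mul (Tame.exp_lin (F := fun g => -Real.log (Z g))
      fun g => (abs_neg _).trans_le (lZ g))).integrable hc
    simpa [Real.exp_neg, Real.exp_log (hZ0 _), div_eq_mul_inv] using h2
  have hK0 : 0 < K := integral_pos_of_pos (fun g => div_pos (Real.exp_pos _) (hZ0 g)) iK
  have hDV : 2 * (t * J - L) ≤ B + M₀ * Real.log K := by
    have iL : Integrable (fun g => (2 * t) * (N g * ‖b g‖ ^ 2) - 2 * (N g * Real.log (Z g))) (gam n) :=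
      (iNb.const_mul _).sub (iNlZ.const_mul _)
    have j1 : Integrable (fun g => N g * Real.log (N g) - N g * Real.log (Z g)) (gam n) :=
      iNlN.sub iNlZ
    have j2 : Integrable (fun g => N g * (Real.log K - Real.log M₀ - 1)) (gam n) := iN.mul_const _
    have j3 := iK.const_mul (M₀ / K)
    have key := integral_mono iL ((j1.add j2).add j3) fun g => by
      have h7 := dv_pt (div_pos (hN0 g) (hZ0 g)) hM0 hK0
        (2 * t * ‖b g‖ ^ 2 - 2 * Real.log (Z g))
      have h8 := mul_le_mul_of_nonneg_right h7 (hZ0 g).le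
      rw [Real.log_div (hN0 g).ne' (hZ0 g).ne'] at h8
      have e2 : Real.exp (2 * t * ‖b g‖ ^ 2 - 2 * Real.log (Z g)) * Z g
          = Real.exp (2 * t * ‖b g‖ ^ 2) / Z g := by
        rw [Real.exp_sub, two_mul (Real.log _), Real.exp_add, Real.exp_log (hZ0 g)]
        have := hZ0 g
        field_simp
      have e3 : ∀ r : ℝ, N g / Z g * r * Z g = N g * r := fun r => by
        have := hZ0 g; field_simp
      simp only [Pi.add_apply]
      simp only [add_mul, sub_mul, e3, mul_assoc (M₀ / K), e2,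
        div_mul_cancel₀ _ (hZ0 g).ne'] at h8
      linarith
    simp only [Pi.add_apply] at key
    rw [integral_sub (iNb.const_mul _) (iNlZ.const_mul _),
      integral_add (by exact j1.add j2) j3, integral_add j1 j2, integral_sub iNlN iNlZ,
      integral_mul_const, integral_const_mul, integral_const_mul, integral_const_mul, hNint,
      ← hK, ← hJ, ← hL, div_mul_cancel₀ _ hK0.ne'] at key
    rw [hB, hH1]
    linarith
  have hlam := mul_le_mul_of_nonneg_left (log_K_le hμ h ht ht1) hM0.le
  rw [← hK] at hlam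
  rw [hEnt]
  have : 10 / t * dir μ f = 5 * (2 / t * dir μ f) := by ring
  nlinarith

/-- The defective logarithmic Sobolev inequality. -/
theorem defectiveBound : DefectiveBound := by
  refine ⟨162, by norm_num, fun n μ _ hs h t ht ht1 f hf => ?_⟩
  obtain ⟨R, hμ⟩ := hs.car
  have := hμ.prob
  have hfc := hf.continuous
  have hi : Integrable (fun x => f x ^ 2) μ := hμ.integrable (adm_continuous (by fun_prop) R)
  refine le_of_tendsto_of_tendsto (tendsto_ent_add hμ.bd (hfc.pow 2))
    ((?_ : Tendsto (fun η : ℝ => 162 / t * dir μ f + 162 * t ^ 2 * n * (∫ x, f x ^ 2 ∂μ + η))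
      (𝓝[>] 0) _)) ?_
  · have : Continuous fun η : ℝ =>
        162 / t * dir μ f + 162 * t ^ 2 * n * (∫ x, f x ^ 2 ∂μ + η) := by fun_prop
    simpa using (this.tendsto 0).mono_left nhdsWithin_le_nhds
  · filter_upwards [self_mem_nhdsWithin] with η hη
    refine (defective_add hs h ht (by linarith) hf hη).trans ?_
    rw [integral_add hi (integrable_const η), integral_const]
    simp only [probReal_univ, one_smul]
    gcongr
    · exact dir_nonneg f
    · norm_num

end Vale.Agent.P245
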