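import Vale.Agent.P245.Basic

/-!
Trace inequalities for powers of a positive semidefinite matrix.
-/

noncomputable section

open Matrix Finset

namespace Vale.Agent.P245

variable {n : ℕ}

/-- Square real matrices. -/
abbrev Mat (n : ℕ) := Matrix (Fin n) (Fin n) ℝ

/-- An orthogonal diagonalisation with nonnegative eigenvalues. -/
structure Eig (A U : Mat n) (lam : Fin n → ℝ) : Prop where
  left : Uᵀ * U = 1
  right : U * Uᵀ = 1
  nonneg : ∀ i, 0 ≤ lam i
  eq : A = U * diagonal lam * Uᵀ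

theorem exists_eig {A : Mat n} (hA : A.PosSemidef) : ∃ U lam, Eig A U lam := by
  refine ⟨(hA.1.eigenvectorUnitary : Mat n), hA.1.eigenvalues, ?_, ?_, hA.eigenvalues_nonneg, ?_⟩
  · have := Unitary.coe_star_mul_self hA.1.eigenvectorUnitary
    simpa [Matrix.star_eq_conjTranspose, Matrix.conjTranspose_eq_transpose_of_trivial] using this
  · have := Unitary.coe_mul_star_self hA.1.eigenvectorUnitary
    simpa [Matrix.star_eq_conjTranspose, Matrix.conjTranspose_eq_transpose_of_trivial] using this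
  · conv_lhs => rw [hA.1.spectral_theorem]
    simp [Unitary.conjStarAlgAut_apply, Matrix.star_eq_conjTranspose,
      Matrix.conjTranspose_eq_transpose_of_trivial]

namespace Eig

variable {A U : Mat n} {lam : Fin n → ℝ}

theorem pow (h : Eig A U lam) (k : ℕ) : A ^ k = U * diagonal (fun i => lam i ^ k) * Uᵀ := by
  induction k with
  | zero => simp [h.right, diagonal_one]
  | succ k ih =>
    rw [pow_succ, ih, h.eq]
    have : U * diagonal (fun i => lam i ^ k) * Uᵀ * (U * diagonal lam * Uᵀ)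
        = U * (diagonal (fun i => lam i ^ k) * (Uᵀ * U) * diagonal lam) * Uᵀ := by
      simp only [Matrix.mul_assoc]
    rw [this, h.left, Matrix.mul_one, diagonal_mul_diagonal]
    simp [pow_succ]

theorem trace_pow (h : Eig A U lam) (k : ℕ) : trace (A ^ k) = ∑ i, lam i ^ k := by
  rw [h.pow, Matrix.trace_mul_comm, ← Matrix.mul_assoc, h.left, Matrix.one_mul, trace_diagonal]

theorem diag_eq (h : Eig A U lam) : Uᵀ * A * U = diagonal lam := by
  rw [h.eq]
  have : Uᵀ * (U * diagonal lam * Uᵀ) * U = (Uᵀ * U) * diagonal lam * (Uᵀ * U) := by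
    simp only [Matrix.mul_assoc]
  rw [this, h.left, Matrix.one_mul, Matrix.mul_one]

theorem trace_pow_mul (h : Eig A U lam) (k : ℕ) (S : Mat n) :
    trace (A ^ k * S) = ∑ i, lam i ^ k * (Uᵀ * S * U) i i := by
  rw [h.pow, Matrix.mul_assoc, Matrix.mul_assoc, Matrix.trace_mul_comm, Matrix.mul_assoc]
  simp [Matrix.trace, Matrix.diagonal_mul]

theorem trace_two (h : Eig A U lam) {S : Mat n} (hS : Sᵀ = S) (a b : ℕ) :
    trace (A ^ a * S * (A ^ b * S))
      = ∑ i, ∑ l, lam i ^ a * lam l ^ b * (Uᵀ * S * U) i l ^ 2 := by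
  set S' := Uᵀ * S * U with hS'
  have hsym : S'ᵀ = S' := by
    simp only [hS', Matrix.transpose_mul, Matrix.transpose_transpose, hS, Matrix.mul_assoc]
  have : trace (A ^ a * S * (A ^ b * S))
      = trace (diagonal (fun i => lam i ^ a) * S' * (diagonal (fun i => lam i ^ b) * S')) := by
    rw [h.pow, h.pow, hS']
    simp only [Matrix.mul_assoc]
    rw [Matrix.trace_mul_comm]
    simp only [Matrix.mul_assoc]
  rw [this]
  simp only [Matrix.trace, diag_apply, Matrix.mul_apply, diagonal_apply, ite_mul, zero_mul,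
    Finset.sum_ite_eq, Finset.mem_univ, if_true]
  refine Finset.sum_congr rfl fun i _ => Finset.sum_congr rfl fun l _ => ?_
  have : S' l i = S' i l := by
    conv_lhs => rw [← hsym]
    rfl
  rw [this]
  ring

theorem trace_two_nonneg (h : Eig A U lam) {S : Mat n} (hS : Sᵀ = S) (a b : ℕ) :
    0 ≤ trace (A ^ a * S * (A ^ b * S)) := by
  rw [h.trace_two hS]
  exact Finset.sum_nonneg fun i _ => Finset.sum_nonneg fun l _ =>
    mul_nonneg (mul_nonneg (pow_nonneg (h.nonneg i) a) (pow_nonneg (h.nonneg l) b)) (sq_nonneg _)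

theorem sandwich (h : Eig A U lam) {S : Mat n} (hS : Sᵀ = S) (a b c : ℕ) :
    trace (A ^ a * S * A ^ b * S * A ^ c) ≤ 2 * trace (A ^ (a + b + c) * S * (A ^ 0 * S)) := by
  have hsym : (Uᵀ * S * U)ᵀ = Uᵀ * S * U := by
    simp only [Matrix.transpose_mul, Matrix.transpose_transpose, hS, Matrix.mul_assoc]
  have e : trace (A ^ a * S * A ^ b * S * A ^ c) = trace (A ^ (a + c) * S * (A ^ b * S)) := by
    rw [Matrix.trace_mul_comm, ← Matrix.mul_assoc, ← Matrix.mul_assoc, ← Matrix.mul_assoc,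
      ← pow_add, add_comm c a, Matrix.mul_assoc _ (A ^ b) S]
  rw [e, h.trace_two hS, h.trace_two hS]
  set S' := Uᵀ * S * U
  have hswap : ∀ i l, S' l i = S' i l := fun i l => by
    conv_lhs => rw [← hsym]
    rfl
  set m := a + b + c
  calc ∑ i, ∑ l, lam i ^ (a + c) * lam l ^ b * S' i l ^ 2
      ≤ ∑ i, ∑ l, (lam i ^ m + lam l ^ m) * S' i l ^ 2 := by
        refine Finset.sum_le_sum fun i _ => Finset.sum_le_sum fun l _ =>
          mul_le_mul_of_nonneg_right ?_ (sq_nonneg _)
        have hi := h.nonneg i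
        have hl := h.nonneg l
        rcases le_total (lam i) (lam l) with hil | hil
        · calc lam i ^ (a + c) * lam l ^ b ≤ lam l ^ (a + c) * lam l ^ b := by gcongr
            _ = lam l ^ m := by rw [← pow_add, show a + c + b = m by ring]
            _ ≤ _ := le_add_of_nonneg_left (pow_nonneg hi m)
        · calc lam i ^ (a + c) * lam l ^ b ≤ lam i ^ (a + c) * lam i ^ b := by gcongr
            _ = lam i ^ m := by rw [← pow_add, show a + c + b = m by ring]
            _ ≤ _ := le_add_of_nonneg_right (pow_nonneg hl m)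
    _ = 2 * ∑ i, ∑ l, lam i ^ m * lam l ^ 0 * S' i l ^ 2 := by
        simp only [pow_zero, mul_one, add_mul, Finset.sum_add_distrib]
        rw [Finset.sum_comm (f := fun i l => lam l ^ m * S' i l ^ 2), two_mul]
        congr 1
        exact Finset.sum_congr rfl fun i _ => Finset.sum_congr rfl fun l _ => by rw [hswap]

theorem trace_pow_nonneg (h : Eig A U lam) (k : ℕ) : 0 ≤ trace (A ^ k) := by
  rw [h.trace_pow]
  exact Finset.sum_nonneg fun i _ => pow_nonneg (h.nonneg i) k

theorem trace_sq_le (h : Eig A U lam) {S : Mat n} (hS : Sᵀ = S) (m : ℕ) :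
    trace (A ^ (m + 1) * S) ^ 2 ≤ trace (A ^ (m + 2)) * trace (A ^ m * S * (A ^ 0 * S)) := by
  rw [h.trace_pow_mul, h.trace_pow, h.trace_two hS]
  set S' := Uᵀ * S * U
  refine le_trans (Finset.sum_sq_le_sum_mul_sum_of_sq_le_mul _
    (fun i _ => pow_nonneg (h.nonneg i) (m + 2))
    (fun i _ => mul_nonneg (pow_nonneg (h.nonneg i) m) (sq_nonneg (S' i i)))
    fun i _ => le_of_eq (by ring)) (mul_le_mul_of_nonneg_left (Finset.sum_le_sum fun i _ => ?_)
    (Finset.sum_nonneg fun i _ => pow_nonneg (h.nonneg i) _))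
  simp only [pow_zero, mul_one]
  exact Finset.single_le_sum (f := fun l => lam i ^ m * S' i l ^ 2)
    (fun l _ => mul_nonneg (pow_nonneg (h.nonneg i) m) (sq_nonneg _)) (Finset.mem_univ i)

theorem quad_le (h : Eig A U lam) {q : ℕ} (hq : q ≠ 0) (v : Fin n → ℝ) :
    v ⬝ᵥ A *ᵥ v ≤ trace (A ^ q) ^ ((q : ℝ)⁻¹) * (v ⬝ᵥ v) := by
  set w := Uᵀ *ᵥ v with hw
  have e1 : v ⬝ᵥ A *ᵥ v = ∑ i, lam i * w i ^ 2 := by
    rw [h.eq, ← Matrix.mulVec_mulVec, ← Matrix.mulVec_mulVec, ← hw, Matrix.dotProduct_mulVec,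
      show v ᵥ* U = w by rw [hw, Matrix.mulVec_transpose]]
    simp [dotProduct, Matrix.mulVec_diagonal]
    exact Finset.sum_congr rfl fun i _ => by ring
  have e2 : v ⬝ᵥ v = ∑ i, w i ^ 2 := by
    have : v = U *ᵥ w := by rw [hw, Matrix.mulVec_mulVec, h.right, Matrix.one_mulVec]
    conv_lhs => arg 2; rw [this]
    rw [Matrix.dotProduct_mulVec, show v ᵥ* U = w by rw [hw, Matrix.mulVec_transpose]]
    simp [dotProduct, sq]
  rw [e1, e2, Finset.mul_sum]
  refine Finset.sum_le_sum fun i _ => mul_le_mul_of_nonneg_right ?_ (sq_nonneg _)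
  calc lam i = (lam i ^ q) ^ ((q : ℝ)⁻¹) := (Real.pow_rpow_inv_natCast (h.nonneg i) hq).symm
    _ ≤ _ := by
      refine Real.rpow_le_rpow (pow_nonneg (h.nonneg i) _) ?_ (by positivity)
      rw [h.trace_pow]
      exact Finset.single_le_sum (f := fun j => lam j ^ q) (fun j _ => pow_nonneg (h.nonneg j) q)
        (Finset.mem_univ i)

end Eig

end Vale.Agent.P245
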