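import Vale.Agent.P245.Jet
import Vale.Agent.P245.MatPot
import Vale.Agent.P245.Borell

/-!
Second and third central moments and the quadratic Poincare functional.
-/

noncomputable section

open MeasureTheory Set Filter Topology Matrix
open scoped ENNReal

namespace Vale.Agent.P245

variable {n : ℕ} {ν : Measure (Space n)} {R : ℝ}

/-- The centred coordinate. -/
def cen (ν : Measure (Space n)) (x : Space n) (i : Fin n) : ℝ := x i - ∫ y, y i ∂ν

/-- The covariance matrix. -/
def covM (ν : Measure (Space n)) : Mat n := fun i l => ∫ x, cen ν x i * cen ν x l ∂ν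

/-- The third central moments. -/
def tens (ν : Measure (Space n)) (j : Fin n) : Mat n :=
  fun i l => ∫ x, cen ν x j * cen ν x i * cen ν x l ∂ν

/-- A quadratic form. -/
def qform (c : Mat n) (v : Fin n → ℝ) : ℝ := v ⬝ᵥ c *ᵥ v

/-- The squared norm of the gradient of a quadratic form, up to four. -/
def qnorm (c : Mat n) (v : Fin n → ℝ) : ℝ := (c *ᵥ v) ⬝ᵥ (c *ᵥ v)

/-- The quadratic Poincare bound. -/
def QBound (ν : Measure (Space n)) (Q : ℝ) : Prop :=
  ∀ c : Mat n, cᵀ = c →
    var ν (fun x => qform c (cen ν x)) ≤ 4 * Q * ∫ x, qnorm c (cen ν x) ∂ν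

/-- The weight appearing in the drift of the potential. -/
def tensX (ν : Measure (Space n)) (m : ℕ) : ℝ :=
  ∑ j, trace (covM ν ^ m * tens ν j * (covM ν ^ 0 * tens ν j))

theorem qnorm_nonneg (c : Mat n) (v : Fin n → ℝ) : 0 ≤ qnorm c v := by
  unfold qnorm dotProduct
  exact Finset.sum_nonneg fun i _ => mul_self_nonneg _

@[fun_prop]
theorem continuous_cen (ν : Measure (Space n)) : Continuous (cen ν) := by
  unfold cen; fun_prop

@[fun_prop]
theorem continuous_cen_apply (ν : Measure (Space n)) (i : Fin n) :
    Continuous fun x => cen ν x i := by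
  unfold cen; fun_prop

@[fun_prop]
theorem continuous_qform (c : Mat n) : Continuous (qform c) := by
  unfold qform dotProduct Matrix.mulVec dotProduct; fun_prop

@[fun_prop]
theorem continuous_qnorm (c : Mat n) : Continuous (qnorm c) := by
  unfold qnorm dotProduct Matrix.mulVec dotProduct; fun_prop

theorem Car.int_cont (hν : Car ν R) {f : Space n → ℝ} (hf : Continuous f) : Integrable f ν :=
  hν.integrable (adm_continuous hf R)

theorem covM_transpose : (covM ν)ᵀ = covM ν := by
  ext i l
  exact integral_congr_ae (ae_of_all _ fun x => mul_comm _ _)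

theorem tens_transpose (j : Fin n) : (tens ν j)ᵀ = tens ν j := by
  ext i l
  exact integral_congr_ae (ae_of_all _ fun x => by ring)

theorem posSemidef_covM (hν : Car ν R) : (covM ν).PosSemidef := by
  refine Matrix.PosSemidef.of_dotProduct_mulVec_nonneg ?_ fun v => ?_
  · rw [Matrix.IsHermitian, Matrix.conjTranspose_eq_transpose_of_trivial, covM_transpose]
  · have e : star v ⬝ᵥ covM ν *ᵥ v = ∫ x, (∑ i, v i * cen ν x i) ^ 2 ∂ν := by
      simp only [dotProduct, Matrix.mulVec, Pi.star_apply, star_trivial, covM, Finset.mul_sum,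
        sq, Finset.sum_mul]
      rw [integral_finsetSum _ fun i _ => hν.int_cont (by fun_prop)]
      refine Finset.sum_congr rfl fun i _ => ?_
      rw [integral_finsetSum _ fun l _ => hν.int_cont (by fun_prop)]
      refine Finset.sum_congr rfl fun l _ => ?_
      rw [← mul_assoc, mul_comm _ (v l), ← mul_assoc, ← integral_const_mul]
      exact integral_congr_ae (ae_of_all _ fun x => by ring)
    rw [e]
    exact integral_nonneg fun x => sq_nonneg _

theorem integral_cen (hν : Car ν R) (i : Fin n) : ∫ x, cen ν x i ∂ν = 0 := by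
  have := hν.prob
  simp only [cen]
  rw [integral_sub (hν.int_cont (by fun_prop)) (integrable_const _)]
  simp

theorem cs_sq {f g : Space n → ℝ} (hν : Car ν R) (hf : Continuous f) (hg : Continuous g) :
    (∫ x, f x * g x ∂ν) ^ 2 ≤ (∫ x, f x ^ 2 ∂ν) * ∫ x, g x ^ 2 ∂ν := by
  have key : ∀ a : ℝ, 0 ≤ (∫ x, g x ^ 2 ∂ν) * (a * a) + (2 * ∫ x, f x * g x ∂ν) * a
      + ∫ x, f x ^ 2 ∂ν := by
    intro a
    have e : (∫ x, g x ^ 2 ∂ν) * (a * a) + (2 * ∫ x, f x * g x ∂ν) * a + ∫ x, f x ^ 2 ∂ν
        = ∫ x, (f x + a * g x) ^ 2 ∂ν := by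
      have : (fun x => (f x + a * g x) ^ 2)
          = fun x => f x ^ 2 + (2 * a * (f x * g x) + a * a * g x ^ 2) := by funext x; ring
      rw [this, integral_add (hν.int_cont (by fun_prop)) (hν.int_cont (by fun_prop)),
        integral_add (hν.int_cont (by fun_prop)) (hν.int_cont (by fun_prop)), integral_const_mul,
        integral_const_mul]
      ring
    rw [e]; exact integral_nonneg fun x => sq_nonneg _
  have := discrim_le_zero key
  rw [discrim] at this
  nlinarith

/-- The rotated centred coordinates. -/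
def rot (ν : Measure (Space n)) (U : Mat n) (x : Space n) : Fin n → ℝ := Uᵀ *ᵥ cen ν x

theorem rot_conj {S U : Mat n} {j i l : Fin n} {f : Space n → ℝ} (hν : Car ν R) (hf : Continuous f)
    (hS : ∀ a b, S a b = ∫ x, f x * cen ν x a * cen ν x b ∂ν) (_ : j = j) :
    (Uᵀ * S * U) i l = ∫ x, f x * rot ν U x i * rot ν U x l ∂ν := by
  simp only [Matrix.mul_apply, Matrix.transpose_apply, hS, rot, Matrix.mulVec, dotProduct,
    Finset.sum_mul, Finset.mul_sum]
  rw [integral_finsetSum _ fun b _ => hν.int_cont (by fun_prop)]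
  refine Finset.sum_congr rfl fun b _ => ?_
  rw [integral_finsetSum _ fun a _ => hν.int_cont (by fun_prop)]
  refine Finset.sum_congr rfl fun a _ => ?_
  rw [mul_comm (U a i), mul_assoc, ← integral_mul_const]
  exact integral_congr_ae (ae_of_all _ fun x => by ring)

@[fun_prop]
theorem continuous_rot (ν : Measure (Space n)) (U : Mat n) (i : Fin n) :
    Continuous fun x => rot ν U x i := by
  unfold rot Matrix.mulVec dotProduct; fun_prop

/-- The key bound of the drift weight by the potential. -/
theorem tensX_le (hν : Car ν R) {Q : ℝ} (hQ : QBound ν Q) (hQ0 : 0 ≤ Q) (k : ℕ) :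
    tensX ν (k + 1) ≤ 8 * Q * trace (covM ν ^ (k + 3)) := by
  obtain ⟨U, lam, hE⟩ := exists_eig (posSemidef_covM hν)
  set z := rot ν U with hz
  set T : Fin n → Fin n → Fin n → ℝ := fun a b c => ∫ x, z x a * z x b * z x c ∂ν with hT
  have hcov : ∀ i l, ∫ x, z x i * z x l ∂ν = if i = l then lam i else 0 := by
    intro i l
    have h1 := congrFun (congrFun hE.diag_eq i) l
    rw [rot_conj hν (f := fun _ => (1 : ℝ)) continuous_const (fun a b => by simp [covM]) (rfl : i = i),
      Matrix.diagonal_apply] at h1
    simpa [hz] using h1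
  have hpar : ∀ (v : Fin n → ℝ), ∑ j, v j ^ 2 = ∑ m, (Uᵀ *ᵥ v) m ^ 2 := by
    intro v
    have : (Uᵀ *ᵥ v) ⬝ᵥ (Uᵀ *ᵥ v) = v ⬝ᵥ v := by
      rw [Matrix.dotProduct_mulVec, Matrix.vecMul_transpose, Matrix.mulVec_mulVec, hE.right,
        Matrix.one_mulVec]
    simpa [dotProduct, sq] using this.symm
  have hX : tensX ν (k + 1) = ∑ i, lam i ^ (k + 1) * ∑ m, ∑ l, T i m l ^ 2 := by
    simp only [tensX, hE.trace_two (tens_transpose _)]
    simp only [pow_zero, mul_one]
    rw [Finset.sum_comm]
    refine Finset.sum_congr rfl fun i _ => ?_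
    simp only [← Finset.mul_sum]
    congr 1
    rw [Finset.sum_comm]
    conv_rhs => rw [Finset.sum_comm]
    refine Finset.sum_congr rfl fun l _ => ?_
    have hv : ∀ j, (Uᵀ * tens ν j * U) i l = ∫ x, cen ν x j * z x i * z x l ∂ν := fun j =>
      rot_conj hν (by fun_prop) (fun a b => rfl) (rfl : j = j)
    simp only [hv]
    rw [hpar fun j => ∫ x, cen ν x j * z x i * z x l ∂ν]
    refine Finset.sum_congr rfl fun m _ => ?_
    congr 1
    simp only [hT, Matrix.mulVec, dotProduct, Matrix.transpose_apply, ← integral_const_mul]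
    rw [← integral_finsetSum _ fun j _ => hν.int_cont (by simp only [hz]; fun_prop)]
    refine integral_congr_ae (ae_of_all _ fun x => ?_)
    have hzm : z x m = ∑ j, U j m * cen ν x j := by
      simp only [hz, rot, Matrix.mulVec, dotProduct, Matrix.transpose_apply]
    simp only [← mul_assoc, ← Finset.sum_mul, ← hzm]
    ring
  set S : Fin n → ℝ := fun i => ∑ m, ∑ l, T i m l ^ 2 with hS
  set W : Fin n → ℝ := fun i => ∑ m, ∑ l, T i m l ^ 2 * lam l with hW
  have hS0 : ∀ i, 0 ≤ S i := fun i => Finset.sum_nonneg fun m _ => Finset.sum_nonneg fun l _ =>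
    sq_nonneg _
  have hSW : ∀ i, S i ^ 2 ≤ lam i * (4 * Q * W i) := by
    intro i
    set Mi : Mat n := fun m l => T i m l with hMi
    have hsym : ∀ a b c, T a b c = T a c b := fun a b c =>
      integral_congr_ae (ae_of_all _ fun x => by ring)
    set c : Mat n := U * Mi * Uᵀ with hc
    have hct : cᵀ = c := by
      have : Miᵀ = Mi := by ext a b; exact hsym i b a
      simp only [hc, Matrix.transpose_mul, Matrix.transpose_transpose, this, Matrix.mul_assoc]
    have hP : ∀ x, qform c (cen ν x) = ∑ m, ∑ l, T i m l * z x m * z x l := by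
      intro x
      rw [qform, hc, ← Matrix.mulVec_mulVec, ← Matrix.mulVec_mulVec, Matrix.dotProduct_mulVec,
        show cen ν x ᵥ* U = z x by rw [hz, rot, Matrix.mulVec_transpose]]
      change z x ⬝ᵥ Mi *ᵥ z x = _
      simp only [dotProduct, Matrix.mulVec, Finset.mul_sum, hMi]
      exact Finset.sum_congr rfl fun m _ => Finset.sum_congr rfl fun l _ => by ring
    have hN : ∀ x, qnorm c (cen ν x) = ∑ m, (∑ l, T i m l * z x l) ^ 2 := by
      intro x
      rw [qnorm, hc, ← Matrix.mulVec_mulVec, ← Matrix.mulVec_mulVec, Matrix.dotProduct_mulVec,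
        ← Matrix.mulVec_transpose, Matrix.mulVec_mulVec, hE.left, Matrix.one_mulVec]
      simp only [dotProduct, Matrix.mulVec, hMi, sq]
      rfl
    set P := fun x => qform c (cen ν x) with hPdef
    have hPc : Continuous P := by simp only [hPdef]; fun_prop
    have hprob := hν.prob
    have hz0 : ∫ x, z x i ∂ν = 0 := by
      simp only [hz, rot, Matrix.mulVec, dotProduct]
      rw [integral_finsetSum _ fun j _ => hν.int_cont (by fun_prop)]
      simp [integral_const_mul, integral_cen hν]
    have hSi : S i = ∫ x, z x i * (P x - ∫ y, P y ∂ν) ∂ν := by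
      have hzc : Continuous fun x => z x i := by simp only [hz]; fun_prop
      have : (fun x => z x i * (P x - ∫ y, P y ∂ν))
          = fun x => z x i * P x - (∫ y, P y ∂ν) * z x i := by funext x; ring
      rw [this, integral_sub (f := fun x => z x i * P x) (hν.int_cont (hzc.mul hPc))
        (hν.int_cont (hzc.const_mul _)),
        integral_const_mul, hz0, mul_zero, sub_zero]
      simp only [hS, hPdef, hP, Finset.mul_sum]
      rw [integral_finsetSum _ fun m _ => hν.int_cont (by simp only [hz]; fun_prop)]
      refine Finset.sum_congr rfl fun m _ => ?_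
      rw [integral_finsetSum _ fun l _ => hν.int_cont (by simp only [hz]; fun_prop)]
      refine Finset.sum_congr rfl fun l _ => ?_
      rw [sq]
      conv_lhs => arg 2; rw [hT]
      rw [← integral_const_mul]
      exact integral_congr_ae (ae_of_all _ fun x => by ring)
    rw [hSi]
    refine (cs_sq hν (by simp only [hz]; fun_prop) (hPc.sub continuous_const)).trans ?_
    have h1 : ∫ x, z x i ^ 2 ∂ν = lam i := by simpa [sq] using hcov i i
    rw [h1]
    refine mul_le_mul_of_nonneg_left ((hQ c hct).trans_eq ?_) (hE.nonneg i)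
    congr 1
    simp only [hN, hW, sq, Finset.sum_mul, Finset.mul_sum]
    rw [integral_finsetSum _ fun m _ => hν.int_cont (by simp only [hz]; fun_prop)]
    refine Finset.sum_congr rfl fun m _ => ?_
    rw [integral_finsetSum _ fun l _ => hν.int_cont (by simp only [hz]; fun_prop)]
    refine Finset.sum_congr rfl fun l _ => ?_
    rw [integral_finsetSum _ fun l' _ => hν.int_cont (by simp only [hz]; fun_prop)]
    calc ∑ l', ∫ x, T i m l' * z x l' * (T i m l * z x l) ∂ν
        = ∑ l', T i m l' * T i m l * if l' = l then lam l' else 0 := by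
          refine Finset.sum_congr rfl fun l' _ => ?_
          rw [← hcov, ← integral_const_mul]
          exact integral_congr_ae (ae_of_all _ fun x => by ring)
      _ = _ := by simp
  have hstep : ∀ i, lam i ^ (k + 1) * S i ≤ 4 * Q * lam i ^ (k + 3) + lam i ^ k * W i / 4 := by
    intro i
    have hl := hE.nonneg i
    have hW0 : 0 ≤ W i := Finset.sum_nonneg fun m _ => Finset.sum_nonneg fun l _ =>
      mul_nonneg (sq_nonneg _) (hE.nonneg l)
    have hb : 0 ≤ 4 * Q * lam i ^ (k + 3) + lam i ^ k * W i / 4 := by positivity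
    refine le_of_sq_le_sq ?_ hb
    calc (lam i ^ (k + 1) * S i) ^ 2 ≤ lam i ^ (2 * k + 2) * (lam i * (4 * Q * W i)) := by
          rw [mul_pow, ← pow_mul, show (k + 1) * 2 = 2 * k + 2 by ring]
          exact mul_le_mul_of_nonneg_left (hSW i) (by positivity)
      _ = 4 * (4 * Q * lam i ^ (k + 3)) * (lam i ^ k * W i / 4) := by ring
      _ ≤ _ := by nlinarith [sq_nonneg (4 * Q * lam i ^ (k + 3) - lam i ^ k * W i / 4)]
  have hWX : ∑ i, lam i ^ k * W i ≤ 2 * tensX ν (k + 1) := by
    rw [hX]
    simp only [hW, Finset.mul_sum]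
    have hperm : ∀ a b c, T a b c = T c b a := fun a b c =>
      integral_congr_ae (ae_of_all _ fun x => by ring)
    calc ∑ i, ∑ m, ∑ l, lam i ^ k * (T i m l ^ 2 * lam l)
        ≤ ∑ i, ∑ m, ∑ l, (lam i ^ (k + 1) + lam l ^ (k + 1)) * T i m l ^ 2 := by
          refine Finset.sum_le_sum fun i _ => Finset.sum_le_sum fun m _ =>
            Finset.sum_le_sum fun l _ => ?_
          rw [mul_comm (T i m l ^ 2), ← mul_assoc]
          refine mul_le_mul_of_nonneg_right ?_ (sq_nonneg _)
          have hi := hE.nonneg i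
          have hl := hE.nonneg l
          rcases le_total (lam i) (lam l) with hil | hil
          · calc lam i ^ k * lam l ≤ lam l ^ k * lam l := by gcongr
              _ ≤ _ := by rw [pow_succ (lam l)]; exact le_add_of_nonneg_left (by positivity)
          · calc lam i ^ k * lam l ≤ lam i ^ k * lam i := by gcongr
              _ ≤ _ := by rw [pow_succ (lam i)]; exact le_add_of_nonneg_right (by positivity)
      _ = _ := by
          simp only [add_mul, Finset.sum_add_distrib, two_mul]
          congr 1
          refine Eq.trans Finset.sum_comm ?_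
          refine Eq.trans (Finset.sum_congr rfl fun m _ => Finset.sum_comm) ?_
          refine Eq.trans Finset.sum_comm ?_
          exact Finset.sum_congr rfl fun i _ => Finset.sum_congr rfl fun m _ =>
            Finset.sum_congr rfl fun l _ => by rw [hperm]
  rw [hE.trace_pow]
  have := Finset.sum_le_sum fun i (_ : i ∈ Finset.univ) => hstep i
  rw [Finset.sum_add_distrib, ← Finset.mul_sum, ← Finset.sum_div, ← hX] at this
  linarith

end Vale.Agent.P245
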