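import Vale.Agent.P245.Channel
import Vale.Agent.P245.Tensor

/-!
The drift of the trace potential along the channel.
-/

noncomputable section

open MeasureTheory Set Filter Topology Matrix

namespace Vale.Agent.P245

variable {n : ℕ} {μ : Measure (Space n)} {R : ℝ}

/-- The jet of a covariance entry of the tilt. -/
def covJet (μ : Measure (Space n)) (i l : Fin n) : Jet n :=
  (Jet.mom μ fun x => x i * x l).add ((Jet.const n (-1)).mul
    ((Jet.mom μ fun x => x i).mul (Jet.mom μ fun x => x l)))

theorem covJet_valid (hμ : Car μ R) (i l : Fin n) : (covJet μ i l).Valid :=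
  (Jet.mom_valid hμ (adm_continuous (by fun_prop) R)).add ((Jet.const_valid _).mul
    ((Jet.mom_valid hμ (adm_continuous (by fun_prop) R)).mul
      (Jet.mom_valid hμ (adm_continuous (by fun_prop) R))))

theorem cov_expand (hμ : Car μ R) (p : Par n) (i l : Fin n) :
    covM (tlt μ p) i l = M μ (fun x => x i * x l) p - bar μ i p * bar μ l p := by
  have hν := hμ.tlt p
  have hprob := hν.prob
  simp only [covM, cen, bar, M_eq]
  set a := ∫ y, y i ∂tlt μ p with ha
  set b := ∫ y, y l ∂tlt μ p with hb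
  have e : (fun x : Space n => (x i - a) * (x l - b))
      = fun x => x i * x l + ((-b) * x i + ((-a) * x l + a * b)) := by funext x; ring
  rw [e, integral_add (hν.int_cont (by fun_prop)) (hν.int_cont (by fun_prop)),
    integral_add (hν.int_cont (by fun_prop)) (hν.int_cont (by fun_prop)),
    integral_add (hν.int_cont (by fun_prop)) (integrable_const _), integral_const_mul,
    integral_const_mul, ← ha, ← hb, integral_const]
  simp
  ring

theorem covJet_v (hμ : Car μ R) (p : Par n) (i l : Fin n) :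
    (covJet μ i l).v p = covM (tlt μ p) i l := by
  rw [cov_expand hμ]
  simp only [covJet, Jet.add, Jet.mul, Jet.const, Jet.mom, bar]
  ring

theorem covJet_d (hμ : Car μ R) (p : Par n) (j i l : Fin n) :
    (covJet μ i l).d j p = tens (tlt μ p) j i l := by
  have hν := hμ.tlt p
  have hprob := hν.prob
  simp only [covJet, Jet.add, Jet.mul, Jet.const, Jet.mom, bar, tens, cen, M_eq]
  set a := ∫ y, y j ∂tlt μ p with ha
  set b := ∫ y, y i ∂tlt μ p with hb
  set c := ∫ y, y l ∂tlt μ p with hc
  have e : (fun x : Space n => (x j - a) * (x i - b) * (x l - c))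
      = fun x => x i * x l * x j + ((-c) * (x i * x j) + ((-b) * (x l * x j) + ((-a) * (x i * x l)
          + (b * c * x j + (a * c * x i + (a * b * x l + -(a * b * c))))))) := by funext x; ring
  rw [e]
  iterate 7 rw [integral_add (hν.int_cont (by fun_prop)) (hν.int_cont (by fun_prop))]
  simp only [integral_const_mul, integral_const, probReal_univ, one_smul, ← ha, ← hb, ← hc]
  ring

theorem covJet_Lop (hμ : Car μ R) (p : Par n) (i l : Fin n) :
    Lop μ (covJet μ i l) p = -(covM (tlt μ p) * covM (tlt μ p)) i l := by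
  have hx : ∀ k : Fin n, Adm R fun x : Space n => x k := fun k => adm_continuous (by fun_prop) R
  simp only [covJet, Lop_add, Lop_mul, Lop_const, Lop_mom hμ (adm_continuous (R := R)
    (φ := fun x : Space n => x i * x l) (by fun_prop)), Lop_mom hμ (hx i), Lop_mom hμ (hx l)]
  simp only [Jet.const, Jet.mul, Jet.mom, Matrix.mul_apply, zero_mul, mul_zero, zero_add,
    Finset.sum_const_zero, add_zero]
  rw [neg_one_mul, neg_inj]
  refine Finset.sum_congr rfl fun j _ => ?_
  rw [cov_expand hμ, cov_expand hμ]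
  simp only [bar, mul_comm (_ : ℝ) _]

/-- The jets of the powers of the covariance. -/
def powJet (μ : Measure (Space n)) : ℕ → Fin n → Fin n → Jet n
  | 0 => fun i l => Jet.const n (if i = l then 1 else 0)
  | k + 1 => fun i l => Jet.sum fun m => (powJet μ k i m).mul (covJet μ m l)

theorem powJet_valid (hμ : Car μ R) : ∀ k i l, (powJet (n := n) μ k i l).Valid := by
  intro k
  induction k with
  | zero => exact fun i l => Jet.const_valid _
  | succ k ih => exact fun i l => Jet.Valid.sum fun m => (ih i m).mul (covJet_valid hμ m l)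

theorem powJet_v (hμ : Car μ R) (p : Par n) : ∀ k i l,
    (powJet μ k i l).v p = (covM (tlt μ p) ^ k) i l := by
  intro k
  induction k with
  | zero => intro i l; simp [powJet, Jet.const, Matrix.one_apply]
  | succ k ih =>
    intro i l
    simp only [powJet, Jet.sum, Jet.mul, pow_succ, Matrix.mul_apply, ih, covJet_v hμ]

/-- The derivative of a power. -/
def dMat (μ : Measure (Space n)) (k : ℕ) (j : Fin n) (p : Par n) : Mat n :=
  fun i l => (powJet μ k i l).d j p

/-- The drift of a power. -/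
def lMat (μ : Measure (Space n)) (k : ℕ) (p : Par n) : Mat n :=
  fun i l => Lop μ (powJet μ k i l) p

theorem dMat_succ (hμ : Car μ R) (k : ℕ) (j : Fin n) (p : Par n) :
    dMat μ (k + 1) j p
      = dMat μ k j p * covM (tlt μ p) + covM (tlt μ p) ^ k * tens (tlt μ p) j := by
  ext i l
  simp only [dMat, powJet, Jet.sum, Jet.mul, Matrix.add_apply, Matrix.mul_apply,
    powJet_v hμ, covJet_v hμ, covJet_d hμ, Finset.sum_add_distrib]

theorem lMat_succ (hμ : Car μ R) (k : ℕ) (p : Par n) :
    lMat μ (k + 1) p = lMat μ k p * covM (tlt μ p)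
      - covM (tlt μ p) ^ k * (covM (tlt μ p) * covM (tlt μ p))
      + ∑ j, dMat μ k j p * tens (tlt μ p) j := by
  ext i l
  simp only [lMat, dMat, powJet, Lop_sum, Lop_mul, Matrix.add_apply, Matrix.sub_apply,
    Matrix.mul_apply, Matrix.sum_apply, powJet_v hμ, covJet_v hμ, covJet_d hμ, covJet_Lop hμ,
    mul_neg, Finset.sum_add_distrib, Finset.sum_neg_distrib]
  rw [Finset.sum_comm]
  simp only [sub_eq_add_neg]

theorem trace_dMat (hμ : Car μ R) (j : Fin n) (p : Par n) : ∀ k m,
    trace (dMat μ k j p * covM (tlt μ p) ^ m)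
      = k * trace (covM (tlt μ p) ^ (k + m - 1) * tens (tlt μ p) j) := by
  intro k
  induction k with
  | zero =>
    intro m
    have : dMat μ 0 j p = 0 := by ext i l; simp [dMat, powJet, Jet.const]
    simp [this]
  | succ k ih =>
    intro m
    rw [dMat_succ hμ, Matrix.add_mul, trace_add, Matrix.mul_assoc, ← pow_succ', ih (m + 1),
      Matrix.trace_mul_comm (covM _ ^ k * _), ← Matrix.mul_assoc, ← pow_add]
    rw [show k + (m + 1) - 1 = k + m by omega, show m + k = k + m by omega,
      show k + 1 + m - 1 = k + m by omega]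
    push_cast
    ring

theorem trace_dMat_tens_le (hμ : Car μ R) (j : Fin n) (p : Par n) {U : Mat n} {lam : Fin n → ℝ}
    (hE : Eig (covM (tlt μ p)) U lam) (N : ℕ) : ∀ k b m, k + b + m = N + 1 →
    trace (dMat μ k j p * covM (tlt μ p) ^ b * tens (tlt μ p) j * covM (tlt μ p) ^ m)
      ≤ k * (2 * trace (covM (tlt μ p) ^ N * tens (tlt μ p) j
          * (covM (tlt μ p) ^ 0 * tens (tlt μ p) j))) := by
  intro k
  induction k with
  | zero =>
    intro b m _
    have : dMat μ 0 j p = 0 := by ext i l; simp [dMat, powJet, Jet.const]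
    simp [this]
  | succ k ih =>
    intro b m hN
    rw [dMat_succ hμ, Matrix.add_mul, Matrix.add_mul, Matrix.add_mul, trace_add,
      Matrix.mul_assoc (dMat μ k j p), ← pow_succ']
    refine (add_le_add (ih (b + 1) m (by omega)) (hE.sandwich (tens_transpose j) k b m)).trans_eq ?_
    rw [show k + b + m = N by omega]
    push_cast
    ring

theorem trace_lMat_le (hμ : Car μ R) (p : Par n) {U : Mat n} {lam : Fin n → ℝ}
    (hE : Eig (covM (tlt μ p)) U lam) (N : ℕ) : ∀ k m, k + m = N + 2 →
    trace (lMat μ k p * covM (tlt μ p) ^ m) ≤ k * (2 * (N + 2) * tensX (tlt μ p) N) := by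
  intro k
  induction k with
  | zero =>
    intro m _
    have : lMat μ 0 p = 0 := by ext i l; simp [lMat, powJet, Lop_const]
    simp [this]
  | succ k ih =>
    intro m hN
    rw [lMat_succ hμ, Matrix.add_mul, Matrix.sub_mul, trace_add, trace_sub, Matrix.sum_mul,
      trace_sum, Matrix.mul_assoc (lMat μ k p), ← pow_succ',
      show covM (tlt μ p) ^ k * (covM (tlt μ p) * covM (tlt μ p)) * covM (tlt μ p) ^ m
        = covM (tlt μ p) ^ (k + 2 + m) by rw [← pow_two, ← pow_add, ← pow_add]]
    have h1 := ih (m + 1) (by omega)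
    have h2 := hE.trace_pow_nonneg (k + 2 + m)
    have hX : 0 ≤ tensX (tlt μ p) N :=
      Finset.sum_nonneg fun j _ => hE.trace_two_nonneg (tens_transpose j) N 0
    have h3 : ∑ j, trace (dMat μ k j p * tens (tlt μ p) j * covM (tlt μ p) ^ m)
        ≤ 2 * (N + 2) * tensX (tlt μ p) N := by
      have hk : (k : ℝ) ≤ (N : ℝ) + 2 := by exact_mod_cast (show k ≤ N + 2 by omega)
      calc ∑ j, trace (dMat μ k j p * tens (tlt μ p) j * covM (tlt μ p) ^ m)
          ≤ ∑ j, (k : ℝ) * (2 * trace (covM (tlt μ p) ^ N * tens (tlt μ p) j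
              * (covM (tlt μ p) ^ 0 * tens (tlt μ p) j))) := by
            refine Finset.sum_le_sum fun j _ => ?_
            have := trace_dMat_tens_le hμ j p hE N k 0 m (by omega)
            simpa using this
        _ = (k : ℝ) * 2 * tensX (tlt μ p) N := by
            simp only [tensX, Finset.mul_sum, mul_assoc]
        _ ≤ _ := by nlinarith
    push_cast
    linarith

/-- The trace potential. -/
def pot (μ : Measure (Space n)) (q : ℕ) (p : Par n) : ℝ := trace (covM (tlt μ p) ^ q)

/-- The jet of the trace potential. -/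
def potJet (μ : Measure (Space n)) (q : ℕ) : Jet n := Jet.sum fun i => powJet μ q i i

theorem potJet_valid (hμ : Car μ R) (q : ℕ) : (potJet (n := n) μ q).Valid :=
  Jet.Valid.sum fun i => powJet_valid hμ q i i

theorem potJet_v (hμ : Car μ R) (q : ℕ) (p : Par n) : (potJet μ q).v p = pot μ q p := by
  simp [potJet, Jet.sum, pot, Matrix.trace, powJet_v hμ]

theorem pot_nonneg (hμ : Car μ R) (q : ℕ) (p : Par n) : 0 ≤ pot μ q p :=
  let ⟨_, _, hE⟩ := exists_eig (posSemidef_covM (hμ.tlt p)); hE.trace_pow_nonneg q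

/-- The smoothed indicator of a large potential. -/
def ratio (μ : Measure (Space n)) (q : ℕ) (S : ℝ) (p : Par n) : ℝ :=
  pot μ q p / (S + pot μ q p)

/-- The jet of a power of the ratio, exponent `P + 2`. -/
def ratioJet (μ : Measure (Space n)) (q : ℕ) (S : ℝ) (P : ℕ) : Jet n :=
  (potJet μ q).comp (fun x => (x / (S + x)) ^ (P + 2))
    (fun x => (P + 2) * S * (x ^ (P + 1) / (S + x) ^ (P + 3)))
    (fun x => (P + 2) * S * ((P + 1) * x ^ P / (S + x) ^ (P + 3)
      - (P + 3) * x ^ (P + 1) / (S + x) ^ (P + 4)))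

theorem ratioJet_v (hμ : Car μ R) (q : ℕ) (S : ℝ) (P : ℕ) (p : Par n) :
    (ratioJet μ q S P).v p = ratio μ q S p ^ (P + 2) := by
  simp [ratioJet, Jet.comp, potJet_v hμ, ratio]

theorem ratioJet_valid (hμ : Car μ R) (q : ℕ) {S : ℝ} (hS : 0 < S) (P : ℕ) :
    (ratioJet (n := n) μ q S P).Valid := by
  refine (potJet_valid hμ q).comp (a := 0) (fun p => by rw [potJet_v hμ]; exact pot_nonneg hμ q p)
    (fun x hx => ?_) (fun x hx => ?_) ?_
  · have hne : S + x ≠ 0 := (add_pos_of_pos_of_nonneg hS hx).ne'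
    refine (((hasDerivAt_id x).div ((hasDerivAt_id x).const_add S) hne).pow (P + 2)).congr_deriv ?_
    simp only [id_eq, Pi.div_apply]
    rw [show P + 2 - 1 = P + 1 from rfl, div_pow]
    field_simp
    push_cast
    ring
  · have hne : S + x ≠ 0 := (add_pos_of_pos_of_nonneg hS hx).ne'
    refine ((((hasDerivAt_id x).pow (P + 1)).div (((hasDerivAt_id x).const_add S).pow (P + 3))
      (pow_ne_zero _ hne)).const_mul (((P : ℝ) + 2) * S)).congr_deriv ?_
    simp only [id_eq, Pi.pow_apply]
    rw [show P + 1 - 1 = P from rfl, show P + 3 - 1 = P + 2 from rfl]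
    field_simp
    push_cast
    ring
  · have hne : ∀ m : ℕ, ∀ x ∈ Ici (0 : ℝ), (S + x) ^ m ≠ 0 := fun m x hx =>
      pow_ne_zero _ (add_pos_of_pos_of_nonneg hS hx).ne'
    exact continuousOn_const.mul (((Continuous.continuousOn (by fun_prop)).div
      (Continuous.continuousOn (by fun_prop)) (hne _)).sub ((Continuous.continuousOn (by fun_prop)).div
      (Continuous.continuousOn (by fun_prop)) (hne _)))

theorem ratio_mem (hμ : Car μ R) (q : ℕ) {S : ℝ} (hS : 0 < S) (p : Par n) :
    0 ≤ ratio μ q S p ∧ ratio μ q S p ≤ 1 := by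
  have hp := pot_nonneg hμ q p
  exact ⟨div_nonneg hp (by linarith), (div_le_one (by linarith)).2 (by linarith)⟩

/-- The drift bound. -/
theorem Lop_ratio_le (hμ : Car μ R) {q : ℕ} (hq : 3 ≤ q) {S : ℝ} (hS : 0 < S) (P : ℕ) (p : Par n)
    {Q : ℝ} (hQ0 : 0 ≤ Q) (hQ : QBound (tlt μ p) Q) :
    Lop μ (ratioJet μ q S P) p
      ≤ 16 * ((P : ℝ) + 2) ^ 2 * (q : ℝ) ^ 2 * (Q * S / (S + pot μ q p))
        * ratio μ q S p ^ (P + 2) := by
  obtain ⟨k, rfl⟩ : ∃ k, q = k + 3 := ⟨q - 3, by omega⟩
  obtain ⟨U, lam, hE⟩ := exists_eig (posSemidef_covM (hμ.tlt p))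
  set A := covM (tlt μ p)
  set X := tensX (tlt μ p) (k + 1)
  set x := pot μ (k + 3) p with hx
  set a : ℝ := ((k + 3 : ℕ) : ℝ) with ha
  have hx0 : 0 ≤ x := pot_nonneg hμ _ p
  have hX0 : 0 ≤ X := Finset.sum_nonneg fun j _ => hE.trace_two_nonneg (tens_transpose j) _ 0
  have hX : X ≤ 8 * Q * x := tensX_le (hμ.tlt p) hQ hQ0 k
  have hL : Lop μ (potJet μ (k + 3)) p ≤ 2 * a ^ 2 * X := by
    have h := trace_lMat_le hμ p hE (k + 1) (k + 3) 0 (by omega)
    rw [pow_zero, Matrix.mul_one] at h
    rw [potJet, Lop_sum]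
    refine h.trans (le_of_eq ?_)
    simp only [ha]
    push_cast
    ring
  have hG : grad2 (potJet μ (k + 3)) p ≤ a ^ 2 * (x * X) := by
    have e : ∀ j, (potJet μ (k + 3)).d j p = a * trace (A ^ (k + 2) * tens (tlt μ p) j) := by
      intro j
      have h := trace_dMat hμ j p (k + 3) 0
      rw [pow_zero, Matrix.mul_one] at h
      exact h
    simp only [grad2, e, mul_pow, ← Finset.mul_sum]
    refine mul_le_mul_of_nonneg_left ?_ (sq_nonneg a)
    simp only [hx, X, pot, tensX, Finset.mul_sum]
    exact Finset.sum_le_sum fun j _ => hE.trace_sq_le (tens_transpose j) (k + 1)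
  rw [ratioJet, Lop_comp, potJet_v hμ, ← hx]
  simp only [ratio, ← hx, div_pow]
  set B := S + x with hB
  have hB0 : 0 < B := by linarith
  set c : ℝ := (P : ℝ) + 2 with hc
  set K := x ^ P / B ^ (P + 3) with hK
  have hK0 : 0 ≤ K := by positivity
  have hP : (0 : ℝ) ≤ P := P.cast_nonneg
  have hpos : 0 ≤ c * S * (x ^ (P + 1) / B ^ (P + 3)) := by positivity
  have hg0 : 0 ≤ grad2 (potJet μ (k + 3)) p := Finset.sum_nonneg fun _ _ => sq_nonneg _
  calc c * S * (x ^ (P + 1) / B ^ (P + 3)) * Lop μ (potJet μ (k + 3)) p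
        + 1 / 2 * (c * S * ((P + 1) * x ^ P / B ^ (P + 3) - (P + 3) * x ^ (P + 1) / B ^ (P + 4)))
          * grad2 (potJet μ (k + 3)) p
      ≤ c * S * (x ^ (P + 1) / B ^ (P + 3)) * (2 * a ^ 2 * X)
        + 1 / 2 * (c * S * ((P + 1) * x ^ P / B ^ (P + 3))) * (a ^ 2 * (x * X)) := by
        refine add_le_add (mul_le_mul_of_nonneg_left hL hpos) ?_
        refine le_trans (mul_le_mul_of_nonneg_right ?_ hg0)
          (mul_le_mul_of_nonneg_left hG (by positivity))
        refine mul_le_mul_of_nonneg_left (mul_le_mul_of_nonneg_left (sub_le_self _ ?_)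
          (by positivity)) (by norm_num)
        positivity
    _ = c * S * K * x * a ^ 2 * X * (2 + (P + 1) / 2) := by rw [hK]; field_simp; ring
    _ ≤ c * S * K * x * a ^ 2 * (8 * Q * x) * (2 * c) := by
        gcongr
        rw [hc]; linarith
    _ = _ := by rw [hK]; field_simp; ring

end Vale.Agent.P245
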