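import Vale.Agent.P245.SLC

/-!
Functional inequalities of strongly log-concave measures: logarithmic Sobolev, Poincare and
exponential moments of linear forms.
-/

noncomputable section

open MeasureTheory Set Filter Topology
open scoped ENNReal

namespace Vale.Agent.P245

variable {n : ℕ} {τ : ℝ} {μ : Measure (Space n)}

theorem taylor_bound {φ : Space n → ℝ} (hφ : ContDiff ℝ 2 φ) (R : ℝ) :
    ∃ C, 0 ≤ C ∧ ∀ x z, ‖x‖ ≤ R → ‖z‖ ≤ R →
      φ x - φ z - fderiv ℝ φ z (x - z) ≤ C * ‖x - z‖ ^ 2 := by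
  have hd : ContDiff ℝ 1 (fderiv ℝ φ) := hφ.fderiv_right (by norm_num)
  have hc : Continuous fun x => fderiv ℝ (fderiv ℝ φ) x := hd.continuous_fderiv (by norm_num)
  obtain ⟨C, hC⟩ := (isCompact_closedBall (0 : Space n) R).exists_bound_of_continuousOn
    ((continuous_norm (E := Space n →L[ℝ] Space n →L[ℝ] ℝ)).comp hc).continuousOn
  simp only [Function.comp_apply, norm_norm] at hC
  refine ⟨max C 0, le_max_right _ _, fun x z hx hz => ?_⟩
  have hs := convex_closedBall (0 : Space n) R
  have hxm : x ∈ Metric.closedBall (0 : Space n) R := by simpa using hx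
  have hzm : z ∈ Metric.closedBall (0 : Space n) R := by simpa using hz
  have hseg : segment ℝ z x ⊆ Metric.closedBall (0 : Space n) R := hs.segment_subset hzm hxm
  have hlip : ∀ y ∈ segment ℝ z x, ‖fderiv ℝ φ y - fderiv ℝ φ z‖ ≤ max C 0 * ‖x - z‖ := by
    intro y hy
    refine le_trans (hs.norm_image_sub_le_of_norm_fderiv_le
      (fun p _ => (hd.differentiable one_ne_zero) p) (fun p hp => (hC p hp).trans (le_max_left C 0))
      hzm (hseg hy)) ?_
    exact mul_le_mul_of_nonneg_left (norm_sub_le_of_mem_segment hy) (le_max_right _ _)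
  have := (convex_segment z x).norm_image_sub_le_of_norm_fderiv_le' (φ := fderiv ℝ φ z)
    (fun p _ => (hφ.differentiable two_ne_zero) p) hlip (left_mem_segment ℝ z x)
    (right_mem_segment ℝ z x)
  rw [Real.norm_eq_abs] at this
  calc _ ≤ _ := le_abs_self _
    _ ≤ max C 0 * ‖x - z‖ * ‖x - z‖ := this
    _ = _ := by ring

/-- The logarithmic Sobolev inequality in exponential form. -/
theorem IsSLC.lsi_exp (h : IsSLC τ μ) (hτ : 0 < τ) {φ : Space n → ℝ} (hφ : ContDiff ℝ 2 φ) :
    ent μ (fun x => Real.exp (φ x))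
      ≤ 1 / (2 * τ) * ∫ x, ‖fderiv ℝ φ x‖ ^ 2 * Real.exp (φ x) ∂μ := by
  have hpr := h.prob
  obtain ⟨R, hR0, hR, hpl⟩ := h.pl_exp
  obtain ⟨C, hC0, hC⟩ := taylor_bound hφ R
  have hφc : Continuous φ := hφ.continuous
  have hdc : Continuous fun x => ‖fderiv ℝ φ x‖ ^ 2 := by
    have := hφ.continuous_fderiv (by norm_num); fun_prop
  obtain ⟨Gm, hGm⟩ := (isCompact_closedBall (0 : Space n) R).exists_bound_of_continuousOn
    hdc.continuousOn
  set G : Space n → ℝ := fun x => 1 / (2 * τ) * ‖fderiv ℝ φ x‖ ^ 2 with hG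
  have hGc : Continuous G := by simp only [hG]; fun_prop
  set M := 1 / (2 * τ) * max Gm 0 with hM
  have hGM : ∀ x, ‖x‖ ≤ R → G x ≤ M := fun x hx => by
    refine mul_le_mul_of_nonneg_left (le_trans ?_ (le_max_left _ _)) (by positivity)
    exact (le_abs_self _).trans (hGm x (by simpa using hx))
  have hG0 : ∀ x, 0 ≤ G x := fun x => by simp only [hG]; positivity
  have hi : ∀ u : Space n → ℝ, Continuous u → Integrable u μ := fun u hu => integrable_of_ball hR hu
  set I := ∫ x, Real.exp (φ x) ∂μ with hI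
  set J := ∫ x, φ x * Real.exp (φ x) ∂μ with hJ
  set GI := ∫ x, G x * Real.exp (φ x) ∂μ with hGI
  have hI0 : 0 < I := integral_exp_pos (hi _ (by fun_prop))
  have hGI0 : 0 ≤ GI := integral_nonneg fun x => mul_nonneg (hG0 x) (Real.exp_pos _).le
  have hent : ent μ (fun x => Real.exp (φ x)) = J - I * Real.log I := by
    simp only [ent, Real.log_exp, hJ, hI, mul_comm (Real.exp (φ _)) (φ _)]
  suffices hlim : ∀ᶠ l in 𝓝[>] (0 : ℝ), J - I * Real.log I ≤
      (1 / (1 - l * (1 + 2 * C / τ))) * Real.exp (l / (1 - l * (1 + 2 * C / τ)) * M) * GI by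
    have hcont : ContinuousAt (fun l : ℝ =>
        (1 / (1 - l * (1 + 2 * C / τ))) * Real.exp (l / (1 - l * (1 + 2 * C / τ)) * M) * GI) 0 := by
      fun_prop (disch := norm_num)
    have := le_of_tendsto_of_tendsto tendsto_const_nhds
      (hcont.tendsto.mono_left nhdsWithin_le_nhds) hlim
    rw [hent]
    simpa [hGI, hG, mul_assoc, integral_const_mul] using this
  have hK : 0 < 1 + 2 * C / τ := by positivity
  filter_upwards [Ioo_mem_nhdsGT (show (0 : ℝ) < 1 / (1 + 2 * C / τ) by positivity)] with l hl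
  have hl0 : 0 < l := hl.1
  have hlK : l * (1 + 2 * C / τ) < 1 := (lt_div_iff₀ hK).1 hl.2
  have hl1 : l < 1 := by
    have : l * 1 ≤ l * (1 + 2 * C / τ) :=
      mul_le_mul_of_nonneg_left (le_add_of_nonneg_right (by positivity)) hl0.le
    linarith
  set d := 1 - l * (1 + 2 * C / τ) with hd
  have hd0 : 0 < d := by linarith
  have key := hpl hl0 hl1 (φ := fun x => φ x / (1 - l)) (χ := fun z => φ z + l / d * G z)
    (by fun_prop) (by fun_prop) fun x y hx hy => by
    have hz : ‖(1 - l) • x + l • y‖ ≤ R := by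
      have := convex_closedBall (0 : Space n) R (show x ∈ Metric.closedBall 0 R by simpa using hx)
        (show y ∈ Metric.closedBall 0 R by simpa using hy) (show (0 : ℝ) ≤ 1 - l by linarith)
        hl0.le (by ring)
      simpa using this
    set z := (1 - l) • x + l • y with hzdef
    have hxz : x - z = l • (x - y) := by
      simp only [hzdef, sub_smul, smul_sub, one_smul]
      abel
    have h1 := hC x z hx hz
    have h2 : fderiv ℝ φ z (x - z) ≤ ‖fderiv ℝ φ z‖ * ‖x - z‖ :=
      (le_abs_self _).trans ((fderiv ℝ φ z).le_opNorm _)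
    rw [mul_div_cancel₀ _ (show 1 - l ≠ 0 by linarith)]
    have hn : ‖x - z‖ = l * ‖x - y‖ := by rw [hxz, norm_smul, Real.norm_eq_abs, abs_of_pos hl0]
    set a := ‖fderiv ℝ φ z‖
    set u := ‖x - y‖
    have h3 : a * (l * u) + C * (l * u) ^ 2 ≤
        τ * l * (1 - l) * u ^ 2 / 2 + l / d * (1 / (2 * τ) * a ^ 2) := by
      have e : τ * l * (1 - l) * u ^ 2 / 2 + l / d * (1 / (2 * τ) * a ^ 2)
          - (a * (l * u) + C * (l * u) ^ 2) = l / (2 * τ * d) * (a - τ * d * u) ^ 2 := by
        have hτ' : τ ≠ 0 := hτ.ne'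
        have : C = τ * ((1 - l) - d) / (2 * l) := by rw [hd]; field_simp; ring
        rw [this]
        field_simp
        ring
      nlinarith [show 0 ≤ l / (2 * τ * d) * (a - τ * d * u) ^ 2 by positivity]
    rw [hn] at h1 h2
    simp only [hG]
    linarith
  have hL : I * Real.exp (l / (1 - l) * (J / I)) ≤ ∫ x, Real.exp (φ x / (1 - l)) ∂μ := by
    set s := l / (1 - l)
    set m := J / I
    have hpt : ∀ x, Real.exp (φ x) * (Real.exp (s * m) * (1 + s * (φ x - m)))
        ≤ Real.exp (φ x / (1 - l)) := fun x => by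
      have e : φ x / (1 - l) = φ x + (s * m + s * (φ x - m)) := by
        have : 1 - l ≠ 0 := by linarith
        simp only [s]; field_simp; ring
      rw [e, Real.exp_add, Real.exp_add]
      have := Real.add_one_le_exp (s * (φ x - m))
      exact mul_le_mul_of_nonneg_left (mul_le_mul_of_nonneg_left (by linarith) (Real.exp_pos _).le)
        (Real.exp_pos _).le
    refine le_trans (le_of_eq ?_) (integral_mono (hi _ (by fun_prop)) (hi _ (by fun_prop)) hpt)
    have e : (fun x => Real.exp (φ x) * (Real.exp (s * m) * (1 + s * (φ x - m))))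
        = fun x => Real.exp (s * m) * (1 - s * m) * Real.exp (φ x)
          + Real.exp (s * m) * s * (φ x * Real.exp (φ x)) := by funext x; ring
    rw [e, integral_add (hi _ (by fun_prop)) (hi _ (by fun_prop)), integral_const_mul,
      integral_const_mul, ← hI, ← hJ]
    simp only [m]
    field_simp
    ring
  have hU : ∫ x, Real.exp (φ x + l / d * G x) ∂μ ≤ I + l / d * Real.exp (l / d * M) * GI := by
    have hpt : ∀ᵐ x ∂μ, Real.exp (φ x + l / d * G x)
        ≤ Real.exp (φ x) + l / d * Real.exp (l / d * M) * (G x * Real.exp (φ x)) := by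
      filter_upwards [hR] with x hx
      rw [Real.exp_add]
      have hu : 0 ≤ l / d * G x := mul_nonneg (by positivity) (hG0 x)
      have h1 := Real.add_one_le_exp (-(l / d * G x))
      have h2 : Real.exp (l / d * G x) * Real.exp (-(l / d * G x)) = 1 := by
        rw [← Real.exp_add]; simp
      have h3 : Real.exp (l / d * G x) - 1 ≤ l / d * G x * Real.exp (l / d * G x) := by
        nlinarith [mul_le_mul_of_nonneg_left h1 (Real.exp_pos (l / d * G x)).le]
      have h4 : Real.exp (l / d * G x) ≤ Real.exp (l / d * M) :=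
        Real.exp_le_exp.2 (mul_le_mul_of_nonneg_left (hGM x hx) (by positivity))
      nlinarith [mul_le_mul_of_nonneg_left h3 (Real.exp_pos (φ x)).le,
        mul_le_mul_of_nonneg_left h4 (mul_nonneg hu (Real.exp_pos (φ x)).le)]
    refine le_trans (integral_mono_ae (hi _ (by fun_prop)) (hi _ (by fun_prop)) hpt) (le_of_eq ?_)
    rw [integral_add (hi _ (by fun_prop)) (hi _ (by fun_prop)), integral_const_mul]
  have h1l : 0 < 1 - l := by linarith
  have hlow : I * Real.exp (l * (J / I - Real.log I))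
      ≤ (∫ x, Real.exp (φ x / (1 - l)) ∂μ) ^ (1 - l) := by
    refine le_trans (le_of_eq ?_) (Real.rpow_le_rpow (by positivity) hL h1l.le)
    rw [Real.mul_rpow hI0.le (Real.exp_pos _).le, ← Real.exp_mul, Real.rpow_def_of_pos hI0]
    nth_rewrite 1 [← Real.exp_log hI0]
    rw [← Real.exp_add, ← Real.exp_add]
    congr 1
    field_simp
    ring
  have h5 := le_trans hlow (le_trans key hU)
  have h6 := mul_le_mul_of_nonneg_left (Real.add_one_le_exp (l * (J / I - Real.log I))) hI0.le
  have h7 : l * (J - I * Real.log I) ≤ l / d * Real.exp (l / d * M) * GI := by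
    have : I * (l * (J / I - Real.log I) + 1) = l * (J - I * Real.log I) + I := by field_simp
    linarith
  rw [div_mul_eq_mul_div, div_mul_eq_mul_div, le_div_iff₀ hd0] at h7
  rw [div_mul_eq_mul_div, div_mul_eq_mul_div, le_div_iff₀ hd0, one_mul]
  exact le_of_mul_le_mul_left (by linarith) hl0

theorem tendsto_ent_add [IsFiniteMeasure μ] {R : ℝ} (hR : ∀ᵐ x ∂μ, ‖x‖ ≤ R)
    {F : Space n → ℝ} (hF : Continuous F) :
    Tendsto (fun η => ent μ (fun x => F x + η)) (𝓝[>] 0) (𝓝 (ent μ F)) := by
  have hxl : Continuous fun y : ℝ => y * Real.log y := Real.continuous_mul_log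
  have key : ∀ g : ℝ → ℝ, Continuous g →
      Tendsto (fun η => ∫ x, g (F x + η) ∂μ) (𝓝[>] 0) (𝓝 (∫ x, g (F x) ∂μ)) := by
    intro g hg
    have hc : Continuous fun p : ℝ × Space n => g (F p.2 + p.1) := by fun_prop
    obtain ⟨M, hM⟩ := ((isCompact_Icc (a := (-1 : ℝ)) (b := 1)).prod
      (isCompact_closedBall (0 : Space n) R)).exists_bound_of_continuousOn hc.continuousOn
    have h0 : ContinuousAt (fun η => ∫ x, g (F x + η) ∂μ) 0 := by
      refine continuousAt_of_dominated (bound := fun _ => M)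
        (Eventually.of_forall fun η => (by fun_prop : Continuous _).aestronglyMeasurable) ?_
        (integrable_const M) (ae_of_all _ fun x => by fun_prop)
      filter_upwards [Icc_mem_nhds (show (-1 : ℝ) < 0 by norm_num) one_pos] with η hη
      exact hR.mono fun x hx => hM (η, x) ⟨hη, by simpa using hx⟩
    simpa using h0.tendsto.mono_left nhdsWithin_le_nhds
  have h2 : Tendsto (fun η => ∫ x, (F x + η) ∂μ) (𝓝[>] 0) (𝓝 (∫ x, F x ∂μ)) := key id continuous_id
  exact (key _ hxl).sub ((hxl.tendsto _).comp h2)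

/-- The logarithmic Sobolev inequality for shifted squares. -/
theorem IsSLC.lsi_add (h : IsSLC τ μ) (hτ : 0 < τ) {f : Space n → ℝ} (hf : ContDiff ℝ 2 f)
    {η : ℝ} (hη : 0 < η) : ent μ (fun x => f x ^ 2 + η) ≤ 2 / τ * dir μ f := by
  have hpos : ∀ x, 0 < f x ^ 2 + η := fun x => by positivity
  have hφ : ContDiff ℝ 2 fun x => Real.log (f x ^ 2 + η) :=
    ((hf.pow 2).add contDiff_const).log fun x => (hpos x).ne'
  have hfc := hf.continuous
  have hdc := hf.continuous_fderiv (by norm_num)
  have key := h.lsi_exp hτ hφ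
  simp only [Real.exp_log (hpos _)] at key
  refine key.trans ?_
  rw [show (2 : ℝ) / τ * dir μ f = 1 / (2 * τ) * (4 * dir μ f) by field_simp; ring]
  refine mul_le_mul_of_nonneg_left ?_ (by positivity)
  rw [dir, ← integral_const_mul]
  refine integral_mono (h.integrable ?_) (h.integrable (by fun_prop)) fun x => ?_
  · have := hφ.continuous_fderiv (by norm_num)
    fun_prop
  · have hd : HasFDerivAt (fun y => Real.log (f y ^ 2 + η))
        ((f x ^ 2 + η)⁻¹ • ((2 * f x) • fderiv ℝ f x)) x := by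
      have := (((hf.differentiable two_ne_zero) x).hasFDerivAt.pow 2).add_const η
      simpa using this.log (hpos x).ne'
    simp only [hd.fderiv, norm_smul, Real.norm_eq_abs, abs_inv, abs_of_pos (hpos x)]
    rw [mul_pow, mul_pow, sq_abs]
    calc (f x ^ 2 + η)⁻¹ ^ 2 * ((2 * f x) ^ 2 * ‖fderiv ℝ f x‖ ^ 2) * (f x ^ 2 + η)
        = 4 * ‖fderiv ℝ f x‖ ^ 2 * (f x ^ 2 / (f x ^ 2 + η)) := by field_simp; ring
      _ ≤ 4 * ‖fderiv ℝ f x‖ ^ 2 * 1 := mul_le_mul_of_nonneg_left
          ((div_le_one (hpos x)).2 (by linarith)) (by positivity)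
      _ = _ := mul_one _

/-- The logarithmic Sobolev inequality for squares. -/
theorem IsSLC.lsi (h : IsSLC τ μ) (hτ : 0 < τ) {f : Space n → ℝ} (hf : ContDiff ℝ 2 f) :
    ent μ (fun x => f x ^ 2) ≤ 2 / τ * dir μ f := by
  have := h.prob
  obtain ⟨R, -, hR⟩ := h.bdd
  refine le_of_tendsto (tendsto_ent_add hR (hf.continuous.pow 2)) ?_
  filter_upwards [self_mem_nhdsWithin] with η hη
  exact h.lsi_add hτ hf hη

theorem dir_nonneg (f : Space n → ℝ) : 0 ≤ dir μ f := integral_nonneg fun _ => by positivity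

/-- The Poincare inequality. -/
theorem IsSLC.poincare (h : IsSLC τ μ) (hτ : 0 < τ) {f : Space n → ℝ} (hf : ContDiff ℝ 2 f) :
    var μ f ≤ 2 / τ * dir μ f := by
  have := h.prob
  obtain ⟨R, -, hR⟩ := h.bdd
  obtain ⟨c, hc⟩ := (isCompact_closedBall (0 : Space n) R).exists_bound_of_continuousOn
    hf.continuous.continuousOn
  have hg : ContDiff ℝ 2 fun x => f x + c := hf.add contDiff_const
  have hgc := hg.continuous
  have hd : dir μ (fun x => f x + c) = dir μ f := by simp [dir, fderiv_add_const]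
  have hfc := hf.continuous
  refine le_trans ?_ ((h.lsi hτ hg).trans_eq (by rw [hd]))
  set g := fun x => f x + c with hgdef
  have hg0 : ∀ᵐ x ∂μ, 0 ≤ g x := hR.mono fun x hx => by
    have := hc x (by simpa using hx)
    rw [Real.norm_eq_abs] at this
    simp only [hgdef]
    linarith [neg_abs_le (f x)]
  have hi : ∀ u : Space n → ℝ, Continuous u → Integrable u μ := fun u hu => integrable_of_ball hR hu
  set m1 := ∫ x, g x ∂μ with hm1
  set m2 := ∫ x, g x ^ 2 ∂μ with hm2
  have hvar : var μ f = m2 - m1 ^ 2 := by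
    have e : ∫ x, f x ∂μ = m1 - c := by
      rw [hm1, integral_add (hi _ hfc) (integrable_const c)]; simp
    have e2 : (fun x => (f x - (m1 - c)) ^ 2) = fun x => g x ^ 2 - 2 * m1 * g x + m1 ^ 2 := by
      funext x; simp only [hgdef]; ring
    rw [var, e, e2, integral_add ((hi _ (by fun_prop))) (integrable_const _),
      integral_sub (hi _ (by fun_prop)) (hi _ (by fun_prop)), integral_const_mul, integral_const]
    simp [← hm1, ← hm2]
    ring
  rw [hvar]
  have hm20 : 0 ≤ m2 := integral_nonneg fun x => sq_nonneg _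
  rcases hm20.eq_or_lt with hz | hpos
  · have hz' : (fun x => g x ^ 2) =ᵐ[μ] 0 :=
      (integral_eq_zero_iff_of_nonneg (fun x => sq_nonneg _) (hi _ (hgc.pow 2))).1 hz.symm
    have : ent μ (fun x => g x ^ 2) = 0 := by
      rw [ent, show ∫ x, g x ^ 2 ∂μ = 0 from hz.symm, zero_mul, sub_zero]
      exact integral_eq_zero_of_ae (hz'.mono fun x hx => by simp [show g x ^ 2 = 0 from hx])
    rw [this, ← hz]
    nlinarith [sq_nonneg m1]
  · set s := Real.sqrt m2 with hs
    have hs0 : 0 < s := Real.sqrt_pos.2 hpos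
    have hpt : ∀ᵐ x ∂μ, 2 * g x ^ 2 - 2 * s * g x
        ≤ g x ^ 2 * Real.log (g x ^ 2) - Real.log m2 * g x ^ 2 := by
      filter_upwards [hg0] with x hx
      rcases hx.eq_or_lt with hx0 | hxp
      · simp [← hx0]
      · have h1 := Real.one_sub_inv_le_log_of_pos (show 0 < g x / s by positivity)
        rw [Real.log_div hxp.ne' hs0.ne', inv_div] at h1
        have h2 := mul_le_mul_of_nonneg_left h1 (show 0 ≤ 2 * g x ^ 2 by positivity)
        have h3 : Real.log m2 = 2 * Real.log s := by
          rw [hs, Real.log_sqrt hpos.le]; ring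
        rw [Real.log_pow, h3]
        have h4 : 2 * g x ^ 2 * (s / g x) = 2 * s * g x := by field_simp
        push_cast
        nlinarith
    have hg2 : Continuous fun x => g x ^ 2 := hgc.pow 2
    have hil : Continuous fun x => g x ^ 2 * Real.log (g x ^ 2) :=
      Real.continuous_mul_log.comp (hgc.pow 2)
    have := integral_mono_ae (hi _ ((hg2.const_mul 2).sub (hgc.const_mul (2 * s))))
      (hi _ (hil.sub (hg2.const_mul _))) hpt
    simp only [Pi.sub_apply] at this
    rw [integral_sub (hi _ (hg2.const_mul _)) (hi _ (hgc.const_mul _)), integral_const_mul,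
      integral_const_mul, integral_sub (hi _ hil) (hi _ (hg2.const_mul _)), integral_const_mul,
      ← hm1, ← hm2] at this
    rw [ent, ← hm2]
    nlinarith [sq_nonneg (s - m1), Real.sq_sqrt hpos.le, mul_comm (Real.log m2) m2]

/-- The Poincare inequality for linear forms. -/
theorem IsSLC.var_inner (h : IsSLC τ μ) (hτ : 0 < τ) (θ : Space n) :
    var μ (fun x => inner ℝ θ x) ≤ 2 / τ * ‖θ‖ ^ 2 := by
  have := h.prob
  refine (h.poincare hτ (innerSL ℝ θ).contDiff).trans_eq ?_
  have e : ∀ x, fderiv ℝ (⇑(innerSL ℝ θ)) x = innerSL ℝ θ := fun x => (innerSL ℝ θ).fderiv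
  simp only [dir, e, innerSL_apply_norm, integral_const, probReal_univ, one_smul]

/-- Exponential moments of linear forms. -/
theorem IsSLC.mgf (h : IsSLC τ μ) (hτ : 0 < τ) (v : Space n) :
    ∫ x, Real.exp (inner ℝ v (x - ∫ y, y ∂μ)) ∂μ ≤ Real.exp (‖v‖ ^ 2 / (2 * τ)) := by
  have hpr := h.prob
  obtain ⟨R, hR0, hR, hpl⟩ := h.pl_exp
  have hi : ∀ u : Space n → ℝ, Continuous u → Integrable u μ := fun u hu => integrable_of_ball hR hu
  set b := ∫ y, y ∂μ with hb
  set F : Space n → ℝ := fun v => ∫ x, Real.exp (inner ℝ v (x - b)) ∂μ with hF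
  have hF0 : ∀ v, 0 < F v := fun v => integral_exp_pos (hi _ (by fun_prop))
  have step : ∀ v, F v ≤ Real.exp (‖v‖ ^ 2 / (4 * τ)) * F ((1 / 2 : ℝ) • v) ^ 2 := by
    intro v
    have key := hpl (l := 1 / 2) (by norm_num) (by norm_num) (φ := fun x => inner ℝ v (x - b))
      (χ := fun z => ‖v‖ ^ 2 / (8 * τ) + inner ℝ ((1 / 2 : ℝ) • v) (z - b)) (by fun_prop)
      (by fun_prop) fun x y _ _ => by
      simp only [real_inner_smul_left, inner_sub_right, inner_add_right, real_inner_smul_right]
      have h1 := real_inner_le_norm v (x - y)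
      rw [inner_sub_right] at h1
      have h2 : 0 ≤ τ / 8 * (‖x - y‖ - ‖v‖ / τ) ^ 2 := by positivity
      have h3 : τ / 8 * (‖x - y‖ - ‖v‖ / τ) ^ 2
          = τ * ‖x - y‖ ^ 2 / 8 - ‖v‖ * ‖x - y‖ / 4 + ‖v‖ ^ 2 / (8 * τ) := by field_simp; ring
      nlinarith
    simp only [Real.exp_add, integral_const_mul] at key
    rw [show (1 : ℝ) - 1 / 2 = 1 / 2 by norm_num, ← Real.sqrt_eq_rpow] at key
    have h4 := pow_le_pow_left₀ (Real.sqrt_nonneg _) key 2
    rw [Real.sq_sqrt (hF0 v).le, mul_pow, ← Real.exp_nat_mul] at h4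
    refine h4.trans_eq ?_
    simp only [hF]
    congr 2
    push_cast
    ring
  have hk : ∀ (k : ℕ) v, F v ≤ Real.exp (‖v‖ ^ 2 / (2 * τ) * (1 - 1 / 2 ^ k))
      * F ((1 / 2 ^ k : ℝ) • v) ^ (2 ^ k) := by
    intro k
    induction k with
    | zero => intro v; simp
    | succ k ih =>
      intro v
      refine (ih v).trans ?_
      refine le_trans (mul_le_mul_of_nonneg_left (pow_le_pow_left₀ (hF0 _).le (step _) _)
        (Real.exp_pos _).le) (le_of_eq ?_)
      rw [smul_smul, mul_pow, ← pow_mul, ← mul_assoc, ← Real.exp_nat_mul, ← Real.exp_add,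
        norm_smul, Real.norm_eq_abs, abs_of_pos (by positivity)]
      congr 2
      · push_cast
        field_simp
        ring
      · congr 1
        ring
      · ring_nf
  set M := ‖v‖ * (R + ‖b‖) with hM
  have hbd : ∀ᶠ k : ℕ in atTop,
      F ((1 / 2 ^ k : ℝ) • v) ^ (2 ^ k) ≤ Real.exp (M ^ 2 / 2 ^ k) := by
    have ht : Tendsto (fun k : ℕ => M / 2 ^ k) atTop (𝓝 0) := by
      simpa using (tendsto_const_nhds (x := M)).div_atTop (tendsto_pow_atTop_atTop_of_one_lt one_lt_two)
    filter_upwards [ht.eventually (Iic_mem_nhds one_pos)] with k hk1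
    set a : ℝ := 1 / 2 ^ k with ha
    have ha0 : 0 < a := by positivity
    have hmean : ∫ x, inner ℝ v (x - b) ∂μ = 0 := by
      have hid : Integrable (fun x : Space n => x) μ := h.integrable (by fun_prop)
      rw [integral_inner (f := fun x : Space n => x - b) (h.integrable (by fun_prop)) v,
        integral_sub hid (integrable_const b)]
      simp [← hb]
    have h1 : F (a • v) ≤ 1 + (M / 2 ^ k) ^ 2 := by
      have hpt : ∀ᵐ x ∂μ, Real.exp (inner ℝ (a • v) (x - b))
          ≤ (1 + (M / 2 ^ k) ^ 2) + a * inner ℝ v (x - b) := by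
        filter_upwards [hR] with x hx
        have hu : |inner ℝ v (x - b)| ≤ M := by
          refine (abs_real_inner_le_norm _ _).trans ?_
          exact mul_le_mul_of_nonneg_left ((norm_sub_le _ _).trans (by linarith)) (norm_nonneg _)
        rw [real_inner_smul_left]
        set u := inner ℝ v (x - b)
        have hau : |a * u| ≤ M / 2 ^ k := by
          rw [abs_mul, abs_of_pos ha0, ha, one_div_mul_eq_div]
          gcongr
        have := Real.abs_exp_sub_one_sub_id_le (hau.trans hk1)
        nlinarith [abs_le.1 this, sq_abs (a * u), pow_le_pow_left₀ (abs_nonneg (a * u)) hau 2]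
      refine le_trans (integral_mono_ae (hi _ (by fun_prop)) (hi _ (by fun_prop)) hpt) (le_of_eq ?_)
      rw [integral_add (integrable_const _) (hi _ (by fun_prop)), integral_const_mul, hmean]
      simp
    refine (pow_le_pow_left₀ (hF0 _).le (h1.trans
      (show 1 + (M / 2 ^ k) ^ 2 ≤ Real.exp ((M / 2 ^ k) ^ 2) by
        linarith [Real.add_one_le_exp ((M / 2 ^ k) ^ 2)])) _).trans (le_of_eq ?_)
    rw [← Real.exp_nat_mul]
    push_cast
    congr 1
    field_simp
  refine ge_of_tendsto (f := fun k : ℕ => Real.exp (‖v‖ ^ 2 / (2 * τ) + M ^ 2 / 2 ^ k))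
    (x := atTop) ?_ ?_
  · have : Tendsto (fun k : ℕ => ‖v‖ ^ 2 / (2 * τ) + M ^ 2 / 2 ^ k) atTop
        (𝓝 (‖v‖ ^ 2 / (2 * τ) + 0)) :=
      tendsto_const_nhds.add (tendsto_const_nhds.div_atTop
        (tendsto_pow_atTop_atTop_of_one_lt one_lt_two))
    rw [add_zero] at this
    exact (Real.continuous_exp.tendsto _).comp this
  · filter_upwards [hbd] with k hk1
    refine (hk k v).trans ?_
    rw [Real.exp_add]
    refine mul_le_mul (Real.exp_le_exp.2 ?_) hk1 (pow_nonneg (hF0 _).le _) (Real.exp_pos _).le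
    exact mul_le_of_le_one_right (by positivity) (sub_le_self _ (by positivity))

end Vale.Agent.P245
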