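import Vale.Agent.P245.Func

/-!
The standard Gaussian measure on Euclidean space: density, integrability, Stein's identity,
exponential moments, rotation invariance and the logarithmic Sobolev inequality.
-/

noncomputable section

open MeasureTheory ProbabilityTheory Set Filter Topology Module
open scoped ENNReal

namespace Vale.Agent.P245

variable {n : ℕ}

/-- The standard Gaussian measure. -/
abbrev gam (n : ℕ) : Measure (Space n) := stdGaussian (Space n)

/-- The Gaussian density. -/
def gd (x : Space n) : ℝ := (√(2 * Real.pi))⁻¹ ^ n * Real.exp (-(1 / 2) * ‖x‖ ^ 2)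

theorem gd_pos (x : Space n) : 0 < gd x := by unfold gd; positivity

@[fun_prop]
theorem continuous_gd : Continuous (gd : Space n → ℝ) := by unfold gd; fun_prop

theorem integral_gd : ∫ x : Space n, gd x = 1 := by
  have h := GaussianFourier.integral_rexp_neg_mul_sq_norm (V := Space n) (b := 1 / 2) (by norm_num)
  simp only [gd, integral_const_mul]
  rw [h, finrank_euclideanSpace_fin, show Real.pi / (1 / 2) = 2 * Real.pi by ring, Real.sqrt_eq_rpow,
    ← Real.rpow_natCast, Real.inv_rpow (by positivity), ← Real.rpow_mul (by positivity),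
    ← Real.rpow_neg (by positivity), ← Real.rpow_add (by positivity)]
  rw [show -(1 / 2 * (n : ℝ)) + (n : ℝ) / 2 = 0 by ring, Real.rpow_zero]

theorem gam_eq : gam n = volume.withDensity fun x : Space n => ENNReal.ofReal (gd x) := by
  have hint : Integrable (gd : Space n → ℝ) := by
    by_contra h
    have := integral_gd (n := n)
    rw [integral_undef h] at this
    norm_num at this
  have : IsFiniteMeasure (volume.withDensity fun x : Space n => ENNReal.ofReal (gd x)) :=
    isFiniteMeasure_withDensity_ofReal hint.hasFiniteIntegral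
  refine Measure.ext_of_charFun (funext fun t => ?_)
  rw [charFun_stdGaussian, charFun_apply,
    integral_withDensity_eq_integral_toReal_smul (by fun_prop) (ae_of_all _ fun x => by simp)]
  have h := GaussianFourier.integral_cexp_neg_mul_sq_norm_add (V := Space n) (b := 1 / 2)
    (by norm_num) Complex.I t
  rw [finrank_euclideanSpace_fin] at h
  have hK : ((√(2 * Real.pi))⁻¹ ^ n : ℂ) * ((Real.pi / (1 / 2 : ℂ)) ^ (n / 2 : ℂ)) = 1 := by
    have e : (Real.pi / (1 / 2 : ℂ)) = ((2 * Real.pi : ℝ) : ℂ) := by push_cast; ring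
    have e' : (n / 2 : ℂ) = (((n : ℝ) / 2 : ℝ) : ℂ) := by push_cast; rfl
    rw [e, e', ← Complex.ofReal_cpow (by positivity)]
    have hp : (0 : ℝ) < √(2 * Real.pi) := by positivity
    have hr : (2 * Real.pi) ^ ((n : ℝ) / 2) = √(2 * Real.pi) ^ n := by
      rw [Real.sqrt_eq_rpow, ← Real.rpow_natCast, ← Real.rpow_mul (by positivity)]; ring_nf
    rw [hr]
    push_cast
    rw [← mul_pow, inv_mul_cancel₀ (Complex.ofReal_ne_zero.2 hp.ne'), one_pow]
  have hpt : ∀ x : Space n, (ENNReal.ofReal (gd x)).toReal • Complex.exp (inner ℝ x t * Complex.I) =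
      ((√(2 * Real.pi))⁻¹ ^ n : ℂ) *
        Complex.exp (-(1 / 2 : ℂ) * ‖x‖ ^ 2 + Complex.I * inner ℝ t x) := fun x => by
    rw [ENNReal.toReal_ofReal (gd_pos x).le, Complex.real_smul, gd]
    push_cast
    rw [mul_assoc, ← Complex.exp_add, real_inner_comm]
    congr 2
    ring
  simp only [hpt, integral_const_mul]
  rw [h, ← mul_assoc, hK, one_mul, Complex.I_sq]
  congr 1
  ring

theorem integral_gam (F : Space n → ℝ) : ∫ x, F x ∂gam n = ∫ x, gd x * F x := by
  rw [gam_eq, integral_withDensity_eq_integral_toReal_smul (by fun_prop)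
    (ae_of_all _ fun x => by simp)]
  exact integral_congr_ae (ae_of_all _ fun x => by
    simp [ENNReal.toReal_ofReal (gd_pos x).le])

theorem integrable_gam_iff {F : Space n → ℝ} :
    Integrable F (gam n) ↔ Integrable fun x => gd x * F x := by
  rw [gam_eq, integrable_withDensity_iff_integrable_smul' (by fun_prop)
    (ae_of_all _ fun x => by simp)]
  exact integrable_congr (ae_of_all _ fun x => by simp [ENNReal.toReal_ofReal (gd_pos x).le])

/-- The exponential moment of the squared norm. -/
theorem gam_exp_sq {u : ℝ} (hu : u < 1 / 2) :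
    Integrable (fun x : Space n => Real.exp (u * ‖x‖ ^ 2)) (gam n) ∧
      ∫ x, Real.exp (u * ‖x‖ ^ 2) ∂gam n = (1 - 2 * u) ^ (-((n : ℝ) / 2)) := by
  have hb : 0 < 1 / 2 - u := by linarith
  have e : ∀ x : Space n, gd x * Real.exp (u * ‖x‖ ^ 2)
      = (√(2 * Real.pi))⁻¹ ^ n * Real.exp (-(1 / 2 - u) * ‖x‖ ^ 2) := fun x => by
    rw [gd, mul_assoc, ← Real.exp_add]; congr 2; ring
  have hv := GaussianFourier.integral_rexp_neg_mul_sq_norm (V := Space n) hb
  rw [finrank_euclideanSpace_fin] at hv
  refine ⟨?_, ?_⟩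
  · rw [integrable_gam_iff]
    simp only [e]
    refine Integrable.const_mul ?_ _
    by_contra h
    rw [integral_undef h] at hv
    exact absurd hv.symm (by positivity)
  · rw [integral_gam]
    simp only [e, integral_const_mul]
    rw [hv, Real.sqrt_eq_rpow, ← Real.rpow_natCast, Real.inv_rpow (by positivity),
      ← Real.rpow_mul (by positivity), ← Real.rpow_neg (by positivity)]
    have : Real.pi / (1 / 2 - u) = (2 * Real.pi) * (1 - 2 * u)⁻¹ := by field_simp
    rw [this, Real.mul_rpow (by positivity) (inv_nonneg.2 (by linarith)), ← mul_assoc,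
      ← Real.rpow_add (by positivity), Real.inv_rpow (by linarith), ← Real.rpow_neg (by linarith)]
    rw [show -(1 / 2 * (n : ℝ)) + (n : ℝ) / 2 = 0 by ring, Real.rpow_zero, one_mul]

theorem gam_exp_sq_le {u : ℝ} (h0 : 0 ≤ u) (h1 : u ≤ 1 / 4) :
    ∫ x, Real.exp (u * ‖x‖ ^ 2) ∂gam n ≤ Real.exp (2 * u * n) := by
  rw [(gam_exp_sq (by linarith)).2, Real.rpow_def_of_pos (by linarith)]
  refine Real.exp_le_exp.2 ?_
  have h := Real.one_sub_inv_le_log_of_pos (show (0 : ℝ) < 1 - 2 * u by linarith)
  have h2 : (1 - 2 * u)⁻¹ ≤ 1 + 4 * u := by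
    rw [inv_le_iff_one_le_mul₀ (by linarith)]; nlinarith
  have hn : (0 : ℝ) ≤ n := Nat.cast_nonneg n
  nlinarith

theorem integrable_exp_norm (c : ℝ) : Integrable (fun x : Space n => Real.exp (c * ‖x‖)) (gam n) := by
  refine Integrable.mono' ((gam_exp_sq (n := n) (u := 1 / 4) (by norm_num)).1.const_mul
    (Real.exp (c ^ 2))) (by fun_prop) (ae_of_all _ fun x => ?_)
  rw [Real.norm_eq_abs, abs_of_pos (Real.exp_pos _), ← Real.exp_add]
  refine Real.exp_le_exp.2 ?_
  nlinarith [sq_nonneg (‖x‖ / 2 - c)]

/-- At most exponential growth. -/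
def Tame (F : Space n → ℝ) : Prop := ∃ A c, ∀ x, |F x| ≤ A * Real.exp (c * ‖x‖)

theorem Tame.integrable {F : Space n → ℝ} (h : Tame F) (hc : Continuous F) :
    Integrable F (gam n) := by
  obtain ⟨A, c, hA⟩ := h
  exact Integrable.mono' ((integrable_exp_norm c).const_mul A) hc.aestronglyMeasurable
    (ae_of_all _ fun x => hA x)

theorem Tame.mul_norm {F : Space n → ℝ} (h : Tame F) {G : Space n → ℝ}
    (hG : ∀ x, |G x| ≤ ‖x‖) : Tame fun x => G x * F x := by
  obtain ⟨A, c, hA⟩ := h
  refine ⟨A, c + 1, fun x => ?_⟩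
  have hA0 : 0 ≤ A * Real.exp (c * ‖x‖) := (abs_nonneg _).trans (hA x)
  rw [abs_mul, add_mul, one_mul, Real.exp_add]
  calc |G x| * |F x| ≤ Real.exp ‖x‖ * (A * Real.exp (c * ‖x‖)) :=
        mul_le_mul ((hG x).trans (le_trans (by linarith) (Real.add_one_le_exp _))) (hA x)
          (abs_nonneg _) (Real.exp_pos _).le
    _ = _ := by ring

/-- The coordinate unit vectors. -/
abbrev ev (i : Fin n) : Space n := EuclideanSpace.single i (1 : ℝ)

theorem abs_coord_le (x : Space n) (i : Fin n) : |x i| ≤ ‖x‖ := by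
  rw [← Real.norm_eq_abs]; exact PiLp.norm_apply_le x i

/-- Stein's identity. -/
theorem stein {F F' : Space n → ℝ} (i : Fin n) (hF : Differentiable ℝ F)
    (hF' : ∀ x, HasDerivAt (fun s : ℝ => F (x + s • ev i)) (F' x) 0) (hc' : Continuous F')
    (ht : Tame F) (ht' : Tame F') :
    ∫ x, x i * F x ∂gam n = ∫ x, F' x ∂gam n := by
  have hfd : ∀ x, fderiv ℝ F x (ev i) = F' x := by
    intro x
    have h1 : HasDerivAt (fun s : ℝ => x + s • ev i) (ev i) 0 := by
      simpa using ((hasDerivAt_id (0 : ℝ)).smul_const (ev i)).const_add x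
    have h2 := ((hF x).hasFDerivAt.comp_hasDerivAt_of_eq (0 : ℝ) h1 (by simp))
    exact h2.unique (hF' x)
  have hgd : ∀ x : Space n, HasFDerivAt gd ((-gd x) • innerSL ℝ x) x := by
    intro x
    have h := (((hasFDerivAt_id x).norm_sq.const_mul (-(1 / 2) : ℝ)).exp.const_mul
      ((√(2 * Real.pi))⁻¹ ^ n))
    refine h.congr_fderiv ?_
    ext v
    simp [gd, two_smul]
    ring
  have key := integral_mul_fderiv_eq_neg_fderiv_mul_of_integrable (μ := (volume : Measure (Space n)))
    (f := gd) (g := F) (v := ev i) ?_ ?_ ?_ (fun x _ => (hgd x).differentiableAt) (fun x _ => hF x)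
  · rw [integral_gam, integral_gam]
    simp only [hfd] at key
    rw [key, ← integral_neg]
    refine integral_congr_ae (ae_of_all _ fun x => ?_)
    simp [(hgd x).fderiv, EuclideanSpace.inner_single_right]
    ring
  · have := integrable_gam_iff.1
      ((ht.mul_norm fun x => abs_coord_le x i).integrable
        ((by fun_prop : Continuous fun x : Space n => x i).mul hF.continuous))
    refine this.neg.congr (ae_of_all _ fun x => ?_)
    simp [(hgd x).fderiv, EuclideanSpace.inner_single_right]
    ring
  · simp only [hfd]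
    exact integrable_gam_iff.1 (ht'.integrable hc')
  · exact integrable_gam_iff.1 (ht.integrable hF.continuous)

/-- The Laplace transform. -/
theorem gam_exp_inner (v : Space n) :
    ∫ x, Real.exp (inner ℝ v x) ∂gam n = Real.exp (‖v‖ ^ 2 / 2) := by
  have h := IsGaussian.map_eq_gaussianReal (μ := gam n) (innerSL ℝ v)
  rw [integral_strongDual_stdGaussian, variance_dual_stdGaussian] at h
  have hm := mgf_gaussianReal h 1
  simp only [mgf, one_mul, innerSL_apply_apply] at hm
  rw [hm, innerSL_apply_norm]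
  simp

/-- Rotations of a pair of independent standard vectors. -/
theorem map_rotation_gam (θ : ℝ) :
    ((gam n).prod (gam n)).map (ContinuousLinearMap.rotation θ) = (gam n).prod (gam n) :=
  IsGaussian.map_rotation_eq_self (by simp) θ

theorem slc_gam_ball {k : ℝ} (hk : 0 < (gam n).real (Metric.closedBall 0 k)) :
    IsSLC 1 (((gam n) (Metric.closedBall 0 k))⁻¹ • (gam n).restrict (Metric.closedBall 0 k)) := by
  set B := Metric.closedBall (0 : Space n) k with hB
  have hBm : MeasurableSet B := Metric.isClosed_closedBall.measurableSet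
  have h0 : (gam n) B ≠ 0 := fun h => by simp [measureReal_def, h] at hk
  have hT : (gam n) B ≠ ⊤ := measure_ne_top _ _
  set c := ((gam n) B)⁻¹ with hc
  refine ⟨⟨by simp [hc, ENNReal.inv_mul_cancel h0 hT]⟩,
    fun x => c * B.indicator (fun y => ENNReal.ofReal (gd y)) x, k, ?_, ?_, ?_, ?_⟩
  · exact (Measurable.indicator (by fun_prop) hBm).const_mul _
  · rw [gam_eq, restrict_withDensity hBm, ← withDensity_indicator hBm,
      ← withDensity_smul _ ((by fun_prop : Measurable fun x : Space n => ENNReal.ofReal (gd x)).indicator hBm)]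
    rfl
  · intro x hx
    simp [indicator_of_notMem (show x ∉ B by simpa [hB] using hx)]
  · intro l h0' h1 x y
    have h1' : 0 < 1 - l := by linarith
    rw [ENNReal.mul_rpow_of_nonneg _ _ h1'.le, ENNReal.mul_rpow_of_nonneg _ _ h0'.le]
    by_cases hx : x ∈ B
    · by_cases hy : y ∈ B
      · have hz : (1 - l) • x + l • y ∈ B := convex_closedBall 0 k hx hy h1'.le h0'.le (by ring)
        beta_reduce
        rw [indicator_of_mem hx, indicator_of_mem hy, indicator_of_mem hz,
          ENNReal.ofReal_rpow_of_pos (gd_pos x), ENNReal.ofReal_rpow_of_pos (gd_pos y)]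
        have e : gd x ^ (1 - l) * gd y ^ l * Real.exp (1 * l * (1 - l) * ‖x - y‖ ^ 2 / 2)
            = gd ((1 - l) • x + l • y) := by
          have hK : 0 < (√(2 * Real.pi))⁻¹ ^ n := by positivity
          have hker := ker_combo 1 (0 : Space n) l x y
          simp only [ker, inner_zero_left] at hker
          simp only [gd]
          rw [← Real.exp_log hK]
          simp only [← Real.exp_add, ← Real.exp_mul]
          congr 1
          linear_combination -hker
        calc c ^ (1 - l) * ENNReal.ofReal (gd x ^ (1 - l)) * (c ^ l * ENNReal.ofReal (gd y ^ l))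
              * ENNReal.ofReal (Real.exp (1 * l * (1 - l) * ‖x - y‖ ^ 2 / 2))
            = c ^ (1 - l) * c ^ l * (ENNReal.ofReal (gd x ^ (1 - l)) * ENNReal.ofReal (gd y ^ l)
              * ENNReal.ofReal (Real.exp (1 * l * (1 - l) * ‖x - y‖ ^ 2 / 2))) := by ring
          _ ≤ _ := by
            rw [← ENNReal.rpow_add_of_nonneg _ _ h1'.le h0'.le, sub_add_cancel, ENNReal.rpow_one,
              ← ENNReal.ofReal_mul (Real.rpow_nonneg (gd_pos x).le _),
              ← ENNReal.ofReal_mul (mul_nonneg (Real.rpow_nonneg (gd_pos x).le _)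
                (Real.rpow_nonneg (gd_pos y).le _)), e]
      · simp [indicator_of_notMem hy, ENNReal.zero_rpow_of_pos h0']
    · simp [indicator_of_notMem hx, ENNReal.zero_rpow_of_pos h1']

/-- The Gaussian logarithmic Sobolev inequality, exponential form. -/
theorem gam_lsi_exp {φ : Space n → ℝ} (hφ : ContDiff ℝ 2 φ) {A B : ℝ}
    (hb : ∀ x, |φ x| ≤ A + B * ‖x‖) (hd : ∀ x, ‖fderiv ℝ φ x‖ ≤ B) :
    ent (gam n) (fun x => Real.exp (φ x))
      ≤ 1 / 2 * ∫ x, ‖fderiv ℝ φ x‖ ^ 2 * Real.exp (φ x) ∂gam n := by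
  have hφc := hφ.continuous
  have hdc := hφ.continuous_fderiv (by norm_num)
  have hB : 0 ≤ B := (norm_nonneg _).trans (hd 0)
  have hA : 0 ≤ A := by have := (abs_nonneg _).trans (hb 0); simpa using this
  have he : ∀ x, Real.exp (φ x) ≤ Real.exp A * Real.exp (B * ‖x‖) := fun x => by
    rw [← Real.exp_add]; exact Real.exp_le_exp.2 ((le_abs_self _).trans (hb x))
  have hd2c : Continuous fun x => ‖fderiv ℝ φ x‖ ^ 2 * Real.exp (φ x) := by fun_prop
  have t1 : Integrable (fun x => Real.exp (φ x)) (gam n) :=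
    Tame.integrable ⟨Real.exp A, B, fun x => by rw [abs_of_pos (Real.exp_pos _)]; exact he x⟩
      (by fun_prop)
  have t2 : Integrable (fun x => φ x * Real.exp (φ x)) (gam n) := by
    refine Tame.integrable ⟨Real.exp A * Real.exp A, B + B, fun x => ?_⟩ (by fun_prop)
    rw [abs_mul, abs_of_pos (Real.exp_pos _), add_mul, Real.exp_add]
    calc |φ x| * Real.exp (φ x)
        ≤ (Real.exp A * Real.exp (B * ‖x‖)) * (Real.exp A * Real.exp (B * ‖x‖)) := by
          refine mul_le_mul ?_ (he x) (Real.exp_pos _).le (by positivity)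
          rw [← Real.exp_add]
          exact ((hb x).trans (le_add_of_nonneg_right zero_le_one)).trans (Real.add_one_le_exp _)
      _ = _ := by ring
  have t3 : Integrable (fun x => ‖fderiv ℝ φ x‖ ^ 2 * Real.exp (φ x)) (gam n) :=
    Tame.integrable ⟨B ^ 2 * Real.exp A, B, fun x => by
      rw [abs_of_nonneg (by positivity), mul_assoc]
      exact mul_le_mul (pow_le_pow_left₀ (norm_nonneg _) (hd x) 2) (he x) (Real.exp_pos _).le
        (sq_nonneg B)⟩ hd2c
  set s : ℕ → Set (Space n) := fun k => Metric.closedBall 0 k with hs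
  have hsm : ∀ k, MeasurableSet (s k) := fun k => Metric.isClosed_closedBall.measurableSet
  have hmono : Monotone s := fun i j h => Metric.closedBall_subset_closedBall (Nat.cast_le.2 h)
  have hU : (⋃ k, s k) = univ := eq_univ_of_forall fun x => by
    simp only [mem_iUnion, hs, mem_closedBall_zero_iff]; exact exists_nat_ge _
  have hlim : ∀ u : Space n → ℝ, Integrable u (gam n) →
      Tendsto (fun k => ∫ x in s k, u x ∂gam n) atTop (𝓝 (∫ x, u x ∂gam n)) := by
    intro u hu
    have := tendsto_setIntegral_of_monotone hsm hmono hu.integrableOn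
    rwa [hU, setIntegral_univ] at this
  have hP : Tendsto (fun k => (gam n).real (s k)) atTop (𝓝 1) := by
    simpa using hlim (fun _ => (1 : ℝ)) (integrable_const 1)
  have hdiv : ∀ u : Space n → ℝ, Integrable u (gam n) →
      Tendsto (fun k => ∫ x, u x ∂(((gam n) (s k))⁻¹ • (gam n).restrict (s k))) atTop
        (𝓝 (∫ x, u x ∂gam n)) := by
    intro u hu
    simp only [integral_smul_measure, ENNReal.toReal_inv, smul_eq_mul]
    simpa [measureReal_def] using (hP.inv₀ one_ne_zero).mul (hlim u hu)
  refine le_of_tendsto_of_tendsto ((?_ : Tendsto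
    (fun k => ent (((gam n) (s k))⁻¹ • (gam n).restrict (s k)) (fun x => Real.exp (φ x))) atTop _))
    ((hdiv _ t3).const_mul (1 / 2)) ?_
  · simp only [ent, Real.log_exp, mul_comm (Real.exp (φ _)) (φ _)]
    exact (hdiv _ t2).sub ((hdiv _ t1).mul ((Real.continuousAt_log
      (integral_exp_pos t1).ne').tendsto.comp (hdiv _ t1)))
  · filter_upwards [hP.eventually (Ioi_mem_nhds (show (1 / 2 : ℝ) < 1 by norm_num))] with k hk
    have := (slc_gam_ball (n := n) (k := (k : ℝ))
      (lt_trans one_half_pos (show 1 / 2 < _ from hk))).lsi_exp one_pos hφ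
    simpa using this

end Vale.Agent.P245
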