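import Vale.Agent.P245.Pins
import Vale.Agent.P245.Tensor

/-!
Bounds on the gradient of a tilted mean of a function with values in the unit interval.
-/

noncomputable section

open MeasureTheory Set Filter Topology
open scoped ENNReal

namespace Vale.Agent.P245

variable {n : ℕ} {μ : Measure (Space n)} {R : ℝ}

/-- The gradient of a tilted mean, as a covariance with a linear form. -/
theorem grad2_eq_cov (hμ : Car μ R) {φ : Space n → ℝ} (hφ : Continuous φ) (p : Par n) :
    ∃ v : Space n, ‖v‖ ^ 2 = grad2 (Jet.mom μ φ) p ∧ grad2 (Jet.mom μ φ) p =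
      ∫ x, φ x * (inner ℝ v x - ∫ y, inner ℝ v y ∂tlt μ p) ∂tlt μ p := by
  set v : Space n := WithLp.toLp 2 fun i => (Jet.mom μ φ).d i p with hv
  have hvi : ∀ i, v i = (Jet.mom μ φ).d i p := fun i => rfl
  have hν := hμ.tlt p
  have hi : ∀ u : Space n → ℝ, Continuous u → Integrable u (tlt μ p) := fun u hu =>
    hν.integrable (adm_continuous hu R)
  refine ⟨v, ?_, ?_⟩
  · rw [EuclideanSpace.norm_sq_eq, grad2]
    exact Finset.sum_congr rfl fun i _ => by rw [hvi, Real.norm_eq_abs, sq_abs]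
  · have e : ∀ x : Space n, inner ℝ v x = ∑ i, v i * x i := fun x => by
      simp [PiLp.inner_apply, mul_comm]
    have h1 : ∫ y, inner ℝ v y ∂tlt μ p = ∑ i, v i * bar μ i p := by
      simp only [e]
      rw [integral_finsetSum _ fun i _ => hi _ (by fun_prop)]
      exact Finset.sum_congr rfl fun i _ => by rw [integral_const_mul, bar, M_eq]
    have h2 : ∫ x, φ x * inner ℝ v x ∂tlt μ p = ∑ i, v i * M μ (fun x => φ x * x i) p := by
      simp only [e, Finset.mul_sum, mul_left_comm (φ _)]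
      rw [integral_finsetSum _ fun i _ => hi _ (by fun_prop)]
      exact Finset.sum_congr rfl fun i _ => by rw [integral_const_mul, M_eq]
    simp only [mul_sub]
    rw [integral_sub (hi _ (by fun_prop)) (hi _ (by fun_prop)), integral_mul_const, h2, h1, ← M_eq,
      Finset.mul_sum, ← Finset.sum_sub_distrib, grad2]
    refine Finset.sum_congr rfl fun i _ => ?_
    rw [hvi]
    simp only [Jet.mom]
    ring

/-- The covariance with a unit-interval valued function, by Cauchy and Schwarz. -/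
theorem cov_unit_le_sq {ν : Measure (Space n)} (hν : Car ν R) {φ Y : Space n → ℝ} (hφ : Continuous φ)
    (hY : Continuous Y) (h0 : ∀ x, 0 ≤ φ x) (h1 : ∀ x, φ x ≤ 1) :
    (∫ x, φ x * Y x ∂ν) ^ 2 ≤ (∫ x, φ x ∂ν) * ∫ x, Y x ^ 2 ∂ν := by
  have := hν.prob
  have hi : ∀ u : Space n → ℝ, Continuous u → Integrable u ν := fun u hu =>
    hν.integrable (adm_continuous hu R)
  refine le_trans (cs_sq hν hφ hY) (mul_le_mul_of_nonneg_right ?_ (integral_nonneg fun x => sq_nonneg _))
  exact integral_mono (hi _ (by fun_prop)) (hi _ hφ) fun x => by nlinarith [h0 x, h1 x]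

/-- The covariance with a unit-interval valued function, by exponential tails. -/
theorem cov_unit_le_log {τ : ℝ} {ν : Measure (Space n)} (h : IsSLC τ ν) (hτ : 0 ≤ τ)
    {φ : Space n → ℝ} (hφ : Continuous φ) (h0 : ∀ x, 0 ≤ φ x) (h1 : ∀ x, φ x ≤ 1) (v : Space n) :
    |∫ x, φ x * (inner ℝ v x - ∫ y, inner ℝ v y ∂ν) ∂ν| ≤
      40 * √(var ν fun x => inner ℝ v x) * ((∫ x, φ x ∂ν) * Real.log (2 / ∫ x, φ x ∂ν)) := by
  have := h.prob
  obtain ⟨R, hν⟩ := h.car
  have hi : ∀ u : Space n → ℝ, Continuous u → Integrable u ν := fun u hu =>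
    hν.integrable (adm_continuous hu R)
  set c := ∫ y, y ∂ν with hc
  have hm : ∫ y, inner ℝ v y ∂ν = inner ℝ v c :=
    integral_inner (f := fun y : Space n => y) (h.integrable (by fun_prop)) v
  set N : Space n → ℝ := fun x => ‖innerSL ℝ v (x - c)‖ with hN
  have hNeq : ∀ x, N x = |inner ℝ v x - ∫ y, inner ℝ v y ∂ν| := fun x => by
    simp [hN, hm, Real.norm_eq_abs, inner_sub_right]
  have hb := (h.borell hτ (N := N) (by simp only [hN]; fun_prop) (fun x => norm_nonneg _)
    fun x y a ha ha' => norm_affine_reverse (innerSL ℝ v) c x y a ha ha').1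
  have hS : ∫ y, N y ^ 2 ∂ν = var ν fun x => inner ℝ v x := by
    simp only [var, hNeq, sq_abs]
  rw [hS] at hb
  set s := √(var ν fun x => inner ℝ v x) with hs
  set F := ∫ x, φ x ∂ν with hF
  have hF0 : 0 ≤ F := integral_nonneg h0
  have habs : |∫ x, φ x * (inner ℝ v x - ∫ y, inner ℝ v y ∂ν) ∂ν| ≤ ∫ x, φ x * N x ∂ν :=
    abs_integral_le_integral_abs.trans_eq (integral_congr_ae (ae_of_all _ fun x => by
      simp only [abs_mul, abs_of_nonneg (h0 x), hNeq]))
  refine habs.trans ?_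
  rcases (Real.sqrt_nonneg (var ν fun x => inner ℝ v x)).eq_or_lt with hz | hpos
  · rw [← hs] at hz
    rw [← hz]
    simp only [mul_zero, zero_mul]
    have hvz : ∫ y, N y ^ 2 ∂ν = 0 := by
      rw [hS]
      exact le_antisymm (Real.sqrt_eq_zero'.1 (hs ▸ hz.symm))
        (integral_nonneg fun x => sq_nonneg _)
    have hae := (integral_eq_zero_iff_of_nonneg (fun x => sq_nonneg (N x))
      (hi _ (by simp only [hN]; fun_prop))).1 hvz
    exact le_of_eq (integral_eq_zero_of_ae (hae.mono fun x hx => by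
      simp [show N x = 0 by simpa using hx]))
  rcases hF0.eq_or_lt with hFz | hFp
  · rw [← hFz, zero_mul, mul_zero]
    have hae := (integral_eq_zero_iff_of_nonneg h0 (hi _ hφ)).1 (hF ▸ hFz.symm)
    exact le_of_eq (integral_eq_zero_of_ae (hae.mono fun x hx => by simp [show φ x = 0 from hx]))
  set l := 2 / F with hl
  have hl0 : 0 < l := by positivity
  have hpt : ∀ x, φ x * (N x / (40 * s)) ≤
      φ x * (Real.log l - 1) + Real.exp (N x / (40 * s)) / l := by
    intro x
    have h2 := Real.add_one_le_exp (N x / (40 * s) - Real.log l)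
    rw [Real.exp_sub, Real.exp_log hl0] at h2
    have h3 : 0 ≤ Real.exp (N x / (40 * s)) / l := by positivity
    nlinarith [mul_le_mul_of_nonneg_left h2 (h0 x), h1 x]
  have hNc : Continuous N := by simp only [hN]; fun_prop
  have h4 := integral_mono (hi (fun x => φ x * (N x / (40 * s))) (by fun_prop)) (hi _ (by fun_prop)) hpt
  rw [integral_add (hi _ (by fun_prop)) (hi _ (by fun_prop)), integral_mul_const, integral_div,
    ← hF] at h4
  have h5 : ∫ x, φ x * (N x / (40 * s)) ∂ν = (∫ x, φ x * N x ∂ν) / (40 * s) := by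
    rw [← integral_div]; exact integral_congr_ae (ae_of_all _ fun x => by ring)
  have h6 : (∫ x, Real.exp (N x / (40 * s)) ∂ν) / l ≤ F := by
    rw [div_le_iff₀ hl0, hl, mul_div_cancel₀ _ hFp.ne']; exact hb
  rw [h5, div_le_iff₀ (by positivity)] at h4
  calc ∫ x, φ x * N x ∂ν ≤ _ := h4
    _ ≤ (F * (Real.log l - 1) + F) * (40 * s) :=
        mul_le_mul_of_nonneg_right (by linarith) (by positivity)
    _ = _ := by rw [hl]; ring

/-- A variance bound on linear forms of the tilt bounds the gradient by the mean. -/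
theorem grad2_le_mean (hμ : Car μ R) {φ : Space n → ℝ} (hφ : Continuous φ) (h0 : ∀ x, 0 ≤ φ x)
    (h1 : ∀ x, φ x ≤ 1) {p : Par n} {V : ℝ} (hV : 0 ≤ V)
    (hvar : ∀ θ : Space n, var (tlt μ p) (fun x => inner ℝ θ x) ≤ V * ‖θ‖ ^ 2) :
    grad2 (Jet.mom μ φ) p ≤ V * M μ φ p := by
  obtain ⟨v, hv, hc⟩ := grad2_eq_cov hμ hφ p
  set G := grad2 (Jet.mom μ φ) p
  have hG0 : 0 ≤ G := hv ▸ sq_nonneg _
  have hF0 : 0 ≤ M μ φ p := by rw [M_eq]; exact integral_nonneg h0
  have h2 : G ^ 2 ≤ M μ φ p * (V * G) := by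
    rw [← hv, M_eq]
    nth_rewrite 1 [hv]
    rw [hc]
    refine (cov_unit_le_sq (hμ.tlt p) hφ (by fun_prop) h0 h1).trans ?_
    exact mul_le_mul_of_nonneg_left (hvar v) (integral_nonneg h0)
  rcases hG0.eq_or_lt with hz | hp
  · rw [← hz]; positivity
  · exact le_of_mul_le_mul_right (by linarith [h2, sq G, mul_left_comm (M μ φ p) V G]) hp

/-- A variance bound on linear forms of the tilt bounds the gradient by the logarithmic mean. -/
theorem grad2_le_log {τ : ℝ} (hμ : IsSLC τ μ) (hR : Car μ R) {φ : Space n → ℝ} (hφ : Continuous φ)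
    (h0 : ∀ x, 0 ≤ φ x) (h1 : ∀ x, φ x ≤ 1) {p : Par n} (hp : 0 ≤ τ + p.1) {V : ℝ} (hV : 0 ≤ V)
    (hvar : ∀ θ : Space n, var (tlt μ p) (fun x => inner ℝ θ x) ≤ V * ‖θ‖ ^ 2) :
    grad2 (Jet.mom μ φ) p ≤ 1600 * V * (M μ φ p * Real.log (2 / M μ φ p)) ^ 2 := by
  obtain ⟨v, hv, hc⟩ := grad2_eq_cov hR hφ p
  have h2 := cov_unit_le_log (hμ.tlt p) hp hφ h0 h1 v
  rw [← hc, ← M_eq, ← hv, abs_of_nonneg (sq_nonneg _)] at h2
  set E := M μ φ p * Real.log (2 / M μ φ p) with hE
  have hs : √(var (tlt μ p) fun x => inner ℝ v x) ≤ √V * ‖v‖ := by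
    refine (Real.sqrt_le_sqrt (hvar v)).trans_eq ?_
    rw [Real.sqrt_mul hV, Real.sqrt_sq (norm_nonneg v)]
  rw [← hv]
  rcases (norm_nonneg v).eq_or_lt with hz | hpv
  · rw [← hz, zero_pow two_ne_zero]; positivity
  have hE0 : 0 ≤ E := by
    by_contra hn
    nlinarith [mul_nonpos_of_nonneg_of_nonpos (show 0 ≤ 40 * √(var (tlt μ p) fun x => inner ℝ v x) by
      positivity) (not_le.1 hn).le]
  have h3 : ‖v‖ * ‖v‖ ≤ 40 * √V * E * ‖v‖ := by
    rw [← sq]
    exact h2.trans_eq' rfl |>.trans (by nlinarith [mul_le_mul_of_nonneg_right hs hE0])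
  have h4 := le_of_mul_le_mul_right h3 hpv
  calc ‖v‖ ^ 2 ≤ (40 * √V * E) ^ 2 := pow_le_pow_left₀ hpv.le h4 2
    _ = _ := by rw [mul_pow, mul_pow, Real.sq_sqrt hV]; ring

end Vale.Agent.P245
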