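import Vale.Agent.P245.Channel
import Vale.Agent.P245.Borell

/-!
Statements shared between the blocks of the proof.
-/

noncomputable section

open MeasureTheory Set Filter Topology
open scoped ENNReal

namespace Vale.Agent.P245

variable {n : ℕ}

theorem IsSLC.tlt {τ : ℝ} {μ : Measure (Space n)} (h : IsSLC τ μ) (p : Par n) :
    IsSLC (τ + p.1) (tlt μ p) := h.tilt p.1 p.2

/-- With exponentially high probability the covariance of the tilt at time `t` has operator norm at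
most `ρ n ^ (1/q)`: the weight `w` dominates the exceptional event. -/
def PotentialTail (q : ℕ) : Prop :=
  ∀ Λ : ℝ, 1 ≤ Λ → ∃ ρ c : ℝ, 1 ≤ ρ ∧ 0 < c ∧ c ≤ 1 ∧
    ∀ (n : ℕ) (μ : Measure (Space n)) (R : ℝ), 1 ≤ n → IsSLC 0 μ → Sub1 μ → Car μ R →
      ∀ t : ℝ, 0 < t → t * (n : ℝ) ^ ((q : ℝ)⁻¹) ≤ c →
        ∃ w : Par n → ℝ, Obs w ∧ (∀ p, 0 ≤ w p) ∧
          (∀ p, w p < 1 → ∀ θ : Space n,
            var (tlt μ p) (fun x => inner ℝ θ x) ≤ ρ * (n : ℝ) ^ ((q : ℝ)⁻¹) * ‖θ‖ ^ 2) ∧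
          Et μ t w ≤ Real.exp (-(Λ * c / (t * (n : ℝ) ^ ((q : ℝ)⁻¹))))

/-- A Poincare inequality with constant of order `n ^ (1/q)`. -/
def PoincareBound (q : ℕ) : Prop :=
  ∃ C : ℝ, 0 < C ∧ ∀ (n : ℕ) (μ : Measure (Space n)), 1 ≤ n → IsSLC 0 μ → Sub1 μ →
    ∀ f : Space n → ℝ, ContDiff ℝ 2 f → var μ f ≤ C * (n : ℝ) ^ ((q : ℝ)⁻¹) * dir μ f

/-- The defective logarithmic Sobolev inequality. -/
def DefectiveBound : Prop :=
  ∃ C : ℝ, 1 ≤ C ∧ ∀ (n : ℕ) (μ : Measure (Space n)), 1 ≤ n → IsSLC 0 μ → Sub1 μ →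
    ∀ t : ℝ, 0 < t → C * t ≤ 1 → ∀ f : Space n → ℝ, ContDiff ℝ 2 f →
      ent μ (fun x => f x ^ 2) ≤ C / t * dir μ f + C * t ^ 2 * n * ∫ x, f x ^ 2 ∂μ

/-- The compactly supported core of the main theorem, with exponent `β`. -/
def CoreBound (β : ℝ) : Prop :=
  ∃ C : ℝ, 0 < C ∧ ∀ (n : ℕ) (μ : Measure (Space n)), 1 ≤ n → IsSLC 0 μ → Sub1 μ →
    ∀ f : Space n → ℝ, ContDiff ℝ 2 f →
      ent μ (fun x => f x ^ 2) ≤ C * (n : ℝ) ^ β * dir μ f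

end Vale.Agent.P245
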