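import Vale.Agent.P245.QuadFacts
import Vale.Agent.P245.Pins

/-!
Growth of the smoothed exceedance probability of the trace potential.
-/

noncomputable section

open MeasureTheory Set Filter Topology Matrix

namespace Vale.Agent.P245

variable {n : ℕ} {μ : Measure (Space n)} {R : ℝ}

/-- The quadratic bound available on tilts at positive times. -/
def PotHyp (μ : Measure (Space n)) (q : ℕ) (r K : ℝ) : Prop :=
  ∀ p : Par n, 0 < p.1 → ∀ r', r ≤ r' → pot μ q p ≤ n * r' ^ q → QBound (tlt μ p) (K * r')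

theorem ratioJet_funext (hμ : Car μ R) (q : ℕ) (S : ℝ) (P : ℕ) :
    (ratioJet μ q S P).v = fun p => ratio μ q S p ^ (P + 2) :=
  funext fun p => ratioJet_v hμ q S P p

theorem obs_ratio (hμ : Car μ R) (q : ℕ) {S : ℝ} (hS : 0 < S) : Obs (ratio (n := n) μ q S) := by
  have hp : Obs (pot (n := n) μ q) := by
    have e : (potJet μ q).v = pot μ q := funext (potJet_v hμ q)
    exact e ▸ (potJet_valid hμ q).ov
  refine ⟨hp.1.div (continuous_const.add hp.1) fun p => ?_, 1, fun p => ?_⟩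
  · exact (add_pos_of_pos_of_nonneg hS (pot_nonneg hμ q p)).ne'
  · obtain ⟨h0, h1⟩ := ratio_mem hμ q hS p
    rwa [abs_of_nonneg h0]

theorem half_le_ratio (hμ : Car μ R) (q : ℕ) {S : ℝ} (hS : 0 < S) {p : Par n}
    (h : S < pot μ q p) : 1 / 2 ≤ ratio μ q S p := by
  rw [ratio, le_div_iff₀ (by linarith [pot_nonneg hμ q p])]
  linarith

theorem one_le_weight (hμ : Car μ R) (q : ℕ) {S : ℝ} (hS : 0 < S) {p : Par n}
    (h : S < pot μ q p) (N : ℕ) : 1 ≤ (2 * ratio μ q S p) ^ N :=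
  one_le_pow₀ (by linarith [half_le_ratio hμ q hS h])

theorem rpow_root_le {q : ℕ} (hq : q ≠ 0) (hn : 1 ≤ n) {x ρ : ℝ} (hx : 0 ≤ x) (hρ : 0 ≤ ρ)
    (h : x ≤ n * ρ ^ q) : x ^ ((q : ℝ)⁻¹) ≤ (n : ℝ) ^ ((q : ℝ)⁻¹) * ρ := by
  have hn0 : (0 : ℝ) ≤ n := n.cast_nonneg
  refine (Real.rpow_le_rpow hx h (by positivity)).trans_eq ?_
  rw [Real.mul_rpow hn0 (by positivity), Real.pow_rpow_inv_natCast hρ hq]

/-- Growth while the quadratic bound is available. -/
theorem growth_slow (hμ : Car μ R) (hn : 1 ≤ n) {q : ℕ} (hq : 3 ≤ q) {r ρ K : ℝ} (hr : 0 < r)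
    (hrρ : r ≤ ρ) (hK : 0 ≤ K) (hyp : PotHyp μ q r K) (h0 : pot μ q 0 ≤ n * r ^ q) (P : ℕ)
    {t : ℝ} (ht : 0 ≤ t) :
    Et μ t (fun p => ratio μ q (n * ρ ^ q) p ^ (P + 2))
      ≤ (r / ρ) ^ (q * (P + 2))
        * Real.exp (16 * ((P : ℝ) + 2) ^ 2 * (q : ℝ) ^ 2 * (K * ρ) * t) := by
  have hρ : 0 < ρ := hr.trans_le hrρ
  have hn0 : (0 : ℝ) < n := by exact_mod_cast hn
  set S : ℝ := n * ρ ^ q with hSdef
  have hS : 0 < S := by positivity
  set k : ℝ := 16 * ((P : ℝ) + 2) ^ 2 * (q : ℝ) ^ 2 * (K * ρ) with hk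
  have hJ := ratioJet_valid (n := n) hμ q hS P
  have hk' : ∀ s ∈ Ioo 0 t, HasDerivAt (fun s : ℝ => k * s) k s := fun s _ => by
    simpa using (hasDerivAt_id s).const_mul k
  have hdrift : ∀ p : Par n, 0 < p.1 →
      Lop μ (ratioJet μ q S P) p ≤ k * ratio μ q S p ^ (P + 2) := by
    intro p hp
    set x := pot μ q p with hx
    have hx0 : 0 ≤ x := pot_nonneg hμ q p
    set r' := max r ((x / n) ^ ((q : ℝ)⁻¹)) with hr'
    have hr'0 : 0 ≤ r' := hr.le.trans (le_max_left _ _)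
    have hxn : x ≤ n * r' ^ q := by
      have h1 : ((x / n) ^ ((q : ℝ)⁻¹)) ^ q ≤ r' ^ q :=
        pow_le_pow_left₀ (by positivity) (le_max_right _ _) q
      rw [Real.rpow_inv_natCast_pow (by positivity) (by omega), div_le_iff₀ hn0] at h1
      linarith
    refine (Lop_ratio_le hμ hq hS P p (mul_nonneg hK hr'0)
      (hyp p hp r' (le_max_left _ _) hxn)).trans ?_
    refine mul_le_mul_of_nonneg_right (mul_le_mul_of_nonneg_left ?_ (by positivity))
      (pow_nonneg (ratio_mem hμ q hS p).1 _)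
    rw [div_le_iff₀ (by linarith)]
    have hroot : (x / n) ^ ((q : ℝ)⁻¹) ≤ ρ * (1 + x / S) := by
      have h2 : x / n ≤ (ρ * (1 + x / S)) ^ q := by
        rw [mul_pow, div_le_iff₀ hn0]
        calc x ≤ S * (1 + x / S) := by rw [mul_add, mul_div_cancel₀ _ hS.ne']; linarith
          _ ≤ S * (1 + x / S) ^ q := by
              refine mul_le_mul_of_nonneg_left (le_self_pow₀ ?_ (by omega)) hS.le
              linarith [div_nonneg hx0 hS.le]
          _ = _ := by rw [hSdef]; ring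
      exact (Real.rpow_le_rpow (by positivity) h2 (by positivity)).trans_eq
        (Real.pow_rpow_inv_natCast (by positivity) (by omega))
    have hr'ρ : r' ≤ ρ * (1 + x / S) := by
      refine max_le (hrρ.trans ?_) hroot
      exact le_mul_of_one_le_right hρ.le (le_add_of_nonneg_right (div_nonneg hx0 hS.le))
    calc K * r' * S ≤ K * (ρ * (1 + x / S)) * S :=
          mul_le_mul_of_nonneg_right (mul_le_mul_of_nonneg_left hr'ρ hK) hS.le
      _ = K * ρ * (S + x) := by field_simp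
  have hmain := Et_le_exp hμ hJ le_rfl ht (K := fun s => k * s) (k := fun _ => k)
    (by fun_prop) hk' fun s hs => by
    rw [← Et_smul, ratioJet_funext hμ]
    exact Et_mono hμ (hJ.obs_Lop hμ) ((Obs.const k).mul ((obs_ratio hμ q hS).pow _)) s
      fun g => hdrift _ hs.1
  rw [ratioJet_funext hμ, Et_zero hμ] at hmain
  simp only [mul_zero, sub_zero] at hmain
  refine hmain.trans (mul_le_mul_of_nonneg_right ?_ (Real.exp_pos _).le)
  rw [pow_mul]
  refine pow_le_pow_left₀ (ratio_mem hμ q hS 0).1 ?_ _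
  have hp0 := pot_nonneg hμ q (0 : Par n)
  calc ratio μ q S 0 ≤ n * r ^ q / S :=
        div_le_div₀ (by positivity) h0 hS (by linarith)
    _ = (r / ρ) ^ q := by rw [hSdef, div_pow]; field_simp

/-- Growth from the Brascamp-Lieb bound alone. -/
theorem growth_fast {τ : ℝ} (h : IsSLC τ μ) (hτ : 0 ≤ τ) (hμ : Car μ R) {q : ℕ} (hq : 3 ≤ q)
    {S : ℝ} (hS : 0 < S) (P : ℕ) {a b : ℝ} (ha : 0 < a) (hab : a ≤ b) :
    Et μ b (fun p => ratio μ q S p ^ (P + 2))
      ≤ Et μ a (fun p => ratio μ q S p ^ (P + 2))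
        * Real.exp (32 * ((P : ℝ) + 2) ^ 2 * (q : ℝ) ^ 2 * (Real.log b - Real.log a)) := by
  set C : ℝ := 32 * ((P : ℝ) + 2) ^ 2 * (q : ℝ) ^ 2 with hC
  have hJ := ratioJet_valid (n := n) hμ q hS P
  have hd : ∀ s ∈ Ioo a b, HasDerivAt (fun s => C * Real.log s) (C / s) s := fun s hs =>
    ((Real.hasDerivAt_log (ha.trans hs.1).ne').const_mul C).congr_deriv (div_eq_mul_inv _ _).symm
  have hc : ContinuousOn (fun s => C * Real.log s) (Icc a b) :=
    continuousOn_const.mul (Real.continuousOn_log.mono fun s hs => (ha.trans_le hs.1).ne')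
  have hmain := Et_le_exp hμ hJ ha.le hab hc hd fun s hs => by
    have hs0 : 0 < s := ha.trans hs.1
    rw [← Et_smul, ratioJet_funext hμ]
    refine Et_mono hμ (hJ.obs_Lop hμ) ((Obs.const _).mul ((obs_ratio hμ q hS).pow _)) s fun g => ?_
    set p : Par n := (s, √s • g)
    have hQ : QBound (tlt μ p) (2 / s) :=
      ((h.tlt p).qbound (by show 0 < τ + s; linarith)).mono
        (div_le_div_of_nonneg_left two_pos.le hs0 (by show s ≤ τ + s; linarith))
    refine (Lop_ratio_le hμ hq hS P p (by positivity) hQ).trans ?_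
    refine mul_le_mul_of_nonneg_right ?_ (pow_nonneg (ratio_mem hμ q hS p).1 _)
    have hp0 := pot_nonneg hμ q p
    calc 16 * ((P : ℝ) + 2) ^ 2 * (q : ℝ) ^ 2 * (2 / s * S / (S + pot μ q p))
        ≤ 16 * ((P : ℝ) + 2) ^ 2 * (q : ℝ) ^ 2 * (2 / s) := by
          refine mul_le_mul_of_nonneg_left ?_ (by positivity)
          rw [div_le_iff₀ (by linarith)]
          exact mul_le_mul_of_nonneg_left (by linarith) (by positivity)
      _ = C / s := by rw [hC]; ring
  rw [ratioJet_funext hμ] at hmain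
  refine hmain.trans_eq ?_
  rw [mul_sub]

end Vale.Agent.P245
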