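import Vale.Agent.P245.Moments

/-!
Jets of observables on the parameter space, the drift operator of the channel and its calculus
rules.
-/

noncomputable section

open MeasureTheory Set Filter Topology
open scoped ENNReal

namespace Vale.Agent.P245

variable {n : ℕ} {μ : Measure (Space n)} {R : ℝ}

/-- The time direction. -/
abbrev et (n : ℕ) : Par n := ((1 : ℝ), (0 : Space n))

/-- The `i`th spatial direction. -/
abbrev ex (i : Fin n) : Par n := ((0 : ℝ), ev i)

/-- An observable with the derivatives entering the drift. -/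
structure Jet (n : ℕ) where
  v : Par n → ℝ
  dt : Par n → ℝ
  d : Fin n → Par n → ℝ
  dd : Fin n → Par n → ℝ

/-- Bounded continuous functions. -/
def Obs (G : Par n → ℝ) : Prop := Continuous G ∧ ∃ C, ∀ p, |G p| ≤ C

namespace Obs

variable {F G : Par n → ℝ}

theorem const (c : ℝ) : Obs (fun _ : Par n => c) := ⟨continuous_const, |c|, fun _ => le_rfl⟩

theorem add (hF : Obs F) (hG : Obs G) : Obs fun p => F p + G p :=
  let ⟨hc, C, hC⟩ := hF
  let ⟨hc', C', hC'⟩ := hG
  ⟨hc.add hc', C + C', fun p => (abs_add_le _ _).trans (add_le_add (hC p) (hC' p))⟩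

theorem mul (hF : Obs F) (hG : Obs G) : Obs fun p => F p * G p := by
  obtain ⟨hc, C, hC⟩ := hF
  obtain ⟨hc', C', hC'⟩ := hG
  refine ⟨hc.mul hc', C * C', fun p => ?_⟩
  rw [abs_mul]
  exact mul_le_mul (hC p) (hC' p) (abs_nonneg _) ((abs_nonneg _).trans (hC p))

theorem neg (hF : Obs F) : Obs fun p => -F p :=
  let ⟨hc, C, hC⟩ := hF; ⟨hc.neg, C, fun p => by rw [abs_neg]; exact hC p⟩

theorem sub (hF : Obs F) (hG : Obs G) : Obs fun p => F p - G p := by
  simp only [sub_eq_add_neg]; exact hF.add hG.neg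

theorem pow (hF : Obs F) (k : ℕ) : Obs fun p => F p ^ k := by
  induction k with
  | zero => simpa using const 1
  | succ k ih => simpa [pow_succ] using ih.mul hF

theorem sum {ι : Type*} (s : Finset ι) {f : ι → Par n → ℝ} (h : ∀ i ∈ s, Obs (f i)) :
    Obs fun p => ∑ i ∈ s, f i p := by
  classical
  induction s using Finset.induction with
  | empty => simpa using const 0
  | @insert a s ha ih =>
    simp only [Finset.sum_insert ha]
    exact (h a (Finset.mem_insert_self a s)).add (ih fun i hi => h i (Finset.mem_insert_of_mem hi))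

theorem comp (hF : Obs F) {g : ℝ → ℝ} {s : Set ℝ} (hs : ∀ C, (∀ p, |F p| ≤ C) → ∃ K,
    IsCompact K ∧ K ⊆ s ∧ ∀ p, F p ∈ K) (hg : ContinuousOn g s) : Obs fun p => g (F p) := by
  obtain ⟨hc, C, hC⟩ := hF
  obtain ⟨K, hK, hKs, hmem⟩ := hs C hC
  obtain ⟨D, hD⟩ := hK.exists_bound_of_continuousOn (hg.mono hKs)
  exact ⟨hg.comp_continuous hc fun p => hKs (hmem p), D, fun p => hD _ (hmem p)⟩

theorem comp_ge (hF : Obs F) {a : ℝ} (ha : ∀ p, a ≤ F p) {g : ℝ → ℝ}
    (hg : ContinuousOn g (Ici a)) : Obs fun p => g (F p) :=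
  hF.comp (s := Ici a) (fun C hC => ⟨Icc a (max a C), isCompact_Icc, Icc_subset_Ici_self,
    fun p => ⟨ha p, ((le_abs_self _).trans (hC p)).trans (le_max_right _ _)⟩⟩) hg

theorem comp_continuous (hF : Obs F) {g : ℝ → ℝ} (hg : Continuous g) : Obs fun p => g (F p) :=
  hF.comp (s := univ) (fun C hC => ⟨Icc (-C) C, isCompact_Icc, subset_univ _,
    fun p => abs_le.1 (hC p)⟩) hg.continuousOn

end Obs

/-- A jet whose entries are the derivatives of its value. -/
structure Jet.Valid (J : Jet n) : Prop where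
  diff : Differentiable ℝ J.v
  diffd : ∀ i, Differentiable ℝ (J.d i)
  htime : ∀ p, HasDerivAt (fun s : ℝ => J.v (p + s • et n)) (J.dt p) 0
  hd : ∀ i p, HasDerivAt (fun s : ℝ => J.v (p + s • ex i)) (J.d i p) 0
  hdd : ∀ i p, HasDerivAt (fun s : ℝ => J.d i (p + s • ex i)) (J.dd i p) 0
  ov : Obs J.v
  odt : Obs J.dt
  od : ∀ i, Obs (J.d i)
  odd : ∀ i, Obs (J.dd i)

/-- The drift operator. -/
def Lop (μ : Measure (Space n)) (J : Jet n) (p : Par n) : ℝ :=
  J.dt p + 1 / 2 * ∑ i, J.dd i p + ∑ i, bar μ i p * J.d i p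

/-- The squared gradient. -/
def grad2 (J : Jet n) (p : Par n) : ℝ := ∑ i, J.d i p ^ 2

theorem obs_M (hμ : Car μ R) {φ : Space n → ℝ} (h : Adm R φ) : Obs (M μ φ) :=
  ⟨(differentiable_M hμ h).continuous, bounded_M hμ h⟩

theorem obs_bar (hμ : Car μ R) (i : Fin n) : Obs (bar μ i) :=
  obs_M hμ (adm_continuous (by fun_prop) R)

theorem Jet.Valid.obs_Lop {J : Jet n} (h : J.Valid) (hμ : Car μ R) : Obs (Lop μ J) :=
  (h.odt.add ((Obs.const _).mul (Obs.sum _ fun i _ => h.odd i))).add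
    (Obs.sum _ fun i _ => (obs_bar hμ i).mul (h.od i))

theorem Jet.Valid.obs_grad2 {J : Jet n} (h : J.Valid) : Obs (grad2 J) :=
  Obs.sum _ fun i _ => (h.od i).pow 2

/-- Constant jets. -/
def Jet.const (n : ℕ) (c : ℝ) : Jet n := ⟨fun _ => c, fun _ => 0, fun _ _ => 0, fun _ _ => 0⟩

theorem Jet.const_valid (c : ℝ) : (Jet.const n c).Valid :=
  ⟨differentiable_const c, fun _ => differentiable_const _, fun _ => hasDerivAt_const _ _,
    fun _ _ => hasDerivAt_const _ _, fun _ _ => hasDerivAt_const _ _, Obs.const c, Obs.const 0,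
    fun _ => Obs.const 0, fun _ => Obs.const 0⟩

theorem Lop_const (c : ℝ) (p : Par n) : Lop μ (Jet.const n c) p = 0 := by simp [Lop, Jet.const]

/-- Sum of jets. -/
def Jet.add (J K : Jet n) : Jet n :=
  ⟨fun p => J.v p + K.v p, fun p => J.dt p + K.dt p, fun i p => J.d i p + K.d i p,
    fun i p => J.dd i p + K.dd i p⟩

theorem Jet.Valid.add {J K : Jet n} (hJ : J.Valid) (hK : K.Valid) : (J.add K).Valid :=
  ⟨hJ.diff.add hK.diff, fun i => (hJ.diffd i).add (hK.diffd i),
    fun p => (hJ.htime p).add (hK.htime p), fun i p => (hJ.hd i p).add (hK.hd i p),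
    fun i p => (hJ.hdd i p).add (hK.hdd i p), hJ.ov.add hK.ov, hJ.odt.add hK.odt,
    fun i => (hJ.od i).add (hK.od i), fun i => (hJ.odd i).add (hK.odd i)⟩

theorem Lop_add (J K : Jet n) (p : Par n) : Lop μ (J.add K) p = Lop μ J p + Lop μ K p := by
  simp only [Lop, Jet.add, mul_add, Finset.sum_add_distrib]; ring

/-- Finite sums of jets. -/
def Jet.sum {ι : Type*} [Fintype ι] (J : ι → Jet n) : Jet n :=
  ⟨fun p => ∑ k, (J k).v p, fun p => ∑ k, (J k).dt p, fun i p => ∑ k, (J k).d i p,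
    fun i p => ∑ k, (J k).dd i p⟩

theorem Jet.Valid.sum {ι : Type*} [Fintype ι] {J : ι → Jet n} (h : ∀ k, (J k).Valid) :
    (Jet.sum J).Valid :=
  ⟨Differentiable.fun_sum fun k _ => (h k).diff,
    fun i => Differentiable.fun_sum fun k _ => (h k).diffd i,
    fun p => HasDerivAt.fun_sum fun k _ => (h k).htime p,
    fun i p => HasDerivAt.fun_sum fun k _ => (h k).hd i p,
    fun i p => HasDerivAt.fun_sum fun k _ => (h k).hdd i p,
    Obs.sum _ fun k _ => (h k).ov, Obs.sum _ fun k _ => (h k).odt,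
    fun i => Obs.sum _ fun k _ => (h k).od i, fun i => Obs.sum _ fun k _ => (h k).odd i⟩

theorem Lop_sum {ι : Type*} [Fintype ι] (J : ι → Jet n) (p : Par n) :
    Lop μ (Jet.sum J) p = ∑ k, Lop μ (J k) p := by
  simp only [Lop, Jet.sum, Finset.mul_sum, Finset.sum_add_distrib]
  rw [Finset.sum_comm (γ := ι), Finset.sum_comm (γ := ι)]

/-- Product of jets. -/
def Jet.mul (J K : Jet n) : Jet n :=
  ⟨fun p => J.v p * K.v p, fun p => J.dt p * K.v p + J.v p * K.dt p,
    fun i p => J.d i p * K.v p + J.v p * K.d i p,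
    fun i p => J.dd i p * K.v p + 2 * (J.d i p * K.d i p) + J.v p * K.dd i p⟩

theorem Jet.Valid.mul {J K : Jet n} (hJ : J.Valid) (hK : K.Valid) : (J.mul K).Valid := by
  refine ⟨hJ.diff.mul hK.diff, fun i => ((hJ.diffd i).mul hK.diff).add (hJ.diff.mul (hK.diffd i)),
    fun p => ?_, fun i p => ?_, fun i p => ?_, hJ.ov.mul hK.ov,
    (hJ.odt.mul hK.ov).add (hJ.ov.mul hK.odt), fun i => ((hJ.od i).mul hK.ov).add (hJ.ov.mul (hK.od i)),
    fun i => (((hJ.odd i).mul hK.ov).add ((Obs.const 2).mul ((hJ.od i).mul (hK.od i)))).add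
      (hJ.ov.mul (hK.odd i))⟩
  · exact ((hJ.htime p).mul (hK.htime p)).congr_deriv (by simp [Jet.mul])
  · exact ((hJ.hd i p).mul (hK.hd i p)).congr_deriv (by simp [Jet.mul])
  · refine (((hJ.hdd i p).mul (hK.hd i p)).add ((hJ.hd i p).mul (hK.hdd i p))).congr_deriv ?_
    simp only [Jet.mul, zero_smul, add_zero]
    ring

theorem Lop_mul (J K : Jet n) (p : Par n) : Lop μ (J.mul K) p =
    Lop μ J p * K.v p + J.v p * Lop μ K p + ∑ i, J.d i p * K.d i p := by
  simp only [Lop, Jet.mul, Finset.mul_sum, Finset.sum_mul, add_mul, mul_add, Finset.sum_add_distrib]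
  ring_nf

/-- Composition with a function of one variable. -/
def Jet.comp (J : Jet n) (f f' f'' : ℝ → ℝ) : Jet n :=
  ⟨fun p => f (J.v p), fun p => f' (J.v p) * J.dt p, fun i p => f' (J.v p) * J.d i p,
    fun i p => f'' (J.v p) * J.d i p ^ 2 + f' (J.v p) * J.dd i p⟩

theorem Jet.Valid.comp {J : Jet n} (hJ : J.Valid) {f f' f'' : ℝ → ℝ} {a : ℝ} (ha : ∀ p, a ≤ J.v p)
    (h1 : ∀ x, a ≤ x → HasDerivAt f (f' x) x) (h2 : ∀ x, a ≤ x → HasDerivAt f' (f'' x) x)
    (h3 : ContinuousOn f'' (Ici a)) : (J.comp f f' f'').Valid := by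
  have hf : ∀ g g' : ℝ → ℝ, (∀ x, a ≤ x → HasDerivAt g (g' x) x) → ContinuousOn g (Ici a) :=
    fun g g' h x hx => (h x hx).continuousAt.continuousWithinAt
  have o0 := hJ.ov.comp_ge ha (hf f f' h1)
  have o1 := hJ.ov.comp_ge ha (hf f' f'' h2)
  have o2 := hJ.ov.comp_ge ha h3
  refine ⟨fun p => (h1 _ (ha p)).differentiableAt.comp p (hJ.diff p),
    fun i p => ((h2 _ (ha p)).differentiableAt.comp p (hJ.diff p)).mul (hJ.diffd i p),
    fun p => ?_, fun i p => ?_, fun i p => ?_, o0, o1.mul hJ.odt, fun i => o1.mul (hJ.od i),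
    fun i => (o2.mul ((hJ.od i).pow 2)).add (o1.mul (hJ.odd i))⟩
  · exact (h1 _ (ha p)).comp_of_eq (0 : ℝ) (hJ.htime p) (by simp)
  · exact (h1 _ (ha p)).comp_of_eq (0 : ℝ) (hJ.hd i p) (by simp)
  · refine (((h2 _ (ha p)).comp_of_eq (0 : ℝ) (hJ.hd i p) (by simp)).mul (hJ.hdd i p)).congr_deriv ?_
    simp only [Jet.comp, Function.comp_apply, zero_smul, add_zero]
    ring

theorem Lop_comp (J : Jet n) (f f' f'' : ℝ → ℝ) (p : Par n) : Lop μ (J.comp f f' f'') p =
    f' (J.v p) * Lop μ J p + 1 / 2 * f'' (J.v p) * grad2 J p := by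
  simp only [Lop, Jet.comp, grad2, Finset.sum_add_distrib, mul_left_comm (bar μ _ p),
    ← Finset.mul_sum]
  ring

/-- The jet of a tilted mean. -/
def Jet.mom (μ : Measure (Space n)) (φ : Space n → ℝ) : Jet n :=
  ⟨M μ φ, fun p => -(1 / 2) * (M μ (fun x => φ x * ‖x‖ ^ 2) p - M μ φ p * M μ (fun x => ‖x‖ ^ 2) p),
    fun i p => M μ (fun x => φ x * x i) p - M μ φ p * bar μ i p,
    fun i p => M μ (fun x => φ x * x i * x i) p - 2 * (M μ (fun x => φ x * x i) p * bar μ i p)
      - M μ φ p * M μ (fun x => x i * x i) p + 2 * (M μ φ p * bar μ i p ^ 2)⟩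

theorem Jet.mom_valid (hμ : Car μ R) {φ : Space n → ℝ} (h : Adm R φ) : (Jet.mom μ φ).Valid := by
  have hx : ∀ i : Fin n, Adm R fun x : Space n => x i := fun i => adm_continuous (by fun_prop) R
  have hs : Adm R fun x : Space n => ‖x‖ ^ 2 := adm_continuous (by fun_prop) R
  refine ⟨differentiable_M hμ h,
    fun i => (differentiable_M hμ (h.mul (hx i))).sub
      ((differentiable_M hμ h).mul (differentiable_M hμ (hx i))),
    fun p => hasDerivAt_M_time hμ h p, fun i p => hasDerivAt_M_space hμ h p i, fun i p => ?_,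
    obs_M hμ h, (Obs.const _).mul ((obs_M hμ (h.mul hs)).sub ((obs_M hμ h).mul (obs_M hμ hs))),
    fun i => (obs_M hμ (h.mul (hx i))).sub ((obs_M hμ h).mul (obs_bar hμ i)),
    fun i => (((obs_M hμ ((h.mul (hx i)).mul (hx i))).sub ((Obs.const 2).mul
      ((obs_M hμ (h.mul (hx i))).mul (obs_bar hμ i)))).sub
      ((obs_M hμ h).mul (obs_M hμ ((hx i).mul (hx i))))).add
      ((Obs.const 2).mul ((obs_M hμ h).mul ((obs_bar hμ i).pow 2)))⟩
  refine ((hasDerivAt_M_space hμ (h.mul (hx i)) p i).sub ((hasDerivAt_M_space hμ h p i).mul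
    (hasDerivAt_M_space hμ (hx i) p i))).congr_deriv ?_
  simp only [Jet.mom, bar, zero_smul, add_zero]
  ring

theorem sum_coord_sq (x : Space n) : ∑ i, x i * x i = ‖x‖ ^ 2 := by
  rw [EuclideanSpace.norm_sq_eq]
  exact Finset.sum_congr rfl fun i _ => by rw [Real.norm_eq_abs, sq_abs, sq]

/-- Tilted means are annihilated by the drift. -/
theorem Lop_mom (hμ : Car μ R) {φ : Space n → ℝ} (h : Adm R φ) (p : Par n) :
    Lop μ (Jet.mom μ φ) p = 0 := by
  have hx : ∀ i : Fin n, Adm R fun x : Space n => x i := fun i => adm_continuous (by fun_prop) R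
  have e1 : ∑ i, M μ (fun x => φ x * x i * x i) p = M μ (fun x => φ x * ‖x‖ ^ 2) p := by
    rw [← M_finsum hμ _ fun i _ => (h.mul (hx i)).mul (hx i)]
    simp only [mul_assoc, ← Finset.mul_sum, sum_coord_sq]
  have e2 : ∑ i, M μ (fun x => x i * x i) p = M μ (fun x => ‖x‖ ^ 2) p := by
    rw [← M_finsum hμ _ fun i _ => (hx i).mul (hx i)]
    simp only [sum_coord_sq]
  have e : Lop μ (Jet.mom μ φ) p
      = -(1 / 2) * (M μ (fun x => φ x * ‖x‖ ^ 2) p - M μ φ p * M μ (fun x => ‖x‖ ^ 2) p)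
        + ∑ i, (1 / 2 * M μ (fun x => φ x * x i * x i) p
          - 1 / 2 * M μ φ p * M μ (fun x => x i * x i) p) := by
    simp only [Lop, Jet.mom, Finset.mul_sum]
    rw [add_assoc, ← Finset.sum_add_distrib]
    congr 1
    exact Finset.sum_congr rfl fun i _ => by ring
  rw [e, Finset.sum_sub_distrib, ← Finset.mul_sum, ← Finset.mul_sum, e1, e2]
  ring

end Vale.Agent.P245
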