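import Vale.Agent.P245.Pins

/-!
From a Poincare inequality for level functions to a Poincare inequality.
-/

noncomputable section

open MeasureTheory Set Filter Topology
open scoped ENNReal

namespace Vale.Agent.P245

variable {n : ℕ} {μ : Measure (Space n)} {R : ℝ}

/-- The inequality for functions with values in the unit interval that equal one on a sixteenth of
their support. -/
def LevelBound (μ : Measure (Space n)) (K : ℝ) : Prop :=
  ∀ (g : Space n → ℝ) (p : ℝ), ContDiff ℝ 2 g → (∀ x, 0 ≤ g x) → (∀ x, g x ≤ 1) → p ≤ 1 / 2 →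
    μ.real {x | g x ≠ 0} ≤ p → p / 16 ≤ μ.real {x | g x = 1} → p ≤ K * dir μ g

theorem cutoff_bound : ∃ C, 0 < C ∧ (∀ r, |deriv Real.smoothTransition r| ≤ C) ∧
    (∀ r, r ≤ 0 ∨ 1 ≤ r → deriv Real.smoothTransition r = 0) := by
  have hd : ContDiff ℝ 1 Real.smoothTransition := Real.smoothTransition.contDiff
  have hc : Continuous (deriv Real.smoothTransition) := hd.continuous_deriv le_rfl
  have hz : ∀ r : ℝ, r ≤ 0 ∨ 1 ≤ r → deriv Real.smoothTransition r = 0 := by
    intro r hr
    rcases hr with hr | hr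
    · exact IsLocalMin.deriv_eq_zero (Eventually.of_forall fun s => by
        rw [Real.smoothTransition.zero_of_nonpos hr]; exact Real.smoothTransition.nonneg s)
    · exact IsLocalMax.deriv_eq_zero (Eventually.of_forall fun s => by
        rw [Real.smoothTransition.one_of_one_le hr]; exact Real.smoothTransition.le_one s)
  obtain ⟨C, hC⟩ := (isCompact_Icc (a := (0 : ℝ)) (b := 1)).exists_bound_of_continuousOn hc.continuousOn
  refine ⟨max C 1, lt_max_of_lt_right one_pos, fun r => ?_, hz⟩
  by_cases hr : r ∈ Icc (0 : ℝ) 1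
  · exact (hC r hr).trans (le_max_left _ _)
  · rw [hz r (by rw [mem_Icc, not_and_or, not_le, not_le] at hr; exact hr.imp le_of_lt le_of_lt),
      abs_zero]
    positivity

/-- The square of the positive part is controlled by the dyadic levels. -/
theorem sq_pos_le_levels (δ : ℝ) (hδ : 0 < δ) (u : ℝ) : ∀ N : ℕ, u ≤ δ * 2 ^ N →
    max u 0 ^ 2 ≤ δ ^ 2 + ∑ k ∈ Finset.range N, if δ * 2 ^ k < u then 4 * (δ * 2 ^ k) ^ 2 else 0 := by
  intro N
  induction N with
  | zero =>
    intro h
    simp only [pow_zero, mul_one] at h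
    simpa using pow_le_pow_left₀ (le_max_right u 0) (max_le h hδ.le) 2
  | succ k ih =>
    intro h
    rw [Finset.sum_range_succ, ← add_assoc]
    rcases le_or_gt u (δ * 2 ^ k) with h' | h'
    · rw [if_neg (not_lt.2 h'), add_zero]; exact ih h'
    · rw [if_pos h']
      have hb : 0 < δ * 2 ^ k := by positivity
      have h2 : max u 0 ^ 2 ≤ (2 * (δ * 2 ^ k)) ^ 2 := pow_le_pow_left₀ (le_max_right u 0)
        (max_le (h.trans_eq (by ring)) (by positivity)) 2
      have h3 : 0 ≤ ∑ j ∈ Finset.range k, if δ * 2 ^ j < u then 4 * (δ * 2 ^ j) ^ 2 else 0 :=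
        Finset.sum_nonneg fun j _ => by split_ifs <;> positivity
      linarith [sq_nonneg δ, show (2 * (δ * 2 ^ k)) ^ 2 = 4 * (δ * 2 ^ k) ^ 2 by ring]

/-- Dyadic decomposition for a function with small positive set. -/
theorem pos_part_le {Cs : ℝ} (hCs : ∀ r, |deriv Real.smoothTransition r| ≤ Cs)
    (hz : ∀ r, r ≤ 0 ∨ 1 ≤ r → deriv Real.smoothTransition r = 0) (hμ : Car μ R) {K : ℝ} (hK : 0 ≤ K)
    (hL : LevelBound μ K) {u : Space n → ℝ} (hu : ContDiff ℝ 2 u) (hu2 : μ.real {x | 0 < u x} ≤ 1 / 2) :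
    ∫ x, max (u x) 0 ^ 2 ∂μ ≤ 32 * K * Cs ^ 2 * dir μ u := by
  have := hμ.prob
  have hi : ∀ w : Space n → ℝ, Continuous w → Integrable w μ := fun w hw =>
    hμ.integrable (adm_continuous hw R)
  have huc : Continuous u := hu.continuous
  have hduc : Continuous fun x => ‖fderiv ℝ u x‖ ^ 2 := (hu.continuous_fderiv (by norm_num)).norm.pow 2
  obtain ⟨B, hB⟩ := (isCompact_closedBall (0 : Space n) R).exists_bound_of_continuousOn huc.continuousOn
  refine le_of_forall_pos_le_add fun ε hε => ?_
  set δ := √(ε / 4) with hδdef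
  have hδ : 0 < δ := Real.sqrt_pos.2 (by positivity)
  have hδ2 : δ ^ 2 = ε / 4 := Real.sq_sqrt (by positivity)
  obtain ⟨N, hN⟩ := pow_unbounded_of_one_lt (B / δ) (one_lt_two : (1 : ℝ) < 2)
  set a : ℕ → ℝ := fun k => δ * 2 ^ k with ha
  have ha0 : ∀ k, 0 < a k := fun k => by simp only [ha]; positivity
  set A : ℕ → Set (Space n) := fun k => {x | a k < u x} with hA
  have hAm : ∀ k, MeasurableSet (A k) := fun k => measurableSet_lt measurable_const huc.measurable
  set pk : ℕ → ℝ := fun k => μ.real (A k) with hpk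
  have hpk2 : ∀ k, pk k ≤ 1 / 2 := fun k =>
    (measureReal_mono fun x hx => (ha0 k).trans hx).trans hu2
  set g : ℕ → Space n → ℝ := fun k x => Real.smoothTransition (u x / a k - 1) with hg
  have hgd : ∀ k, ContDiff ℝ 2 (g k) := fun k =>
    Real.smoothTransition.contDiff.comp ((hu.div_const _).sub contDiff_const)
  have hstep : ∀ k, pk k / 16 ≤ pk (k + 1) → pk k ≤ K * dir μ (g k) := fun k hk => by
    refine hL (g k) (pk k) (hgd k) (fun x => Real.smoothTransition.nonneg _)
      (fun x => Real.smoothTransition.le_one _) (hpk2 k) (measureReal_mono fun x hx => ?_)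
      (hk.trans (measureReal_mono fun x hx => ?_))
    · by_contra hx'
      refine hx (Real.smoothTransition.zero_of_nonpos ?_)
      have : u x ≤ a k := not_lt.1 hx'
      rw [sub_nonpos, div_le_one (ha0 k)]; exact this
    · refine Real.smoothTransition.one_of_one_le ?_
      have e : a (k + 1) = 2 * a k := by simp only [ha, pow_succ]; ring
      have : a (k + 1) < u x := hx
      rw [le_sub_iff_add_le, le_div_iff₀ (ha0 k)]; linarith
  have hfd : ∀ k x, ‖fderiv ℝ (g k) x‖ =
      |deriv Real.smoothTransition (u x / a k - 1)| * ((a k)⁻¹ * ‖fderiv ℝ u x‖) := by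
    intro k x
    have h1 : HasFDerivAt (fun y => u y / a k - 1) ((a k)⁻¹ • fderiv ℝ u x) x := by
      simpa [div_eq_inv_mul] using
        ((((hu.differentiable two_ne_zero) x).hasFDerivAt.const_mul (a k)⁻¹).sub_const 1)
    have h2 : HasDerivAt Real.smoothTransition (deriv Real.smoothTransition (u x / a k - 1))
        (u x / a k - 1) :=
      ((Real.smoothTransition.contDiff (n := 1)).differentiable one_ne_zero _).hasDerivAt
    rw [show g k = Real.smoothTransition ∘ fun y => u y / a k - 1 from rfl,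
      (h2.comp_hasFDerivAt x h1).fderiv, norm_smul, norm_smul, Real.norm_eq_abs, Real.norm_eq_abs,
      abs_inv, abs_of_pos (ha0 k)]
  have hsum : ∀ x, ∑ k ∈ Finset.range N, a k ^ 2 * ‖fderiv ℝ (g k) x‖ ^ 2
      ≤ Cs ^ 2 * ‖fderiv ℝ u x‖ ^ 2 := by
    intro x
    have e : ∀ k, a k ^ 2 * ‖fderiv ℝ (g k) x‖ ^ 2
        = deriv Real.smoothTransition (u x / a k - 1) ^ 2 * ‖fderiv ℝ u x‖ ^ 2 := fun k => by
      have := (ha0 k).ne'
      rw [hfd k x, mul_pow _ ((a k)⁻¹ * ‖fderiv ℝ u x‖), sq_abs]
      field_simp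
    simp only [e, ← Finset.sum_mul]
    refine mul_le_mul_of_nonneg_right ?_ (sq_nonneg _)
    by_cases hx : ∃ k ∈ Finset.range N, a k < u x ∧ u x < 2 * a k
    · obtain ⟨k, hk, hk1, hk2⟩ := hx
      rw [Finset.sum_eq_single_of_mem k hk fun j _ hj => ?_]
      · rw [← sq_abs]; exact pow_le_pow_left₀ (abs_nonneg _) (hCs _) 2
      · rw [hz]; · simp
        rcases lt_or_gt_of_ne hj with hjk | hjk
        · right
          have : 2 * a j ≤ a k := by
            have := pow_le_pow_right₀ (one_le_two (α := ℝ)) (Nat.succ_le_of_lt hjk)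
            have := mul_le_mul_of_nonneg_left this hδ.le
            simp only [ha, pow_succ] at this ⊢; linarith
          rw [le_sub_iff_add_le, le_div_iff₀ (ha0 j)]; linarith
        · left
          have : 2 * a k ≤ a j := by
            have := pow_le_pow_right₀ (one_le_two (α := ℝ)) (Nat.succ_le_of_lt hjk)
            have := mul_le_mul_of_nonneg_left this hδ.le
            simp only [ha, pow_succ] at this ⊢; linarith
          rw [sub_nonpos, div_le_one (ha0 j)]; linarith
    · push Not at hx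
      rw [Finset.sum_eq_zero fun j hj => ?_]
      · positivity
      · rw [hz]; · simp
        rcases le_or_gt (u x) (a j) with h' | h'
        · left; rw [sub_nonpos, div_le_one (ha0 j)]; exact h'
        · right; rw [le_sub_iff_add_le, le_div_iff₀ (ha0 j)]; linarith [hx j hj h']
  have hdirsum : ∑ k ∈ Finset.range N, a k ^ 2 * dir μ (g k) ≤ Cs ^ 2 * dir μ u := by
    simp only [dir, ← integral_const_mul]
    have hic : ∀ k, Continuous fun x => a k ^ 2 * ‖fderiv ℝ (g k) x‖ ^ 2 := fun k =>
      ((((hgd k).continuous_fderiv (by norm_num)).norm.pow 2)).const_mul _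
    rw [← integral_finsetSum _ fun k _ => hi _ (hic k)]
    exact integral_mono (hi _ (continuous_finsetSum _ fun k _ => hic k)) (hi _ (hduc.const_mul _)) hsum
  have hmain : ∫ x, max (u x) 0 ^ 2 ∂μ ≤ δ ^ 2 + ∑ k ∈ Finset.range N, 4 * a k ^ 2 * pk k := by
    have hind : ∀ k, Integrable (fun x => if a k < u x then 4 * a k ^ 2 else 0) μ := fun k =>
      (integrable_const (4 * a k ^ 2)).indicator (hAm k)
    refine le_trans (integral_mono_ae (hi _ (by fun_prop))
      ((integrable_const (δ ^ 2)).add (integrable_finsetSum (Finset.range N) fun k _ => hind k)) ?_) ?_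
    · filter_upwards [hμ.bd] with x hx
      refine sq_pos_le_levels δ hδ (u x) N ((le_abs_self _).trans ((hB x (by simpa using hx)).trans ?_))
      rw [div_lt_iff₀ hδ] at hN
      linarith
    · simp only [Pi.add_apply]
      rw [integral_add (integrable_const _) (integrable_finsetSum _ fun k _ => hind k), integral_const,
        integral_finsetSum _ fun k _ => hind k]
      simp only [probReal_univ, one_smul]
      refine add_le_add le_rfl (Finset.sum_le_sum fun k _ => le_of_eq ?_)
      exact ((integral_indicator_const (4 * a k ^ 2) (hAm k)).trans (by rw [smul_eq_mul]; ring))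
  have hrec : ∀ k, 4 * a (k + 1) ^ 2 * pk (k + 1)
      ≤ 1 / 4 * (4 * a k ^ 2 * pk k) + 16 * K * (a k ^ 2 * dir μ (g k)) := by
    intro k
    have e : a (k + 1) = 2 * a k := by simp only [ha, pow_succ]; ring
    rw [e]
    have hd : 0 ≤ dir μ (g k) := dir_nonneg _
    have hp0 : 0 ≤ pk k := measureReal_nonneg
    rcases le_or_gt (pk k / 16) (pk (k + 1)) with hc | hc
    · have h1 : pk (k + 1) ≤ pk k := measureReal_mono fun x hx => by
        have h' : a (k + 1) < u x := hx
        show a k < u x
        linarith [ha0 k]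
      have h2 := mul_le_mul_of_nonneg_left (h1.trans (hstep k hc)) (show 0 ≤ 16 * a k ^ 2 by positivity)
      nlinarith [mul_nonneg (sq_nonneg (a k)) hp0]
    · have h2 := mul_le_mul_of_nonneg_left hc.le (show 0 ≤ 16 * a k ^ 2 by positivity)
      have : 0 ≤ 16 * K * (a k ^ 2 * dir μ (g k)) := by positivity
      nlinarith
  have hS : ∑ k ∈ Finset.range N, 4 * a k ^ 2 * pk k ≤ 4 / 3 * (4 * δ ^ 2 * pk 0)
      + 64 / 3 * K * ∑ k ∈ Finset.range N, a k ^ 2 * dir μ (g k) := by
    set S : ℕ → ℝ := fun k => 4 * a k ^ 2 * pk k with hSdef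
    set D : ℕ → ℝ := fun k => a k ^ 2 * dir μ (g k) with hDdef
    have hD : ∀ k, 0 ≤ D k := fun k => mul_nonneg (sq_nonneg _) (dir_nonneg _)
    have hSk : ∀ k, 0 ≤ S k := fun k => mul_nonneg (by positivity) measureReal_nonneg
    have h0 : S 0 = 4 * δ ^ 2 * pk 0 := by simp [hSdef, ha]
    have key : ∀ M, ∑ k ∈ Finset.range (M + 1), S k
        ≤ S 0 + 1 / 4 * ∑ k ∈ Finset.range M, S k + 16 * K * ∑ k ∈ Finset.range M, D k := by
      intro M
      rw [Finset.sum_range_succ', Finset.mul_sum, Finset.mul_sum, add_assoc, ← Finset.sum_add_distrib]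
      linarith [Finset.sum_le_sum (s := Finset.range M) fun k _ => hrec k]
    rw [← h0]
    rcases N with _ | M
    · simpa using (mul_nonneg (by norm_num : (0 : ℝ) ≤ 4 / 3) (hSk 0))
    · have h1 := key M
      have h2 : ∑ k ∈ Finset.range M, S k ≤ ∑ k ∈ Finset.range (M + 1), S k := by
        rw [Finset.sum_range_succ]; linarith [hSk M]
      have h3 : ∑ k ∈ Finset.range M, D k ≤ ∑ k ∈ Finset.range (M + 1), D k := by
        rw [Finset.sum_range_succ]; linarith [hD M]
      nlinarith [mul_le_mul_of_nonneg_left h3 hK]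
  have hlast := mul_le_mul_of_nonneg_left hdirsum hK
  have hp01 : δ ^ 2 * pk 0 ≤ δ ^ 2 * (1 / 2) := mul_le_mul_of_nonneg_left (hpk2 0) (sq_nonneg _)
  have hnn : 0 ≤ K * (Cs ^ 2 * dir μ u) := mul_nonneg hK (mul_nonneg (sq_nonneg _) (dir_nonneg _))
  linarith

theorem exists_median (hμ : Car μ R) {f : Space n → ℝ} (hf : Continuous f) :
    ∃ m, μ.real {x | m < f x} ≤ 1 / 2 ∧ μ.real {x | f x < m} ≤ 1 / 2 := by
  have := hμ.prob
  obtain ⟨B, hB⟩ := (isCompact_closedBall (0 : Space n) R).exists_bound_of_continuousOn hf.continuousOn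
  have hbd : ∀ᵐ x ∂μ, |f x| ≤ B := hμ.bd.mono fun x hx => hB x (by simpa using hx)
  set S := {s : ℝ | μ.real {x | s < f x} ≤ 1 / 2} with hS
  have hne : B ∈ S := by
    have : μ {x | B < f x} = 0 := by
      refine measure_eq_zero_iff_ae_notMem.2 (hbd.mono fun x hx => ?_)
      simp only [mem_ofPred_eq, not_lt]
      exact (le_abs_self _).trans hx
    simp [hS, measureReal_def, this]
  have hlb : ∀ s ∈ S, -B - 1 ≤ s := by
    intro s hs
    by_contra hc
    have h1 : μ.real {x | s < f x} = 1 := by
      rw [measureReal_def, (mem_ae_iff_prob_eq_one (measurableSet_lt measurable_const hf.measurable)).1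
        (hbd.mono fun x hx => by
          show s < f x
          linarith [(abs_le.1 hx).1]), ENNReal.toReal_one]
    have : μ.real {x | s < f x} ≤ 1 / 2 := hs
    linarith
  refine ⟨sInf S, ?_, ?_⟩
  · have hu : {x | sInf S < f x} = ⋃ j : ℕ, {x | sInf S + 1 / ((j : ℝ) + 1) < f x} := by
      ext x
      simp only [mem_ofPred_eq, mem_iUnion]
      constructor
      · intro h
        obtain ⟨j, hj⟩ := exists_nat_one_div_lt (sub_pos.2 h)
        exact ⟨j, by linarith⟩
      · rintro ⟨j, hj⟩
        have : (0 : ℝ) < 1 / ((j : ℝ) + 1) := by positivity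
        linarith
    have hmono : Monotone fun j : ℕ => {x | sInf S + 1 / ((j : ℝ) + 1) < f x} := by
      intro i j hij x hx
      simp only [mem_ofPred_eq] at hx ⊢
      have : 1 / ((j : ℝ) + 1) ≤ 1 / ((i : ℝ) + 1) := by gcongr
      linarith
    have ht := tendsto_measure_iUnion_atTop (μ := μ) hmono
    rw [← hu] at ht
    refine le_of_tendsto ((ENNReal.tendsto_toReal (measure_ne_top _ _)).comp ht)
      (Eventually.of_forall fun j => ?_)
    obtain ⟨s, hs, hs'⟩ := Real.lt_sInf_add_pos ⟨B, hne⟩ (show (0 : ℝ) < 1 / ((j : ℝ) + 1) by positivity)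
    exact (measureReal_mono fun x hx => lt_trans hs' hx).trans (show μ.real {x | s < f x} ≤ 1 / 2 from hs)
  · have hu : {x | f x < sInf S} = ⋃ j : ℕ, {x | f x < sInf S - 1 / ((j : ℝ) + 1)} := by
      ext x
      simp only [mem_ofPred_eq, mem_iUnion]
      constructor
      · intro h
        obtain ⟨j, hj⟩ := exists_nat_one_div_lt (sub_pos.2 h)
        exact ⟨j, by linarith⟩
      · rintro ⟨j, hj⟩
        have : (0 : ℝ) < 1 / ((j : ℝ) + 1) := by positivity
        linarith
    have hmono : Monotone fun j : ℕ => {x | f x < sInf S - 1 / ((j : ℝ) + 1)} := by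
      intro i j hij x hx
      simp only [mem_ofPred_eq] at hx ⊢
      have : 1 / ((j : ℝ) + 1) ≤ 1 / ((i : ℝ) + 1) := by gcongr
      linarith
    have ht := tendsto_measure_iUnion_atTop (μ := μ) hmono
    rw [← hu] at ht
    refine le_of_tendsto ((ENNReal.tendsto_toReal (measure_ne_top _ _)).comp ht)
      (Eventually.of_forall fun j => ?_)
    set s := sInf S - 1 / ((j : ℝ) + 1) with hs
    have hsn : ¬(μ.real {x | s < f x} ≤ 1 / 2) := fun h => by
      have := csInf_le ⟨-B - 1, hlb⟩ (show s ∈ S from h)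
      have : (0 : ℝ) < 1 / ((j : ℝ) + 1) := by positivity
      linarith
    have h2 : μ.real {x | f x < s} ≤ μ.real {x | s < f x}ᶜ :=
      measureReal_mono fun x hx => not_lt.2 (le_of_lt (show f x < s from hx))
    rw [probReal_compl_eq_one_sub (measurableSet_lt measurable_const hf.measurable)] at h2
    show μ.real {x | f x < s} ≤ 1 / 2
    linarith [not_le.1 hsn]

/-- The Poincare inequality from the inequality for level functions. -/
theorem poincare_of_level : ∃ C : ℝ, 0 < C ∧ ∀ (n : ℕ) (μ : Measure (Space n)) (R K : ℝ),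
    Car μ R → 0 ≤ K → LevelBound μ K → ∀ f : Space n → ℝ, ContDiff ℝ 2 f →
      var μ f ≤ C * K * dir μ f := by
  obtain ⟨Cs, hCs0, hCs, hz⟩ := cutoff_bound
  refine ⟨64 * Cs ^ 2, by positivity, fun n μ R K hμ hK hL f hf => ?_⟩
  have := hμ.prob
  have hi : ∀ w : Space n → ℝ, Continuous w → Integrable w μ := fun w hw =>
    hμ.integrable (adm_continuous hw R)
  have hfc := hf.continuous
  obtain ⟨m, hm1, hm2⟩ := exists_median hμ hfc
  have h1 := pos_part_le hCs hz hμ hK hL (hf.sub contDiff_const (g := fun _ => m)) (by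
    simpa [sub_pos] using hm1)
  have h2 := pos_part_le hCs hz hμ hK hL ((contDiff_const (c := m)).sub hf) (by
    simpa [sub_pos] using hm2)
  have hd1 : dir μ (fun x => f x - m) = dir μ f := by simp [dir, fderiv_sub_const]
  have hd2 : dir μ (fun x => m - f x) = dir μ f := by simp [dir, fderiv_const_sub]
  rw [hd1] at h1
  rw [hd2] at h2
  have hvar : var μ f ≤ ∫ x, (f x - m) ^ 2 ∂μ := by
    set c := ∫ y, f y ∂μ with hc
    have e : (fun x => (f x - m) ^ 2) = fun x => (f x - c) ^ 2 + ((2 * (c - m)) * (f x - c) + (c - m) ^ 2) := by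
      funext x; ring
    rw [e, integral_add (hi _ (by fun_prop)) (hi _ (by fun_prop)),
      integral_add (hi _ (by fun_prop)) (integrable_const _), integral_const_mul,
      integral_sub (hi _ hfc) (integrable_const c), ← hc, var, ← hc]
    simp [sq_nonneg]
  refine hvar.trans ?_
  have e : (fun x => (f x - m) ^ 2) = fun x => max (f x - m) 0 ^ 2 + max (m - f x) 0 ^ 2 := by
    funext x
    rcases le_total (f x) m with h | h
    · rw [max_eq_right (sub_nonpos.2 h), max_eq_left (sub_nonneg.2 h)]; ring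
    · rw [max_eq_left (sub_nonneg.2 h), max_eq_right (sub_nonpos.2 h)]; ring
  rw [e, integral_add (hi _ (by fun_prop)) (hi _ (by fun_prop))]
  linarith

end Vale.Agent.P245
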