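import Vale.Agent.P245.Gauss

/-!
Moments of the tilts of a measure carried by a ball, as functions of the tilt parameters.
-/

noncomputable section

open MeasureTheory Set Filter Topology
open scoped ENNReal

namespace Vale.Agent.P245

variable {n : ℕ} {μ : Measure (Space n)} {R : ℝ} {φ ψ : Space n → ℝ}

/-- The parameter space of tilts. -/
abbrev Par (n : ℕ) := ℝ × Space n

/-- A probability measure carried by the ball of radius `R`. -/
structure Car (μ : Measure (Space n)) (R : ℝ) : Prop where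
  prob : IsProbabilityMeasure μ
  nonneg : 0 ≤ R
  bd : ∀ᵐ x ∂μ, ‖x‖ ≤ R

/-- Measurable and bounded on the ball. -/
def Adm (R : ℝ) (φ : Space n → ℝ) : Prop :=
  Measurable φ ∧ ∃ C, ∀ x, ‖x‖ ≤ R → |φ x| ≤ C

theorem adm_continuous (hφ : Continuous φ) (R : ℝ) : Adm R φ := by
  obtain ⟨C, hC⟩ := (isCompact_closedBall (0 : Space n) R).exists_bound_of_continuousOn hφ.continuousOn
  exact ⟨hφ.measurable, C, fun x hx => hC x (by simpa using hx)⟩

theorem Adm.mul (h : Adm R φ) (h' : Adm R ψ) : Adm R fun x => φ x * ψ x := by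
  obtain ⟨hm, C, hC⟩ := h
  obtain ⟨hm', C', hC'⟩ := h'
  refine ⟨hm.mul hm', C * C', fun x hx => ?_⟩
  rw [abs_mul]
  exact mul_le_mul (hC x hx) (hC' x hx) (abs_nonneg _) ((abs_nonneg _).trans (hC x hx))

theorem Car.integrable (hμ : Car μ R) (h : Adm R φ) : Integrable φ μ := by
  have := hμ.prob
  obtain ⟨hm, C, hC⟩ := h
  exact Integrable.of_bound hm.aestronglyMeasurable C (hμ.bd.mono fun x hx => hC x hx)

theorem IsSLC.car {τ : ℝ} (h : IsSLC τ μ) : ∃ R, Car μ R :=
  let ⟨R, h0, hb⟩ := h.bdd; ⟨R, h.prob, h0, hb⟩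

/-- Unnormalised moments. -/
def Nf (μ : Measure (Space n)) (φ : Space n → ℝ) (p : Par n) : ℝ :=
  ∫ x, φ x * Real.exp (ker p.1 p.2 x) ∂μ

/-- The normalising factor. -/
def Zf (μ : Measure (Space n)) (p : Par n) : ℝ := Nf μ (fun _ => 1) p

/-- The linear form of the exponent. -/
def kerL (x : Space n) : Par n →L[ℝ] ℝ :=
  (-(‖x‖ ^ 2) / 2) • ContinuousLinearMap.fst ℝ ℝ (Space n)
    + (innerSL ℝ x).comp (ContinuousLinearMap.snd ℝ ℝ (Space n))

theorem kerL_apply (x : Space n) (p : Par n) : kerL x p = ker p.1 p.2 x := by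
  simp only [kerL, ker, add_apply, smul_apply, ContinuousLinearMap.comp_apply,
    ContinuousLinearMap.coe_fst', ContinuousLinearMap.coe_snd', innerSL_apply_apply, smul_eq_mul,
    real_inner_comm p.2 x]
  ring

theorem kerL_eq (x : Space n) : kerL x = (-(‖x‖ ^ 2) / 2) • ContinuousLinearMap.fst ℝ ℝ (Space n)
    + ∑ i, x i • ((EuclideanSpace.proj i : Space n →L[ℝ] ℝ).comp
        (ContinuousLinearMap.snd ℝ ℝ (Space n))) := by
  refine ContinuousLinearMap.ext fun p => ?_
  simp [kerL, PiLp.inner_apply, mul_comm]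

@[fun_prop]
theorem continuous_kerL : Continuous (kerL : Space n → Par n →L[ℝ] ℝ) := by
  unfold kerL; fun_prop

theorem norm_kerL_le {x : Space n} (hx : ‖x‖ ≤ R) : ‖kerL x‖ ≤ R ^ 2 / 2 + R := by
  have hR : 0 ≤ R := (norm_nonneg x).trans hx
  refine ContinuousLinearMap.opNorm_le_bound _ (by positivity) fun p => ?_
  rw [kerL_apply, ker, Real.norm_eq_abs]
  have h1 := norm_fst_le p
  have h2 := norm_snd_le p
  rw [Real.norm_eq_abs] at h1
  calc |inner ℝ p.2 x - p.1 * ‖x‖ ^ 2 / 2|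
      ≤ |inner ℝ p.2 x| + |p.1 * ‖x‖ ^ 2 / 2| := abs_sub _ _
    _ ≤ ‖p‖ * R + ‖p‖ * (R ^ 2 / 2) := by
        refine add_le_add ((abs_real_inner_le_norm _ _).trans
          (mul_le_mul h2 hx (norm_nonneg _) (norm_nonneg _))) ?_
        rw [abs_div, abs_mul, abs_two, abs_of_nonneg (sq_nonneg ‖x‖), mul_div_assoc]
        exact mul_le_mul h1 (by have := pow_le_pow_left₀ (norm_nonneg x) hx 2; linarith)
          (by positivity) (norm_nonneg _)
    _ = _ := by ring

theorem Car.integrable_kexp (hμ : Car μ R) (h : Adm R φ) (p : Par n) :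
    Integrable (fun x => φ x * Real.exp (ker p.1 p.2 x)) μ :=
  hμ.integrable (h.mul (adm_continuous (by fun_prop) R))

theorem hasFDerivAt_Nf (hμ : Car μ R) (h : Adm R φ) (p : Par n) :
    HasFDerivAt (Nf μ φ) (Nf μ (fun x => φ x * (-(‖x‖ ^ 2) / 2)) p • ContinuousLinearMap.fst ℝ ℝ (Space n)
      + ∑ i, Nf μ (fun x => φ x * x i) p • ((EuclideanSpace.proj i : Space n →L[ℝ] ℝ).comp
          (ContinuousLinearMap.snd ℝ ℝ (Space n)))) p := by
  have := hμ.prob
  obtain ⟨hm, C, hC⟩ := h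
  set F' : Par n → Space n → (Par n →L[ℝ] ℝ) := fun q x => (φ x * Real.exp (ker q.1 q.2 x)) • kerL x
  have key := hasFDerivAt_integral_of_dominated_of_fderiv_le (μ := μ) (x₀ := p)
    (F := fun q x => φ x * Real.exp (ker q.1 q.2 x)) (F' := F') (s := Metric.ball p 1)
    (bound := fun _ => |C| * Real.exp ((R ^ 2 / 2 + R) * (‖p‖ + 1)) * (R ^ 2 / 2 + R))
    (Metric.ball_mem_nhds p one_pos)
    (Eventually.of_forall fun q => (hμ.integrable_kexp ⟨hm, C, hC⟩ q).aestronglyMeasurable)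
    (hμ.integrable_kexp ⟨hm, C, hC⟩ p)
    ((hm.mul (by fun_prop)).aestronglyMeasurable.smul continuous_kerL.aestronglyMeasurable)
    (hμ.bd.mono fun x hx q hq => ?_) (integrable_const _)
    (ae_of_all _ fun x q _ => ?_)
  · refine key.congr_fderiv ?_
    have hi : ∀ u : Space n → ℝ, Continuous u →
        Integrable (fun x => φ x * u x * Real.exp (ker p.1 p.2 x)) μ := fun u hu =>
      hμ.integrable_kexp (Adm.mul ⟨hm, C, hC⟩ (adm_continuous hu R)) p
    have e : (fun x => F' p x) = fun x =>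
        (φ x * (-(‖x‖ ^ 2) / 2) * Real.exp (ker p.1 p.2 x)) • ContinuousLinearMap.fst ℝ ℝ (Space n)
        + ∑ i, (φ x * x i * Real.exp (ker p.1 p.2 x)) •
          ((EuclideanSpace.proj i : Space n →L[ℝ] ℝ).comp
            (ContinuousLinearMap.snd ℝ ℝ (Space n))) := by
      funext x
      simp only [F']
      rw [kerL_eq, smul_add, Finset.smul_sum]
      simp only [smul_smul]
      congr 1
      · congr 1; ring
      · exact Finset.sum_congr rfl fun i _ => by congr 1; ring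
    rw [e, integral_add ((hi _ (by fun_prop)).smul_const _)
      (integrable_finsetSum _ fun i _ => (hi _ (by fun_prop)).smul_const _),
      integral_finsetSum _ fun i _ => (hi _ (by fun_prop)).smul_const _]
    simp only [integral_smul_const, Nf]
  · rw [norm_smul, Real.norm_eq_abs, abs_mul, abs_of_pos (Real.exp_pos _)]
    refine mul_le_mul (mul_le_mul ((hC x hx).trans (le_abs_self C)) (Real.exp_le_exp.2 ?_)
      (Real.exp_pos _).le (abs_nonneg _)) (norm_kerL_le hx) (norm_nonneg _) (by positivity)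
    rw [← kerL_apply]
    refine ((le_abs_self _).trans ((kerL x).le_opNorm q)).trans
      (mul_le_mul (norm_kerL_le hx) ?_ (norm_nonneg _) ((norm_nonneg _).trans (norm_kerL_le hx)))
    have := norm_le_norm_add_norm_sub' q p
    rw [Metric.mem_ball, dist_eq_norm] at hq
    linarith
  · have hd : HasFDerivAt (fun q : Par n => ker q.1 q.2 x) (kerL x) q := by
      simpa only [← kerL_apply] using (kerL x).hasFDerivAt
    exact (hd.exp.const_mul (φ x)).congr_fderiv (by simp [F', smul_smul])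

theorem contDiff_Nf (hμ : Car μ R) : ∀ (m : ℕ) {φ : Space n → ℝ}, Adm R φ → ContDiff ℝ m (Nf μ φ) := by
  intro m
  induction m with
  | zero =>
    intro φ h
    exact contDiff_zero.2 (continuous_iff_continuousAt.2 fun p => (hasFDerivAt_Nf hμ h p).continuousAt)
  | succ k ih =>
    intro φ h
    rw [Nat.cast_add, Nat.cast_one, contDiff_succ_iff_hasFDerivAt]
    refine ⟨_, ?_, fun p => hasFDerivAt_Nf hμ h p⟩
    refine ((ih (h.mul (adm_continuous (by fun_prop) R))).smul contDiff_const).add ?_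
    exact ContDiff.sum fun i _ => (ih (h.mul (adm_continuous (by fun_prop) R))).smul contDiff_const

theorem differentiable_Nf (hμ : Car μ R) (h : Adm R φ) : Differentiable ℝ (Nf μ φ) :=
  fun p => (hasFDerivAt_Nf hμ h p).differentiableAt

theorem hasDerivAt_Nf_time (hμ : Car μ R) (h : Adm R φ) (p : Par n) :
    HasDerivAt (fun s : ℝ => Nf μ φ (p + s • ((1 : ℝ), (0 : Space n))))
      (Nf μ (fun x => φ x * (-(‖x‖ ^ 2) / 2)) p) 0 := by
  have h1 : HasDerivAt (fun s : ℝ => p + s • ((1 : ℝ), (0 : Space n))) ((1 : ℝ), (0 : Space n)) 0 := by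
    simpa using ((hasDerivAt_id (0 : ℝ)).smul_const ((1 : ℝ), (0 : Space n))).const_add p
  refine ((hasFDerivAt_Nf hμ h p).comp_hasDerivAt_of_eq (0 : ℝ) h1 (by simp)).congr_deriv ?_
  simp

theorem hasDerivAt_Nf_space (hμ : Car μ R) (h : Adm R φ) (p : Par n) (i : Fin n) :
    HasDerivAt (fun s : ℝ => Nf μ φ (p + s • ((0 : ℝ), ev i))) (Nf μ (fun x => φ x * x i) p) 0 := by
  have h1 : HasDerivAt (fun s : ℝ => p + s • ((0 : ℝ), ev i)) ((0 : ℝ), ev i) 0 := by
    simpa using ((hasDerivAt_id (0 : ℝ)).smul_const ((0 : ℝ), ev i)).const_add p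
  refine ((hasFDerivAt_Nf hμ h p).comp_hasDerivAt_of_eq (0 : ℝ) h1 (by simp)).congr_deriv ?_
  simp

theorem abs_Nf_le (hμ : Car μ R) {C : ℝ} (hφ : Measurable φ)
    (hC : ∀ x, ‖x‖ ≤ R → |φ x| ≤ C) (p : Par n) : |Nf μ φ p| ≤ C * Zf μ p := by
  rw [Zf, Nf, Nf, ← integral_const_mul]
  refine (abs_integral_le_integral_abs).trans (integral_mono_ae
    ((hμ.integrable_kexp ⟨hφ, C, hC⟩ p).abs)
    ((hμ.integrable_kexp (adm_continuous continuous_const R) p).const_mul C) ?_)
  filter_upwards [hμ.bd] with x hx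
  rw [abs_mul, abs_of_pos (Real.exp_pos _), one_mul]
  exact mul_le_mul_of_nonneg_right (hC x hx) (Real.exp_pos _).le

theorem Zf_pos (hμ : Car μ R) (p : Par n) : 0 < Zf μ p := by
  have := hμ.prob
  simp only [Zf, Nf, one_mul]
  refine integral_exp_pos ?_
  simpa using hμ.integrable_kexp (adm_continuous (continuous_const (y := (1 : ℝ))) R) p

theorem Zf_le (hμ : Car μ R) (p : Par n) :
    Zf μ p ≤ Real.exp (R * ‖p.2‖ + |p.1| * R ^ 2 / 2) := by
  have := hμ.prob
  refine (integral_mono_ae (hμ.integrable_kexp (adm_continuous continuous_const R) p)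
    (integrable_const (Real.exp (R * ‖p.2‖ + |p.1| * R ^ 2 / 2))) ?_).trans_eq (by simp)
  filter_upwards [hμ.bd] with x hx
  simp only [one_mul]
  refine Real.exp_le_exp.2 ?_
  unfold ker
  have h1 := (real_inner_le_norm p.2 x).trans (mul_le_mul_of_nonneg_left hx (norm_nonneg _))
  have h2 : -p.1 * ‖x‖ ^ 2 ≤ |p.1| * R ^ 2 :=
    mul_le_mul (neg_le_abs _) (pow_le_pow_left₀ (norm_nonneg x) hx 2) (sq_nonneg _) (abs_nonneg _)
  nlinarith

theorem Zf_zero (hμ : Car μ R) : Zf μ (0 : Par n) = 1 := by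
  have := hμ.prob
  simp [Zf, Nf, ker]

/-- The mean of `φ` under the tilt `p`. -/
def M (μ : Measure (Space n)) (φ : Space n → ℝ) (p : Par n) : ℝ := Nf μ φ p / Zf μ p

/-- The `i`th coordinate of the barycentre. -/
def bar (μ : Measure (Space n)) (i : Fin n) (p : Par n) : ℝ := M μ (fun x => x i) p

/-- The tilted measure. -/
def tlt (μ : Measure (Space n)) (p : Par n) : Measure (Space n) := μ.tilted (ker p.1 p.2)

theorem Car.tlt (hμ : Car μ R) (p : Par n) : Car (tlt μ p) R := by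
  have := hμ.prob
  refine ⟨isProbabilityMeasure_tilted ?_, hμ.nonneg, (tilted_absolutelyContinuous μ _).ae_le hμ.bd⟩
  simpa using hμ.integrable_kexp (adm_continuous (continuous_const (y := (1 : ℝ))) R) p

theorem M_eq (φ : Space n → ℝ) (p : Par n) : M μ φ p = ∫ x, φ x ∂tlt μ p := by
  rw [tlt, integral_tilted, M, Nf, Zf, Nf, ← integral_div]
  simp only [one_mul, smul_eq_mul]
  refine integral_congr_ae (ae_of_all _ fun x => by ring)

theorem M_const (hμ : Car μ R) (c : ℝ) (p : Par n) : M μ (fun _ => c) p = c := by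
  have := (hμ.tlt p).prob
  simp [M_eq]

theorem M_zero (hμ : Car μ R) (φ : Space n → ℝ) : M μ φ (0 : Par n) = ∫ x, φ x ∂μ := by
  rw [M, Zf_zero hμ, div_one]
  simp [Nf, ker]

theorem M_add (hμ : Car μ R) (h : Adm R φ) (h' : Adm R ψ) (p : Par n) :
    M μ (fun x => φ x + ψ x) p = M μ φ p + M μ ψ p := by
  simp only [M_eq]
  exact integral_add ((hμ.tlt p).integrable h) ((hμ.tlt p).integrable h')

theorem M_smul (c : ℝ) (φ : Space n → ℝ) (p : Par n) :
    M μ (fun x => c * φ x) p = c * M μ φ p := by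
  simp only [M_eq]; exact integral_const_mul c _

theorem M_finsum (hμ : Car μ R) {ι : Type*} (s : Finset ι) {f : ι → Space n → ℝ}
    (h : ∀ i ∈ s, Adm R (f i)) (p : Par n) :
    M μ (fun x => ∑ i ∈ s, f i x) p = ∑ i ∈ s, M μ (f i) p := by
  simp only [M_eq]
  exact integral_finsetSum _ fun i hi => (hμ.tlt p).integrable (h i hi)

theorem abs_M_le (hμ : Car μ R) {C : ℝ} (hφ : Measurable φ)
    (hC : ∀ x, ‖x‖ ≤ R → |φ x| ≤ C) (p : Par n) : |M μ φ p| ≤ C := by
  rw [M, abs_div, abs_of_pos (Zf_pos hμ p), div_le_iff₀ (Zf_pos hμ p)]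
  exact abs_Nf_le hμ hφ hC p

theorem differentiable_M (hμ : Car μ R) (h : Adm R φ) : Differentiable ℝ (M μ φ) :=
  (differentiable_Nf hμ h).mul
    ((differentiable_Nf hμ (adm_continuous continuous_const R)).inv fun p => (Zf_pos hμ p).ne')

theorem bounded_M (hμ : Car μ R) (h : Adm R φ) : ∃ C, ∀ p, |M μ φ p| ≤ C :=
  let ⟨hm, C, hC⟩ := h; ⟨C, fun p => abs_M_le hμ hm hC p⟩

theorem hasDerivAt_M_time (hμ : Car μ R) (h : Adm R φ) (p : Par n) :
    HasDerivAt (fun s : ℝ => M μ φ (p + s • ((1 : ℝ), (0 : Space n))))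
      (-(1 / 2) * (M μ (fun x => φ x * ‖x‖ ^ 2) p - M μ φ p * M μ (fun x => ‖x‖ ^ 2) p)) 0 := by
  have h1 := hasDerivAt_Nf_time hμ h p
  have h2 := hasDerivAt_Nf_time hμ (adm_continuous (continuous_const (y := (1 : ℝ))) R) p
  have hz := Zf_pos hμ p
  refine ((h1.div h2 (by simpa [Zf] using hz.ne')).congr_deriv ?_).congr_of_eventuallyEq
    (Eventually.of_forall fun s => rfl)
  have e : ∀ u : Space n → ℝ, Nf μ (fun x => u x * (-(‖x‖ ^ 2) / 2)) p
      = -(1 / 2) * Nf μ (fun x => u x * ‖x‖ ^ 2) p := by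
    intro u
    simp only [Nf, ← integral_const_mul]
    exact integral_congr_ae (ae_of_all _ fun x => by ring)
  simp only [zero_smul, add_zero, e] at hz ⊢
  simp only [one_mul, M, Zf] at hz ⊢
  field_simp
  ring

theorem hasDerivAt_M_space (hμ : Car μ R) (h : Adm R φ) (p : Par n) (i : Fin n) :
    HasDerivAt (fun s : ℝ => M μ φ (p + s • ((0 : ℝ), ev i)))
      (M μ (fun x => φ x * x i) p - M μ φ p * bar μ i p) 0 := by
  have h1 := hasDerivAt_Nf_space hμ h p i
  have h2 := hasDerivAt_Nf_space hμ (adm_continuous (continuous_const (y := (1 : ℝ))) R) p i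
  have hz := Zf_pos hμ p
  refine ((h1.div h2 (by simpa [Zf] using hz.ne')).congr_deriv ?_).congr_of_eventuallyEq
    (Eventually.of_forall fun s => rfl)
  simp only [zero_smul, add_zero, one_mul, M, bar, Zf] at hz ⊢
  field_simp

end Vale.Agent.P245
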