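import Vale.Agent.P245.GradBound
import Vale.Agent.P245.Levels

/-!
The Poincare inequality with constant of order `n ^ (1/q)`, from the tail of the covariance of the
tilts.
-/

noncomputable section

open MeasureTheory Set Filter Topology
open scoped ENNReal

namespace Vale.Agent.P245

variable {n : ℕ} {μ : Measure (Space n)} {R : ℝ}

/-- The tail hypothesis at scale `N`, in the form used below. -/
def TiltTail (μ : Measure (Space n)) (N ρ c : ℝ) : Prop :=
  ∀ t : ℝ, 0 < t → t * N ≤ c → ∃ w : Par n → ℝ, Obs w ∧ (∀ p, 0 ≤ w p) ∧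
    (∀ p, w p < 1 → ∀ θ : Space n, var (tlt μ p) (fun x => inner ℝ θ x) ≤ ρ * N * ‖θ‖ ^ 2) ∧
    Et μ t w ≤ Real.exp (-(c / N / t))

theorem le_exp_half {u : ℝ} (hu : 0 ≤ u) : u ≤ Real.exp (u / 2) := by
  have h := pow_le_pow_left₀ (show 0 ≤ u / 4 + 1 by linarith) (Real.add_one_le_exp (u / 4)) 2
  rw [← Real.exp_nat_mul] at h
  norm_num at h
  rw [show 2 * (u / 4) = u / 2 by ring] at h
  nlinarith [sq_nonneg (u / 4 - 1)]

/-- Below a fixed size of the support, the logarithmic weight is comparable to that size. -/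
theorem mul_log_two_div_sq_le {p F : ℝ} (hp : 0 < p) (hp2 : p ≤ 1 / 2) (hF : 0 ≤ F) (hF1 : F ≤ 1) :
    F * Real.log (2 / F) ^ 2 ≤ 2 * Real.log (2 / p) ^ 2 * (F + p) := by
  set L := Real.log (2 / p) with hL
  have hL1 : 1 ≤ L := by
    have h4 : Real.exp 1 ≤ 4 := by linarith [Real.exp_one_lt_three]
    have h2 : 4 ≤ 2 / p := by rw [le_div_iff₀ hp]; linarith
    rw [hL, ← Real.log_exp 1]
    exact Real.log_le_log (Real.exp_pos 1) (h4.trans h2)
  rcases hF.eq_or_lt with h0 | h0
  · rw [← h0, zero_mul]; positivity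
  have hl0 : 0 ≤ Real.log (2 / F) := Real.log_nonneg (by rw [le_div_iff₀ h0]; linarith)
  rcases le_or_gt p F with hpF | hpF
  · have hle : Real.log (2 / F) ≤ L := Real.log_le_log (by positivity) (by gcongr)
    have := pow_le_pow_left₀ hl0 hle 2
    nlinarith [mul_le_mul_of_nonneg_left this hF, sq_nonneg L]
  · set u := Real.log (p / F) with hu
    have hu0 : 0 ≤ u := Real.log_nonneg (by rw [le_div_iff₀ h0]; linarith)
    have e : Real.log (2 / F) = L + u := by
      rw [hL, hu, ← Real.log_mul (by positivity) (by positivity)]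
      congr 1; field_simp
    have hq : F * Real.exp u = p := by rw [hu, Real.exp_log (by positivity)]; field_simp
    have h4 : (L + u) ^ 2 ≤ 2 * L ^ 2 + 2 * u ^ 2 := by nlinarith [sq_nonneg (L - u)]
    rw [e]
    have h6 : p ≤ p * L ^ 2 := le_mul_of_one_le_right hp.le (one_le_pow₀ hL1)
    have h8 : F * (L + u) ^ 2 ≤ F * (2 * L ^ 2 + 2 * u ^ 2) := mul_le_mul_of_nonneg_left h4 hF
    have h11 : u ^ 2 ≤ Real.exp u := by
      have h := pow_le_pow_left₀ hu0 (le_exp_half hu0) 2
      rw [← Real.exp_nat_mul] at h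
      exact h.trans_eq (by congr 1; push_cast; ring)
    have h10 : F * u ^ 2 ≤ p * L ^ 2 := by linarith [mul_le_mul_of_nonneg_left h11 hF]
    nlinarith

theorem exp_neg_div_div_le {a t T : ℝ} (ha : 0 < a) (ht : 0 < t) (hT : t ≤ T) :
    Real.exp (-(a / t)) / t ≤ Real.exp (-(a / (2 * T))) / a := by
  set u := a / t with hu
  have hu0 : 0 < u := by positivity
  have h1 : u ≤ Real.exp (u / 2) := le_exp_half hu0.le
  have h2 : Real.exp (-(u / 2)) ≤ Real.exp (-(a / (2 * T))) := by
    refine Real.exp_le_exp.2 (neg_le_neg ?_)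
    rw [hu, div_div, mul_comm t 2]
    gcongr
  have h3 : Real.exp (-u) * u ≤ Real.exp (-(u / 2)) := by
    have e : Real.exp (-(u / 2)) = Real.exp (-u) * Real.exp (u / 2) := by
      rw [← Real.exp_add]; congr 1; ring
    rw [e]; exact mul_le_mul_of_nonneg_left h1 (Real.exp_pos _).le
  rw [le_div_iff₀ ha, div_mul_eq_mul_div, mul_div_assoc, ← hu]
  linarith

/-- The variance case of the level inequality: supports of size bounded below. -/
theorem level_var {N ρ c : ℝ} (hμ : IsSLC 0 μ) (hR : Car μ R) (hN : 0 < N) (hρ : 0 ≤ ρ) (hc : 0 < c)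
    (htail : TiltTail μ N ρ c) {g : Space n → ℝ} (hg : ContDiff ℝ 2 g) (h0 : ∀ x, 0 ≤ g x)
    (h1 : ∀ x, g x ≤ 1) {p T σ : ℝ} (hp : p ≤ 1 / 2) (hT : 0 < T) (hTc : T * N ≤ c)
    (hσ : T * (ρ * N + 2 * N / c) ≤ σ) (hsupp : μ.real {x | g x ≠ 0} ≤ p)
    (hone : p / 16 ≤ μ.real {x | g x = 1}) : p / 32 - σ ≤ 2 / T * dir μ g := by
  have := hR.prob
  have hgc := hg.continuous
  have hi : ∀ u : Space n → ℝ, Continuous u → Integrable u μ := fun u hu =>
    hR.integrable (adm_continuous hu R)
  have ha : Adm R g := adm_continuous hgc R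
  have ha2 : Adm R fun x => g x ^ 2 := adm_continuous (by fun_prop) R
  have hdc : Continuous fun x => ‖fderiv ℝ g x‖ ^ 2 := (hg.continuous_fderiv (by norm_num)).norm.pow 2
  have had : Adm R fun x => ‖fderiv ℝ g x‖ ^ 2 := adm_continuous hdc R
  set J := (Jet.mom μ g).comp (fun s => s ^ 2) (fun s => 2 * s) (fun _ => 2) with hJdef
  have hM0 : ∀ p, 0 ≤ M μ g p := fun p => by rw [M_eq]; exact integral_nonneg h0
  have hM1 : ∀ p, M μ g p ≤ 1 := fun p => (le_abs_self _).trans
    (abs_M_le hR hgc.measurable (fun x _ => abs_le.2 ⟨by linarith [h0 x], h1 x⟩) p)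
  have hJ : J.Valid := (Jet.mom_valid hR ha).comp (a := 0) hM0
    (fun x _ => by simpa using hasDerivAt_pow 2 x)
    (fun x _ => by simpa using (hasDerivAt_id x).const_mul (2 : ℝ)) continuousOn_const
  have hL : ∀ p, Lop μ J p = grad2 (Jet.mom μ g) p := fun p => by
    rw [hJdef, Lop_comp, Lop_mom hR ha]; ring
  have hle : ∀ t ∈ Ioo 0 T, Et μ t (Lop μ J) ≤ ρ * N + 2 * N / c := by
    intro t ht
    obtain ⟨w, hw, hw0, hgood, hbad⟩ := htail t ht.1
      ((mul_le_mul_of_nonneg_right ht.2.le hN.le).trans hTc)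
    have hpt : ∀ z : Space n, Lop μ J (t, √t • z) ≤ ρ * N + 2 / t * w (t, √t • z) := by
      intro z
      rw [hL]
      set pp : Par n := (t, √t • z)
      have hw' := hw0 pp
      by_cases hlt : w pp < 1
      · have h := grad2_le_mean hR hgc h0 h1 (by positivity) (hgood pp hlt)
        have h' := mul_le_of_le_one_right (show 0 ≤ ρ * N by positivity) (hM1 pp)
        have : 0 ≤ 2 / t * w pp := mul_nonneg (div_nonneg zero_le_two ht.1.le) hw'
        linarith
      · have hs : IsSLC (0 + t) (tlt μ pp) := hμ.tlt pp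
        rw [zero_add] at hs
        have h := grad2_le_mean hR hgc h0 h1 (div_nonneg zero_le_two ht.1.le) (hs.var_inner ht.1)
        have h' := mul_le_of_le_one_right (div_nonneg zero_le_two ht.1.le) (hM1 pp)
        have h'' := mul_le_mul_of_nonneg_left (not_lt.1 hlt) (div_nonneg zero_le_two ht.1.le)
        have : 0 ≤ ρ * N := by positivity
        linarith
    refine (Et_mono hR (hJ.obs_Lop hR) ((Obs.const _).add ((Obs.const _).mul hw)) t hpt).trans ?_
    rw [Et_add hR (Obs.const _) ((Obs.const _).mul hw), Et_const hR _ ht.1.le, Et_smul]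
    refine add_le_add le_rfl ?_
    have h2 := mul_le_mul_of_nonneg_left hbad (div_nonneg zero_le_two ht.1.le)
    refine h2.trans ?_
    have h3 := exp_neg_div_div_le (div_pos hc hN) ht.1 ht.2.le
    have h4 : Real.exp (-(c / N / (2 * T))) ≤ 1 := Real.exp_le_one_iff.2 (by
      have : 0 ≤ c / N / (2 * T) := by positivity
      linarith)
    calc 2 / t * Real.exp (-(c / N / t)) = 2 * (Real.exp (-(c / N / t)) / t) := by ring
      _ ≤ 2 * (Real.exp (-(c / N / (2 * T))) / (c / N)) := by linarith
      _ ≤ 2 * (1 / (c / N)) := by gcongr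
      _ = 2 * N / c := by field_simp
  have hev := Et_sub_le hR hJ le_rfl hT.le (B := fun s => (ρ * N + 2 * N / c) * s)
    (B' := fun _ => ρ * N + 2 * N / c) (by fun_prop)
    (fun s _ => by simpa using (hasDerivAt_id s).const_mul (ρ * N + 2 * N / c)) hle
  have hJv : J.v = fun p => M μ g p ^ 2 := rfl
  rw [hJv, Et_zero hR] at hev
  simp only [M_zero hR, mul_zero, sub_zero] at hev
  have hpt2 : ∀ z : Space n, M μ (fun x => g x ^ 2) (T, √T • z) - M μ g (T, √T • z) ^ 2
      ≤ 2 / T * M μ (fun x => ‖fderiv ℝ g x‖ ^ 2) (T, √T • z) := by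
    intro z
    set pp : Par n := (T, √T • z)
    have hs : IsSLC (0 + T) (tlt μ pp) := hμ.tlt pp
    rw [zero_add] at hs
    have hν := hR.tlt pp
    have := hν.prob
    have hj : ∀ u : Space n → ℝ, Continuous u → Integrable u (tlt μ pp) := fun u hu =>
      hν.integrable (adm_continuous hu R)
    have hp' := hs.poincare hT hg
    simp only [M_eq]
    refine le_of_eq_of_le ?_ hp'
    rw [var]
    set m := ∫ y, g y ∂tlt μ pp with hm
    have e : (fun x => (g x - m) ^ 2) = fun x => g x ^ 2 + ((-2 * m) * g x + m ^ 2) := by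
      funext x; ring
    rw [e, integral_add (hj _ (by fun_prop)) (hj _ (by fun_prop)),
      integral_add (hj _ (by fun_prop)) (integrable_const _), integral_const_mul, ← hm, integral_const]
    simp
    ring
  have hav := Et_mono hR ((obs_M hR ha2).sub ((obs_M hR ha).pow 2)) ((Obs.const _).mul (obs_M hR had))
    T hpt2
  rw [Et_sub hR (obs_M hR ha2) ((obs_M hR ha).pow 2), Et_smul, Et_M hR ha2 hT.le,
    Et_M hR had hT.le] at hav
  set A := {x | g x ≠ 0} with hA
  have hAm : MeasurableSet A := (measurableSet_eq_fun hgc.measurable measurable_const).compl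
  have hB : μ.real {x | g x = 1} ≤ ∫ x, g x ^ 2 ∂μ := by
    have hBm : MeasurableSet {x | g x = 1} := measurableSet_eq_fun hgc.measurable measurable_const
    rw [← integral_indicator_one hBm]
    refine integral_mono ((integrable_const (1 : ℝ)).indicator hBm) (hi _ (by fun_prop)) fun x => ?_
    by_cases hx : g x = 1
    · rw [indicator_of_mem (show x ∈ {x | g x = 1} from hx), Pi.one_apply, hx]; norm_num
    · rw [indicator_of_notMem (show x ∉ {x | g x = 1} from hx)]; positivity
  set S0 := ∫ x, g x ^ 2 ∂μ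
  set G0 := ∫ x, g x ∂μ with hG0
  have hGS : G0 ^ 2 ≤ p * S0 := by
    have key : ∀ l : ℝ, 0 ≤ μ.real A * (l * l) + (-2 * G0) * l + S0 := by
      intro l
      have hind : Integrable (A.indicator fun _ => l * l) μ := (integrable_const (l * l)).indicator hAm
      have hnn : 0 ≤ ∫ x, (g x ^ 2 + ((-2 * l) * g x + A.indicator (fun _ => l * l) x)) ∂μ :=
        integral_nonneg fun x => by
          show 0 ≤ g x ^ 2 + ((-2 * l) * g x + A.indicator (fun _ => l * l) x)
          by_cases hx : g x = 0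
          · rw [indicator_of_notMem (show x ∉ A by simp [hA, hx]), hx]; norm_num
          · rw [indicator_of_mem (show x ∈ A from hx)]; nlinarith [sq_nonneg (g x - l)]
      have h2g : Integrable (fun x => (-2 * l) * g x) μ := hi _ (by fun_prop)
      have hrest : Integrable (fun x => (-2 * l) * g x + A.indicator (fun _ => l * l) x) μ := h2g.add hind
      rw [integral_add (hi _ (by fun_prop)) hrest, integral_add h2g hind, integral_const_mul, integral_indicator_const _ hAm,
        smul_eq_mul, ← hG0] at hnn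
      linarith
    have := discrim_le_zero key
    rw [discrim] at this
    have hS0 : 0 ≤ S0 := integral_nonneg fun x => sq_nonneg _
    nlinarith [mul_le_mul_of_nonneg_right hsupp hS0]
  have hS0' : p / 16 ≤ S0 := hone.trans hB
  have hdir : ∫ x, ‖fderiv ℝ g x‖ ^ 2 ∂μ = dir μ g := rfl
  rw [hdir] at hav
  nlinarith [mul_le_mul_of_nonneg_left hp (show 0 ≤ S0 from (integral_nonneg fun x => sq_nonneg _))]

/-- The entropy case of the level inequality: small supports. -/
theorem level_ent {N ρ c : ℝ} (hμ : IsSLC 0 μ) (hR : Car μ R) (hN : 0 < N) (hρ : 1 ≤ ρ) (hc : 0 < c) (hc1 : c ≤ 1)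
    (htail : TiltTail μ N ρ c) {g : Space n → ℝ} (hg : ContDiff ℝ 2 g) (h0 : ∀ x, 0 ≤ g x)
    (h1 : ∀ x, g x ≤ 1) {p c₀ : ℝ} (hp0 : 0 < p) (hp : p ≤ 1 / 2) (hc₀ : c₀ = c / (204800 * ρ))
    (hL : 256 ≤ Real.log (2 / p)) (hsupp : μ.real {x | g x ≠ 0} ≤ p)
    (hone : p / 16 ≤ μ.real {x | g x = 1}) : p ≤ 64 * N / c₀ * dir μ g := by
  have := hR.prob
  set L := Real.log (2 / p) with hLdef
  have hc0 : 0 < c₀ := by rw [hc₀]; positivity
  have hc02 : c₀ ≤ c / 2 := by
    rw [hc₀]; exact div_le_div_of_nonneg_left hc.le two_pos (by linarith)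
  set T := c₀ / (N * L) with hTdef
  have hT : 0 < T := by positivity
  have hTc : T * N ≤ c := by
    rw [hTdef, div_mul_eq_mul_div, div_le_iff₀ (by positivity)]
    nlinarith [mul_nonneg hN.le (sub_nonneg.2 (le_trans (by norm_num : (1 : ℝ) ≤ 256) hL)), hc02, hc0]
  have hgc := hg.continuous
  set φ : Space n → ℝ := fun x => g x ^ 2 with hφdef
  have hφc : Continuous φ := hgc.pow 2
  have hφ0 : ∀ x, 0 ≤ φ x := fun x => sq_nonneg _
  have hφ1 : ∀ x, φ x ≤ 1 := fun x => pow_le_one₀ (h0 x) (h1 x)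
  have hi : ∀ u : Space n → ℝ, Continuous u → Integrable u μ := fun u hu =>
    hR.integrable (adm_continuous hu R)
  have ha : Adm R φ := adm_continuous hφc R
  have hF0 : ∀ p, 0 ≤ M μ φ p := fun p => by rw [M_eq]; exact integral_nonneg hφ0
  have hF1 : ∀ p, M μ φ p ≤ 1 := fun p => (le_abs_self _).trans
    (abs_M_le hR hφc.measurable (fun x _ => abs_le.2 ⟨by linarith [hφ0 x], hφ1 x⟩) p)
  set η := p ^ 2 with hηdef
  have hη : 0 < η := by positivity
  have hη1 : η ≤ p := by rw [hηdef, sq]; exact mul_le_of_le_one_left hp0.le (by linarith)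
  set J := (Jet.mom μ φ).comp (fun s => (s + η) * Real.log (s + η)) (fun s => Real.log (s + η) + 1)
    (fun s => (s + η)⁻¹) with hJdef
  have hJ : J.Valid := (Jet.mom_valid hR ha).comp (a := 0) hF0
    (fun x hx => by
      have hne : x + η ≠ 0 := by positivity
      refine (((hasDerivAt_id x).add_const η).mul (((hasDerivAt_id x).add_const η).log hne)).congr_deriv ?_
      simp only [id_eq, one_mul]; field_simp)
    (fun x hx => by
      have hne : x + η ≠ 0 := by positivity
      refine ((((hasDerivAt_id x).add_const η).log hne).add_const 1).congr_deriv ?_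
      simp [one_div])
    (ContinuousOn.inv₀ (by fun_prop) fun x hx => by
      have : (0 : ℝ) ≤ x := hx
      positivity)
  set ε := Real.exp (-(c / N / (2 * T))) / (c / N) with hεdef
  have hle : ∀ t ∈ Ioo 0 T, Et μ t (Lop μ J) ≤ 3200 * (ρ * N) * L ^ 2 * p + ε := by
    intro t ht
    obtain ⟨w, hw, hw0, hgood, hbad⟩ := htail t ht.1
      ((mul_le_mul_of_nonneg_right ht.2.le hN.le).trans hTc)
    have hpt : ∀ z : Space n, Lop μ J (t, √t • z) ≤ 1600 * (ρ * N) * L ^ 2 *
        (M μ φ (t, √t • z) + p) + 1 / t * w (t, √t • z) := by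
      intro z
      set pp : Par n := (t, √t • z)
      rw [hJdef, Lop_comp, Lop_mom hR ha, mul_zero, zero_add]
      set F := M μ φ pp with hFdef
      have hFη : 0 < F + η := by linarith [hF0 pp]
      have hX : 0 ≤ 1600 * (ρ * N) * L ^ 2 * (F + p) := mul_nonneg (by positivity) (by linarith [hF0 pp])
      have hY : 0 ≤ 1 / t * w pp := mul_nonneg (div_nonneg zero_le_one ht.1.le) (hw0 pp)
      show 1 / 2 * (F + η)⁻¹ * grad2 (Jet.mom μ φ) pp ≤ _
      by_cases hlt : w pp < 1
      · have h := grad2_le_log hμ hR hφc hφ0 hφ1 (p := pp) (by simpa [pp] using ht.1.le) (by positivity)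
          (hgood pp hlt)
        rw [← hFdef] at h
        have hk := mul_log_two_div_sq_le hp0 hp (hF0 pp) (hF1 pp)
        rw [← hFdef, ← hLdef] at hk
        have hdiv : F * F / (F + η) ≤ F := by
          rw [div_le_iff₀ hFη]; nlinarith [hF0 pp]
        have : 1 / 2 * (F + η)⁻¹ * grad2 (Jet.mom μ φ) pp ≤ 800 * (ρ * N) * (F * Real.log (2 / F) ^ 2) := by
          calc 1 / 2 * (F + η)⁻¹ * grad2 (Jet.mom μ φ) pp
              ≤ 1 / 2 * (F + η)⁻¹ * (1600 * (ρ * N) * (F * Real.log (2 / F)) ^ 2) :=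
                mul_le_mul_of_nonneg_left h (by positivity)
            _ = 800 * (ρ * N) * (F * F / (F + η) * Real.log (2 / F) ^ 2) := by ring
            _ ≤ _ := by gcongr
        have h' := mul_le_mul_of_nonneg_left hk (show 0 ≤ 800 * (ρ * N) by positivity)
        linarith
      · have hs : IsSLC (0 + t) (tlt μ pp) := hμ.tlt pp
        rw [zero_add] at hs
        have h := grad2_le_mean hR hφc hφ0 hφ1 (div_nonneg zero_le_two ht.1.le) (hs.var_inner ht.1)
        rw [← hFdef] at h
        have hdiv : F / (F + η) ≤ 1 := by rw [div_le_one hFη]; linarith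
        have h2 : 1 / 2 * (F + η)⁻¹ * grad2 (Jet.mom μ φ) pp ≤ 1 / t := by
          calc 1 / 2 * (F + η)⁻¹ * grad2 (Jet.mom μ φ) pp
              ≤ 1 / 2 * (F + η)⁻¹ * (2 / t * F) := mul_le_mul_of_nonneg_left h (by positivity)
            _ = 1 / t * (F / (F + η)) := by ring
            _ ≤ 1 / t := mul_le_of_le_one_right (div_nonneg zero_le_one ht.1.le) hdiv
        have h3 := le_mul_of_one_le_right (div_nonneg zero_le_one ht.1.le) (not_lt.1 hlt)
        linarith
    refine (Et_mono hR (hJ.obs_Lop hR) (((Obs.const _).mul ((obs_M hR ha).add (Obs.const p))).add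
      ((Obs.const _).mul hw)) t hpt).trans ?_
    rw [Et_add hR ((Obs.const _).mul ((obs_M hR ha).add (Obs.const p))) ((Obs.const _).mul hw), Et_smul,
      Et_smul, Et_add hR (obs_M hR ha) (Obs.const p), Et_M hR ha ht.1.le, Et_const hR _ ht.1.le]
    refine add_le_add ?_ ?_
    · have hS : ∫ x, φ x ∂μ ≤ p := by
        refine le_trans ?_ hsupp
        have hAm : MeasurableSet {x | g x ≠ 0} := (measurableSet_eq_fun hgc.measurable measurable_const).compl
        rw [← integral_indicator_one hAm]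
        refine integral_mono (hi _ hφc) ((integrable_const (1 : ℝ)).indicator hAm) fun x => ?_
        by_cases hx : g x = 0
        · rw [indicator_of_notMem (show x ∉ {x | g x ≠ 0} by simpa using hx)]; simp [hφdef, hx]
        · rw [indicator_of_mem (show x ∈ {x | g x ≠ 0} from hx)]; exact hφ1 x
      calc 1600 * (ρ * N) * L ^ 2 * (∫ x, φ x ∂μ + p) ≤ 1600 * (ρ * N) * L ^ 2 * (p + p) := by gcongr
        _ = _ := by ring
    · calc 1 / t * Et μ t w ≤ 1 / t * Real.exp (-(c / N / t)) :=
            mul_le_mul_of_nonneg_left hbad (div_nonneg zero_le_one ht.1.le)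
        _ = Real.exp (-(c / N / t)) / t := by ring
        _ ≤ ε := exp_neg_div_div_le (div_pos hc hN) ht.1 ht.2.le
  have hev := Et_sub_le hR hJ le_rfl hT.le (B := fun s => (3200 * (ρ * N) * L ^ 2 * p + ε) * s)
    (B' := fun _ => 3200 * (ρ * N) * L ^ 2 * p + ε) (by fun_prop)
    (fun s _ => by simpa using (hasDerivAt_id s).const_mul (3200 * (ρ * N) * L ^ 2 * p + ε)) hle
  have hJv : J.v = fun p => (M μ φ p + η) * Real.log (M μ φ p + η) := rfl
  rw [hJv, Et_zero hR, M_zero hR] at hev
  simp only [mul_zero, sub_zero] at hev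
  have hbudget : (3200 * (ρ * N) * L ^ 2 * p + ε) * T ≤ p * L / 64 + p / 2 := by
    rw [add_mul]
    refine add_le_add ?_ ?_
    · have e : 3200 * (ρ * N) * L ^ 2 * p * T = 3200 * ρ * c₀ * (p * L) := by
        rw [hTdef]; field_simp
      rw [e, hc₀]
      calc 3200 * ρ * (c / (204800 * ρ)) * (p * L) = c / 64 * (p * L) := by field_simp; ring
        _ ≤ 1 / 64 * (p * L) := by gcongr
        _ = _ := by ring
    · have e : ε * T = c₀ / (c * L) * Real.exp (-(c * L / (2 * c₀))) := by
        rw [hεdef, hTdef]; field_simp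
      have h2 : Real.exp (-(c * L / (2 * c₀))) ≤ Real.exp (-L) := by
        refine Real.exp_le_exp.2 (neg_le_neg ?_)
        rw [le_div_iff₀ (by positivity)]; nlinarith
      have h3 : Real.exp (-L) = p / 2 := by
        rw [hLdef, Real.exp_neg, Real.exp_log (by positivity)]; field_simp
      have h4 : c₀ / (c * L) ≤ 1 := by rw [div_le_one (by positivity)]; nlinarith
      rw [e]
      exact (mul_le_of_le_one_left (Real.exp_pos _).le h4).trans (h2.trans_eq h3)
  set A := {x | g x ≠ 0} with hAdef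
  have hAm : MeasurableSet A := (measurableSet_eq_fun hgc.measurable measurable_const).compl
  have hAind : Adm R (A.indicator fun _ => (1 : ℝ)) := ⟨measurable_const.indicator hAm, 1, fun x _ => by
    by_cases hx : x ∈ A <;> simp [hx]⟩
  have hdc : Continuous fun x => ‖fderiv ℝ g x‖ ^ 2 := (hg.continuous_fderiv (by norm_num)).norm.pow 2
  have had : Adm R fun x => ‖fderiv ℝ g x‖ ^ 2 := adm_continuous hdc R
  have hlo : ∀ z : Space n, -(2 / T * M μ (fun x => ‖fderiv ℝ g x‖ ^ 2) (T, √T • z)
      + M μ (A.indicator fun _ => (1 : ℝ)) (T, √T • z) + η * -Real.log η)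
      ≤ J.v (T, √T • z) := by
    intro z
    set pp : Par n := (T, √T • z)
    have hs : IsSLC (0 + T) (tlt μ pp) := hμ.tlt pp
    rw [zero_add] at hs
    have hν := hR.tlt pp
    have := hν.prob
    have hlsi := hs.lsi hT hg
    have hd : dir (tlt μ pp) g = M μ (fun x => ‖fderiv ℝ g x‖ ^ 2) pp := (M_eq _ _).symm
    rw [hd, ent] at hlsi
    have hlow : -M μ (A.indicator fun _ => (1 : ℝ)) pp ≤ ∫ x, g x ^ 2 * Real.log (g x ^ 2) ∂tlt μ pp := by
      rw [M_eq, ← integral_neg]
      refine integral_mono (hν.integrable hAind).neg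
        (hν.integrable (adm_continuous (Real.continuous_mul_log.comp hφc) R)) fun x => ?_
      by_cases hx : g x = 0
      · rw [indicator_of_notMem (show x ∉ A by simpa [hAdef] using hx)]; simp [hx]
      · rw [indicator_of_mem (show x ∈ A from hx)]
        have hpos : 0 < g x ^ 2 := by positivity
        have := mul_le_mul_of_nonneg_left (Real.one_sub_inv_le_log_of_pos hpos) hpos.le
        rw [mul_sub, mul_one, mul_inv_cancel₀ hpos.ne'] at this
        linarith
    show _ ≤ (M μ φ pp + η) * Real.log (M μ φ pp + η)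
    set F := M μ φ pp with hFdef
    have hFeq : F = ∫ x, g x ^ 2 ∂tlt μ pp := M_eq _ _
    rw [← hFeq] at hlsi
    have h3 : F * Real.log F ≤ F * Real.log (F + η) := by
      rcases (hF0 pp).eq_or_lt with hz | hz
      · rw [← hFdef] at hz; rw [← hz]; simp
      · exact mul_le_mul_of_nonneg_left (Real.log_le_log hz (by linarith)) (hF0 pp)
    have h4 : η * Real.log η ≤ η * Real.log (F + η) :=
      mul_le_mul_of_nonneg_left (Real.log_le_log hη (by linarith [hF0 pp])) hη.le
    linarith
  have hT2 := Et_mono hR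
    ((((Obs.const _).mul (obs_M hR had)).add (obs_M hR hAind)).add (Obs.const (η * -Real.log η))).neg
    hJ.ov T hlo
  rw [show (fun q : Par n => -(2 / T * M μ (fun x => ‖fderiv ℝ g x‖ ^ 2) q
      + M μ (A.indicator fun _ => (1 : ℝ)) q + η * -Real.log η))
    = fun q => (-1 : ℝ) * (2 / T * M μ (fun x => ‖fderiv ℝ g x‖ ^ 2) q
      + M μ (A.indicator fun _ => (1 : ℝ)) q + η * -Real.log η) from funext fun q => by ring,
    Et_smul, Et_add hR (((Obs.const _).mul (obs_M hR had)).add (obs_M hR hAind)) (Obs.const _),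
    Et_add hR ((Obs.const _).mul (obs_M hR had)) (obs_M hR hAind), Et_smul, Et_M hR had hT.le,
    Et_M hR hAind hT.le, Et_const hR _ hT.le, integral_indicator_const _ hAm, smul_eq_mul, mul_one,
    hJv, show ∫ x, ‖fderiv ℝ g x‖ ^ 2 ∂μ = dir μ g from rfl] at hT2
  have hetalog : η * -Real.log η ≤ 2 * p := by
    have hlp : -Real.log p ≤ 1 / p := by
      have := Real.one_sub_inv_le_log_of_pos hp0
      rw [one_div]; linarith
    rw [hηdef, Real.log_pow]
    push_cast
    calc p ^ 2 * -(2 * Real.log p) = 2 * p * (p * -Real.log p) := by ring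
      _ ≤ 2 * p * (p * (1 / p)) := by gcongr
      _ = 2 * p := by field_simp
  set S0 := ∫ x, φ x ∂μ with hS0def
  have hS0 : p / 16 ≤ S0 := by
    refine hone.trans ?_
    have hBm : MeasurableSet {x | g x = 1} := measurableSet_eq_fun hgc.measurable measurable_const
    rw [← integral_indicator_one hBm]
    refine integral_mono ((integrable_const (1 : ℝ)).indicator hBm) (hi _ hφc) fun x => ?_
    by_cases hx : g x = 1
    · rw [indicator_of_mem (show x ∈ {x | g x = 1} from hx)]; simp [hφdef, hx]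
    · rw [indicator_of_notMem (show x ∉ {x | g x = 1} from hx)]; exact hφ0 x
  have hS0p : S0 ≤ p := by
    refine le_trans ?_ hsupp
    rw [← integral_indicator_one hAm]
    refine integral_mono (hi _ hφc) ((integrable_const (1 : ℝ)).indicator hAm) fun x => ?_
    by_cases hx : g x = 0
    · rw [indicator_of_notMem (show x ∉ A by simpa [hAdef] using hx)]; simp [hφdef, hx]
    · rw [indicator_of_mem (show x ∈ A from hx)]; exact hφ1 x
  have hlog0 : Real.log (S0 + η) ≤ 2 * Real.log 2 - L := by
    have e : L = Real.log 2 - Real.log p := Real.log_div two_ne_zero hp0.ne'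
    have h := Real.log_le_log (show 0 < S0 + η by linarith) (show S0 + η ≤ 2 * p by linarith)
    rw [Real.log_mul two_ne_zero hp0.ne'] at h
    linarith
  have hl2 : Real.log 2 ≤ 1 := by linarith [Real.log_le_sub_one_of_pos (show (0 : ℝ) < 2 by norm_num)]
  have hinit : (S0 + η) * Real.log (S0 + η) ≤ p / 16 * (2 - L) := by
    have hneg : 2 - L ≤ 0 := by linarith
    calc (S0 + η) * Real.log (S0 + η) ≤ (S0 + η) * (2 - L) :=
          mul_le_mul_of_nonneg_left (by linarith) (by linarith)
      _ ≤ p / 16 * (2 - L) := mul_le_mul_of_nonpos_right (by linarith) hneg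
  have h256 := mul_le_mul_of_nonneg_left hL hp0.le
  have hmain : p * L / 32 ≤ 2 / T * dir μ g := by linarith
  have e : 2 / T * dir μ g = L * (2 * N / c₀ * dir μ g) := by rw [hTdef]; field_simp
  rw [e] at hmain
  have h5 : L * (p / 32) ≤ L * (2 * N / c₀ * dir μ g) := by linarith
  have := le_of_mul_le_mul_left h5 (by linarith)
  calc p = 32 * (p / 32) := by ring
    _ ≤ 32 * (2 * N / c₀ * dir μ g) := by linarith
    _ = _ := by ring

/-- The Poincare inequality from the tail of the covariance of the tilts. -/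
theorem poincareBound_of_tail {q : ℕ} (hq : 4 ≤ q) (h : PotentialTail q) : PoincareBound q := by
  obtain ⟨ρ, c, hρ, hc, hc1, htail⟩ := h 1 le_rfl
  obtain ⟨Cp, hCp, hpo⟩ := poincare_of_level
  set ps := 2 * Real.exp (-256) with hps
  have hps0 : 0 < ps := by positivity
  set c₀ := c / (204800 * ρ) with hc₀
  have hc₀0 : 0 < c₀ := by positivity
  set c₁ := c * ps / (128 * (ρ + 2)) with hc₁
  have hc₁0 : 0 < c₁ := by positivity
  refine ⟨Cp * (64 / c₀ + 128 / c₁), by positivity, fun n μ hn hμ hsub f hf => ?_⟩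
  obtain ⟨R, hR⟩ := hμ.car
  have := hR.prob
  set N := (n : ℝ) ^ ((q : ℝ)⁻¹) with hNdef
  have hn0 : (0 : ℝ) < n := by exact_mod_cast hn
  have hN : 0 < N := Real.rpow_pos_of_pos hn0 _
  have htt : TiltTail μ N ρ c := by
    intro t ht htc
    obtain ⟨w, hw, hw0, hgood, hbad⟩ := htail n μ R hn hμ hsub hR t ht htc
    refine ⟨w, hw, hw0, hgood, hbad.trans_eq ?_⟩
    congr 2
    rw [one_mul, div_div, mul_comm t, hNdef]
  rw [show Cp * (64 / c₀ + 128 / c₁) * N * dir μ f
    = Cp * ((64 / c₀ + 128 / c₁) * N) * dir μ f by ring]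
  refine hpo n μ R _ hR (by positivity) (fun g p hg h0 h1 hp hsupp hone => ?_) f hf
  have hd : 0 ≤ dir μ g := dir_nonneg _
  rcases le_or_gt p 0 with hp0 | hp0
  · exact hp0.trans (by positivity)
  rcases le_or_gt 256 (Real.log (2 / p)) with hL | hL
  · refine (level_ent hμ hR hN hρ hc hc1 htt hg h0 h1 hp0 hp rfl hL hsupp hone).trans ?_
    refine mul_le_mul_of_nonneg_right ?_ hd
    rw [add_mul, mul_div_right_comm]
    exact le_add_of_nonneg_right (by positivity)
  · have hpps : ps ≤ p := by
      rw [Real.log_lt_iff_lt_exp (by positivity), div_lt_iff₀ hp0] at hL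
      rw [hps, Real.exp_neg, ← div_eq_mul_inv, div_le_iff₀ (Real.exp_pos _)]
      linarith
    have hσ : c₁ / N * (ρ * N + 2 * N / c) ≤ ps / 128 := by
      calc c₁ / N * (ρ * N + 2 * N / c) = c₁ * (ρ + 2 / c) := by field_simp
        _ ≤ c₁ * ((ρ + 2) / c) := by
            refine mul_le_mul_of_nonneg_left ?_ hc₁0.le
            rw [add_div]; gcongr
            rw [le_div_iff₀ hc]; exact mul_le_of_le_one_right (by linarith) hc1
        _ = ps / 128 := by rw [hc₁]; field_simp
    have hps1 : ps ≤ 1 := hpps.trans (by linarith)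
    have hv := level_var hμ hR hN (by linarith) hc htt hg h0 h1 hp (div_pos hc₁0 hN) (by
      rw [div_mul_cancel₀ _ hN.ne', hc₁, div_le_iff₀ (by positivity)]
      nlinarith [mul_le_mul_of_nonneg_left hps1 hc.le]) hσ hsupp hone
    rw [show 2 / (c₁ / N) = 2 * N / c₁ by field_simp] at hv
    calc p ≤ 64 * (2 * N / c₁ * dir μ g) := by linarith
      _ = 128 / c₁ * N * dir μ g := by ring
      _ ≤ _ := by
        refine mul_le_mul_of_nonneg_right ?_ hd
        rw [add_mul]
        exact le_add_of_nonneg_left (by positivity)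

end Vale.Agent.P245
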