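import Vale.Agent.P245.Pins

/-!
Tightening of a defective logarithmic Sobolev inequality by a Poincare inequality, and the
resulting core bound.
-/

noncomputable section

open MeasureTheory Set
open scoped ENNReal

namespace Vale.Agent.P245

variable {n : ℕ} {μ : Measure (Space n)}

/-- The pointwise form of the tightening inequality, at unit variance. -/
theorem tighten_point_one (g m : ℝ) :
    (g + m) ^ 2 * Real.log ((g + m) ^ 2 / (m ^ 2 + 1)) - (g + m) ^ 2 + (m ^ 2 + 1)
      ≤ 9 / 4 * (g ^ 2 * Real.log (g ^ 2)) + 32 * g ^ 2 + 5 := by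
  have hc : 0 < m ^ 2 + 1 := by positivity
  have hlow : -1 ≤ g ^ 2 * Real.log (g ^ 2) := by
    rcases (sq_nonneg g).eq_or_lt with h | h
    · rw [← h]; norm_num
    · have h1 : 1 - (g ^ 2)⁻¹ ≤ Real.log (g ^ 2) := Real.one_sub_inv_le_log_of_pos h
      calc -1 ≤ g ^ 2 * (1 - (g ^ 2)⁻¹) := by
            rw [mul_sub, mul_one, mul_inv_cancel₀ h.ne']; linarith
        _ ≤ _ := mul_le_mul_of_nonneg_left h1 h.le
  by_cases hg : g ^ 2 ≤ 4 * (m ^ 2 + 1)
  · have hlog : (g + m) ^ 2 * Real.log ((g + m) ^ 2 / (m ^ 2 + 1))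
        ≤ (g + m) ^ 2 * ((g + m) ^ 2 / (m ^ 2 + 1) - 1) := by
      rcases (sq_nonneg (g + m)).eq_or_lt with h | h
      · rw [← h]; simp
      · exact mul_le_mul_of_nonneg_left (Real.log_le_sub_one_of_pos (by positivity)) h.le
    have e : (g + m) ^ 2 * ((g + m) ^ 2 / (m ^ 2 + 1) - 1) - (g + m) ^ 2 + (m ^ 2 + 1)
        = (g ^ 2 + 2 * g * m - 1) ^ 2 / (m ^ 2 + 1) := by
      field_simp; ring
    have h2 : (g ^ 2 + 2 * g * m - 1) ^ 2 / (m ^ 2 + 1) ≤ 32 * g ^ 2 + 2 := by
      rw [div_le_iff₀ hc]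
      have ha : (g + 2 * m) ^ 2 ≤ 16 * (m ^ 2 + 1) := by nlinarith [sq_nonneg (g - 2 * m)]
      nlinarith [sq_nonneg (g * (g + 2 * m) + 1),
        mul_le_mul_of_nonneg_left ha (sq_nonneg g)]
    linarith
  · rw [not_le] at hg
    have hg1 : 1 ≤ g ^ 2 := by nlinarith [sq_nonneg m]
    have hl0 : 0 ≤ Real.log (g ^ 2) := Real.log_nonneg hg1
    have hxg : (g + m) ^ 2 ≤ 9 / 4 * g ^ 2 := by nlinarith [sq_nonneg (g / 2 - m)]
    have key : (g + m) ^ 2 * Real.log ((g + m) ^ 2 / (m ^ 2 + 1))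
        ≤ 9 / 4 * (g ^ 2 * Real.log (g ^ 2)) + 45 / 16 * g ^ 2 := by
      have hpos : 0 ≤ 9 / 4 * (g ^ 2 * Real.log (g ^ 2)) + 45 / 16 * g ^ 2 := by positivity
      rcases le_or_gt ((g + m) ^ 2 / (m ^ 2 + 1)) 1 with h | h
      · exact le_trans
          (mul_nonpos_of_nonneg_of_nonpos (sq_nonneg _) (Real.log_nonpos (by positivity) h)) hpos
      · have h1 : (g + m) ^ 2 / (m ^ 2 + 1) ≤ 9 / 4 * g ^ 2 :=
          (div_le_self (sq_nonneg _) (by nlinarith [sq_nonneg m])).trans hxg
        have h2 := Real.log_le_log (by linarith) h1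
        rw [Real.log_mul (by norm_num) (by linarith : g ^ 2 ≠ 0)] at h2
        have h3 : Real.log (9 / 4) ≤ 9 / 4 - 1 := Real.log_le_sub_one_of_pos (by norm_num)
        calc (g + m) ^ 2 * Real.log ((g + m) ^ 2 / (m ^ 2 + 1))
            ≤ 9 / 4 * g ^ 2 * (5 / 4 + Real.log (g ^ 2)) :=
              mul_le_mul hxg (by linarith) (Real.log_nonneg h.le) (by positivity)
          _ = _ := by ring
    linarith [sq_nonneg (g + m), sq_nonneg g]

/-- The pointwise form of the tightening inequality, at variance `s`. -/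
theorem tighten_point {s : ℝ} (hs : 0 < s) (g m : ℝ) :
    (g + m) ^ 2 * Real.log ((g + m) ^ 2) - (g + m) ^ 2 * (Real.log (m ^ 2 + s) + 1) + (m ^ 2 + s)
      ≤ 9 / 4 * (g ^ 2 * Real.log (g ^ 2)) + (32 - 9 / 4 * Real.log s) * g ^ 2 + 5 * s := by
  have h := mul_le_mul_of_nonneg_left (tighten_point_one (g / √s) (m / √s)) hs.le
  rw [show g / √s + m / √s = (g + m) / √s by ring, div_pow, div_pow, div_pow,
    Real.sq_sqrt hs.le] at h
  have e1 : (g + m) ^ 2 / s / (m ^ 2 / s + 1) = (g + m) ^ 2 / (m ^ 2 + s) := by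
    field_simp
  rw [e1] at h
  have e2 : ∀ z c : ℝ, 0 < c → z * Real.log (z / c) = z * Real.log z - z * Real.log c := by
    intro z c hc
    rcases eq_or_ne z 0 with rfl | hz
    · simp
    · rw [Real.log_div hz hc.ne']; ring
  have hL : s * ((g + m) ^ 2 / s * Real.log ((g + m) ^ 2 / (m ^ 2 + s)) - (g + m) ^ 2 / s
      + (m ^ 2 / s + 1)) = (g + m) ^ 2 * Real.log ((g + m) ^ 2 / (m ^ 2 + s)) - (g + m) ^ 2
      + (m ^ 2 + s) := by
    field_simp
  have hR : s * (9 / 4 * (g ^ 2 / s * Real.log (g ^ 2 / s)) + 32 * (g ^ 2 / s) + 5)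
      = 9 / 4 * (g ^ 2 * Real.log (g ^ 2 / s)) + 32 * g ^ 2 + 5 * s := by
    field_simp
  rw [hL, hR, e2 _ _ (by positivity), e2 _ _ hs] at h
  linarith

/-- Entropy of a square is controlled by the entropy of the centred square and the variance. -/
theorem ent_tighten {R : ℝ} (hμ : Car μ R) {f : Space n → ℝ} (hf : Continuous f) :
    ent μ (fun x => f x ^ 2)
      ≤ 9 / 4 * ent μ (fun x => (f x - ∫ y, f y ∂μ) ^ 2) + 37 * var μ f := by
  have := hμ.prob
  have ii : ∀ {F : Space n → ℝ}, Continuous F → Integrable F μ := fun hF =>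
    hμ.integrable (adm_continuous hF R)
  set m := ∫ y, f y ∂μ
  set g : Space n → ℝ := fun x => f x - m with hgdef
  have hg : Continuous g := by simp only [hgdef]; fun_prop
  have hg0 : ∫ x, g x ∂μ = 0 := by
    simp [hgdef, integral_sub (ii hf) (integrable_const _), m]
  set s := var μ f with hsdef
  have hs : ∫ x, g x ^ 2 ∂μ = s := rfl
  have hcl : ∀ {F : Space n → ℝ}, Continuous F → Continuous fun x => F x * Real.log (F x) :=
    fun hF => Real.continuous_mul_log.comp hF
  rcases (show 0 ≤ s from integral_nonneg fun _ => sq_nonneg _).eq_or_lt with h0 | hpos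
  · have hgz : ∀ᵐ x ∂μ, g x = 0 := by
      have := (integral_eq_zero_iff_of_nonneg (fun x => sq_nonneg (g x))
        (ii (by fun_prop))).1 (hs.trans h0.symm)
      filter_upwards [this] with x hx
      simpa using hx
    have hfz : ∀ᵐ x ∂μ, f x = m := hgz.mono fun x hx => by
      simp only [hgdef] at hx; linarith
    have e1 : ent μ (fun x => f x ^ 2) = 0 := by
      simp only [ent]
      rw [integral_congr_ae (g := fun _ => m ^ 2 * Real.log (m ^ 2))
          (hfz.mono fun x hx => by simp only [hx]),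
        integral_congr_ae (f := fun x => f x ^ 2) (g := fun _ => m ^ 2)
          (hfz.mono fun x hx => by simp only [hx])]
      simp
    have e2 : ent μ (fun x => g x ^ 2) = 0 := by
      simp only [ent]
      rw [integral_congr_ae (g := fun _ => (0 : ℝ)) (hgz.mono fun x hx => by simp [hx]),
        integral_congr_ae (f := fun x => g x ^ 2) (g := fun _ => (0 : ℝ))
          (hgz.mono fun x hx => by simp [hx])]
      simp
    rw [e1, ← h0]
    show (0 : ℝ) ≤ 9 / 4 * ent μ (fun x => g x ^ 2) + 37 * 0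
    rw [e2]; norm_num
  · have hsum : ∫ x, f x ^ 2 ∂μ = m ^ 2 + s := by
      calc ∫ x, f x ^ 2 ∂μ = ∫ x, (g x ^ 2 + 2 * m * g x + m ^ 2) ∂μ :=
            integral_congr_ae (ae_of_all _ fun x => by simp only [hgdef]; ring)
        _ = _ := by
          have i1 : Integrable (fun x => g x ^ 2) μ := ii (by fun_prop)
          have i2 : Integrable (fun x => 2 * m * g x) μ := ii (by fun_prop)
          have i12 : Integrable (fun x => g x ^ 2 + 2 * m * g x) μ := i1.add i2
          rw [integral_add i12 (integrable_const _), integral_add i1 i2, integral_const_mul, hg0,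
            hs]
          simp; ring
    have hf2 : Continuous fun x => f x ^ 2 := by fun_prop
    have hg2 : Continuous fun x => g x ^ 2 := by fun_prop
    have iA : Integrable (fun x => f x ^ 2 * Real.log (f x ^ 2)) μ := ii (hcl hf2)
    have iB : Integrable (fun x => f x ^ 2 * (Real.log (m ^ 2 + s) + 1)) μ :=
      ii (hf2.mul continuous_const)
    have iC : Integrable (fun x => 9 / 4 * (g x ^ 2 * Real.log (g x ^ 2))) μ :=
      ii (continuous_const.mul (hcl hg2))
    have iD : Integrable (fun x => (32 - 9 / 4 * Real.log s) * g x ^ 2) μ :=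
      ii (continuous_const.mul hg2)
    have key : ∫ x, (f x ^ 2 * Real.log (f x ^ 2) - f x ^ 2 * (Real.log (m ^ 2 + s) + 1)
          + (m ^ 2 + s)) ∂μ
        ≤ ∫ x, (9 / 4 * (g x ^ 2 * Real.log (g x ^ 2))
          + (32 - 9 / 4 * Real.log s) * g x ^ 2 + 5 * s) ∂μ :=
      integral_mono ((iA.sub iB).add (integrable_const _)) ((iC.add iD).add (integrable_const _))
        fun x => by
          have h := tighten_point hpos (g x) m
          rwa [show g x + m = f x by simp [hgdef]] at h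
    have iAB : Integrable (fun x => f x ^ 2 * Real.log (f x ^ 2)
        - f x ^ 2 * (Real.log (m ^ 2 + s) + 1)) μ := iA.sub iB
    have iCD : Integrable (fun x => 9 / 4 * (g x ^ 2 * Real.log (g x ^ 2))
        + (32 - 9 / 4 * Real.log s) * g x ^ 2) μ := iC.add iD
    rw [integral_add iAB (integrable_const _), integral_sub iA iB, integral_mul_const,
      integral_add iCD (integrable_const _), integral_add iC iD, integral_const_mul,
      integral_const_mul, hsum, hs, integral_const, integral_const] at key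
    simp only [probReal_univ, one_smul] at key
    show ent μ (fun x => f x ^ 2) ≤ 9 / 4 * ent μ (fun x => g x ^ 2) + 37 * s
    simp only [ent, hsum, hs]
    linarith

/-- The defective inequality and the Poincare inequality give the core bound. -/
theorem coreBound {q : ℕ} (hq : 4 ≤ q) (hD : DefectiveBound) (hP : PoincareBound q) :
    CoreBound (1 / 3 + 1 / (3 * q)) := by
  obtain ⟨C, hC1, hD⟩ := hD
  obtain ⟨P, hP0, hP⟩ := hP
  have hC0 : 0 < C := by linarith
  refine ⟨9 / 4 * (C ^ 2 + P / C) + 37 * P, by positivity, fun n μ hn hμ hsub f hf => ?_⟩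
  have := hμ.prob
  obtain ⟨R, hcar⟩ := hμ.car
  set β : ℝ := 1 / 3 + 1 / (3 * q)
  have hn1 : (1 : ℝ) ≤ n := by exact_mod_cast hn
  have hn0 : (0 : ℝ) < n := by linarith
  have hq4 : (4 : ℝ) ≤ q := by exact_mod_cast hq
  set t : ℝ := (n : ℝ) ^ (-β) / C with ht
  have hnb : (1 : ℝ) ≤ (n : ℝ) ^ β := Real.one_le_rpow hn1 (by positivity)
  have hCt : C * t ≤ 1 := by
    rw [ht, mul_div_cancel₀ _ hC0.ne', Real.rpow_neg hn0.le]
    exact inv_le_one_of_one_le₀ hnb
  set m := ∫ y, f y ∂μ
  have hg : ContDiff ℝ 2 fun x => f x - m := hf.sub contDiff_const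
  have hdir : dir μ (fun x => f x - m) = dir μ f := by simp [dir, fderiv_sub_const]
  have hd0 : 0 ≤ dir μ f := dir_nonneg f
  have h1 : ent μ (fun x => (f x - m) ^ 2) ≤ C / t * dir μ f + C * t ^ 2 * n * var μ f :=
    le_of_le_of_eq (hD n μ hn hμ hsub t (by positivity) hCt _ hg) (by rw [hdir]; rfl)
  have h2 : var μ f ≤ P * (n : ℝ) ^ ((q : ℝ)⁻¹) * dir μ f := hP n μ hn hμ hsub f hf
  have h3 := ent_tighten (f := f) hcar hf.continuous
  have hA : C / t = C ^ 2 * (n : ℝ) ^ β := by
    rw [ht, Real.rpow_neg hn0.le]; field_simp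
  have hB : C * t ^ 2 * n * (P * (n : ℝ) ^ ((q : ℝ)⁻¹)) = P / C * (n : ℝ) ^ β := by
    have e : (n : ℝ) ^ (-β) * (n : ℝ) ^ (-β) * n * (n : ℝ) ^ ((q : ℝ)⁻¹) = (n : ℝ) ^ β := by
      rw [← Real.rpow_add hn0, ← Real.rpow_add_one hn0.ne', ← Real.rpow_add hn0]
      congr 1
      simp only [β]; field_simp; ring
    rw [ht, ← e]
    field_simp
  have hE : P * (n : ℝ) ^ ((q : ℝ)⁻¹) ≤ P * (n : ℝ) ^ β := by
    refine mul_le_mul_of_nonneg_left (Real.rpow_le_rpow_of_exponent_le hn1 ?_) hP0.le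
    simp only [β]
    rw [← sub_nonneg, show 1 / 3 + 1 / (3 * (q : ℝ)) - (q : ℝ)⁻¹ = ((q : ℝ) - 2) / (3 * q) by
      field_simp; ring]
    exact div_nonneg (by linarith) (by positivity)
  have h4 : C * t ^ 2 * n * var μ f ≤ P / C * (n : ℝ) ^ β * dir μ f :=
    calc _ ≤ C * t ^ 2 * n * (P * (n : ℝ) ^ ((q : ℝ)⁻¹) * dir μ f) :=
          mul_le_mul_of_nonneg_left h2 (by positivity)
      _ = _ := by rw [← hB]; ring
  have h5 : var μ f ≤ P * (n : ℝ) ^ β * dir μ f :=
    h2.trans (mul_le_mul_of_nonneg_right hE hd0)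
  rw [hA] at h1
  nlinarith

end Vale.Agent.P245
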