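import Vale.Agent.P245.Quad

/-!
The tail of the trace potential along the channel of a subgaussian log-concave vector.
-/

noncomputable section

open MeasureTheory Set Filter Topology Matrix

namespace Vale.Agent.P245

variable {n : ℕ} {μ : Measure (Space n)} {R : ℝ}

theorem Sub1.integral_cen_eq (hS : Sub1 μ) (hμ : Car μ R) (i : Fin n) : ∫ x, x i ∂μ = 0 := by
  have hid : Integrable (fun x : Space n => x) μ := by
    have := hμ.prob
    exact integrable_of_ball hμ.bd continuous_id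
  have h := (EuclideanSpace.proj i : Space n →L[ℝ] ℝ).integral_comp_comm hid
  simpa [hS.1] using h

theorem Sub1.op_le_one (hS : Sub1 μ) (hμ : Car μ R) (v : Fin n → ℝ) :
    v ⬝ᵥ covM μ *ᵥ v ≤ v ⬝ᵥ v := by
  have := hμ.prob
  rw [← integral_dot_sq hμ]
  set θ : Space n := WithLp.toLp 2 v with hθ
  have hcen : ∀ x, v ⬝ᵥ cen μ x = inner ℝ x θ := fun x => by
    simp [cen, hS.integral_cen_eq hμ, hθ, PiLp.inner_apply, dotProduct]
  have hvv : v ⬝ᵥ v = ‖θ‖ ^ 2 := by
    rw [EuclideanSpace.norm_sq_eq]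
    simp [hθ, dotProduct, sq]
  simp only [hcen, hvv]
  rcases eq_or_ne θ 0 with h0 | h0
  · simp [h0]
  · have hs : 0 < ‖θ‖ := norm_pos_iff.2 h0
    have h1 := hS.2 (‖θ‖⁻¹ • θ) (by rw [norm_smul, norm_inv, norm_norm, inv_mul_cancel₀ hs.ne'])
    have h2 : ∫ x, inner ℝ x (‖θ‖⁻¹ • θ) ^ 2 ∂μ ≤ 1 := by
      have h3 := integral_mono (hμ.int_cont (f := fun x => inner ℝ x (‖θ‖⁻¹ • θ) ^ 2 + 1) (by fun_prop))
        (hμ.int_cont (f := fun x => Real.exp (inner ℝ x (‖θ‖⁻¹ • θ) ^ 2)) (by fun_prop))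
        fun x => Real.add_one_le_exp _
      rw [integral_add (hμ.int_cont (by fun_prop)) (integrable_const _), integral_const] at h3
      simp only [probReal_univ, one_smul] at h3
      linarith
    simp only [real_inner_smul_right, mul_pow, integral_const_mul] at h2
    rw [inv_pow, inv_mul_le_iff₀ (by positivity), mul_one] at h2
    exact h2

theorem Sub1.trace_le (hS : Sub1 μ) (hμ : Car μ R) (q : ℕ) : trace (covM μ ^ q) ≤ n := by
  obtain ⟨U, lam, hE⟩ := exists_eig (posSemidef_covM hμ)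
  rw [hE.trace_pow]
  refine le_trans (Finset.sum_le_sum (g := fun _ => (1 : ℝ)) fun i _ => pow_le_one₀ (hE.nonneg i) ?_)
    (by simp)
  have h := hS.op_le_one hμ fun j => U j i
  have e1 : (fun j => U j i) ⬝ᵥ covM μ *ᵥ (fun j => U j i) = lam i := by
    have h2 := congrFun (congrFun hE.diag_eq i) i
    rw [Matrix.diagonal_apply_eq] at h2
    rw [← h2]
    simp only [Matrix.mul_apply, Matrix.transpose_apply, dotProduct, Matrix.mulVec, Finset.mul_sum,
      Finset.sum_mul]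
    rw [Finset.sum_comm]
    exact Finset.sum_congr rfl fun a _ => Finset.sum_congr rfl fun b _ => by ring
  have e2 : (fun j => U j i) ⬝ᵥ (fun j => U j i) = 1 := by
    have h2 := congrFun (congrFun hE.left i) i
    rw [Matrix.one_apply_eq] at h2
    rw [← h2]
    simp [Matrix.mul_apply, dotProduct]
  linarith

/-- The tail bound of the potential. -/
theorem potentialTail {q : ℕ} (hq : 4 ≤ q) : PotentialTail q := by
  intro Λ hΛ
  obtain ⟨A, hA, hquad⟩ := quad_bound hq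
  have hq0 : (0 : ℝ) < q := by exact_mod_cast (show 0 < q by omega)
  set ρ := Real.exp ((Λ + 2) / q) with hρ
  have hρ1 : 1 ≤ ρ := Real.one_le_exp (by positivity)
  set c := 1 / (48 * (q : ℝ) ^ 2 * A * ρ) with hc
  have hd : 1 ≤ 48 * (q : ℝ) ^ 2 * A * ρ := by
    have h1 : (1 : ℝ) ≤ (q : ℝ) ^ 2 := one_le_pow₀ (by exact_mod_cast (show 1 ≤ q by omega))
    have h2 : 1 ≤ 48 * (q : ℝ) ^ 2 := by linarith
    exact one_le_mul_of_one_le_of_one_le (one_le_mul_of_one_le_of_one_le h2 hA) hρ1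
  have hc0 : 0 < c := by rw [hc]; exact one_div_pos.2 (by linarith)
  refine ⟨ρ, c, hρ1, hc0, by rw [hc, div_le_one (by linarith)]; exact hd,
    fun n μ R hn hμs hS hμ t ht htc => ?_⟩
  have hprob := hμ.prob
  have hn0 : (0 : ℝ) < n := by exact_mod_cast hn
  set nq := (n : ℝ) ^ ((q : ℝ)⁻¹) with hnq
  have hnq0 : 0 < nq := by positivity
  have hyp : PotHyp μ q 1 (A * nq) := by
    intro p hp r' hr' hpr
    exact hquad n hn (tlt μ p) (0 + p.1) r' (hμs.tlt p) (by linarith) (by linarith) hpr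
  have hpot0 : pot μ q 0 ≤ n * (1 : ℝ) ^ q := by
    rw [one_pow, mul_one, pot, tlt_zero μ]; exact hS.trace_le hμ q
  set x := c / (t * nq) with hx
  have hx1 : 1 ≤ x := by rw [hx, le_div_iff₀ (by positivity), one_mul]; exact htc
  obtain ⟨P, hP⟩ : ∃ P : ℕ, P + 2 = ⌈x⌉₊ + 1 :=
    ⟨⌈x⌉₊ - 1, by have : 1 ≤ ⌈x⌉₊ := Nat.ceil_pos.2 (by linarith); omega⟩
  have hNx : x ≤ (P : ℝ) + 2 ∧ (P : ℝ) + 2 ≤ 3 * x := by
    have h1 := Nat.le_ceil x
    have h2 := Nat.ceil_lt_add_one (show 0 ≤ x by linarith)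
    have h3 : (P : ℝ) + 2 = (⌈x⌉₊ : ℝ) + 1 := by exact_mod_cast hP
    constructor <;> linarith
  set S := (n : ℝ) * ρ ^ q
  have hS0 : 0 < S := mul_pos hn0 (pow_pos (by linarith) q)
  refine ⟨fun p => (2 * ratio μ q S p) ^ (P + 2), ((Obs.const 2).mul (obs_ratio hμ q hS0)).pow _,
    fun p => pow_nonneg (mul_nonneg two_pos.le (ratio_mem hμ q hS0 p).1) _, fun p hp θ => ?_, ?_⟩
  · have hpot : pot μ q p ≤ S := by
      by_contra hcon
      exact absurd (one_le_weight hμ q hS0 (not_le.1 hcon) (P + 2)) (not_le.2 hp)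
    have e := var_dot_eq (hμ.tlt p) θ.ofLp
    rw [WithLp.toLp_ofLp] at e
    rw [e]
    refine (op_le_trace (hμ.tlt p) (by omega : q ≠ 0) _).trans ?_
    rw [show θ.ofLp ⬝ᵥ θ.ofLp = ‖θ‖ ^ 2 by
      rw [EuclideanSpace.norm_sq_eq]; simp [dotProduct, sq]]
    refine mul_le_mul_of_nonneg_right ?_ (sq_nonneg _)
    refine (rpow_root_le (by omega) hn (pot_nonneg hμ q p) (by linarith) hpot).trans_eq ?_
    rw [mul_comm]
  · simp only [mul_pow (2 : ℝ), Et_smul]
    refine (mul_le_mul_of_nonneg_left (growth_slow hμ hn (by omega : 3 ≤ q) one_pos hρ1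
      (by positivity) hyp hpot0 P ht.le) (by positivity)).trans ?_
    have hexp : 16 * ((P : ℝ) + 2) ^ 2 * (q : ℝ) ^ 2 * (A * nq * ρ) * t ≤ (P : ℝ) + 2 := by
      have h3 : ((P : ℝ) + 2) * (t * nq) ≤ 3 * c := by
        have := mul_le_mul_of_nonneg_right hNx.2 (mul_pos ht hnq0).le
        rwa [hx, mul_assoc, div_mul_cancel₀ _ (by positivity)] at this
      calc 16 * ((P : ℝ) + 2) ^ 2 * (q : ℝ) ^ 2 * (A * nq * ρ) * t
          = ((P : ℝ) + 2) * (16 * (q : ℝ) ^ 2 * A * ρ) * (((P : ℝ) + 2) * (t * nq)) := by ring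
        _ ≤ ((P : ℝ) + 2) * (16 * (q : ℝ) ^ 2 * A * ρ) * (3 * c) :=
            mul_le_mul_of_nonneg_left h3 (by positivity)
        _ = (P : ℝ) + 2 := by rw [hc]; field_simp; ring
    have hρq : (1 / ρ) ^ (q * (P + 2)) = Real.exp (-(((P : ℝ) + 2) * (Λ + 2))) := by
      rw [hρ, one_div, ← Real.exp_neg, ← Real.exp_nat_mul]
      congr 1
      push_cast
      field_simp
    have h2 : (2 : ℝ) ^ (P + 2) ≤ Real.exp ((P : ℝ) + 2) := by
      rw [show (P : ℝ) + 2 = ((P + 2 : ℕ) : ℝ) * 1 by push_cast; ring, Real.exp_nat_mul]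
      exact pow_le_pow_left₀ two_pos.le (by linarith [Real.add_one_le_exp (1 : ℝ)]) _
    rw [hρq, ← Real.exp_add]
    refine (mul_le_mul h2 le_rfl (Real.exp_pos _).le (Real.exp_pos _).le).trans ?_
    rw [← Real.exp_add]
    refine Real.exp_le_exp.2 ?_
    rw [show Λ * c / (t * nq) = Λ * x by rw [hx]; ring]
    nlinarith [mul_le_mul_of_nonneg_left hNx.1 (show 0 ≤ Λ by linarith)]

end Vale.Agent.P245
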