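import Vale.Agent.P245.Growth

/-!
The quadratic Poincare bound of a strongly log-concave vector in terms of its trace potential.
-/

noncomputable section

open MeasureTheory Set Filter Topology Matrix

namespace Vale.Agent.P245

variable {n : ℕ} {μ : Measure (Space n)} {R : ℝ}

theorem mom_d_eq (hμ : Car μ R) {P : Space n → ℝ} (hP : Continuous P) (p : Par n) (j : Fin n) :
    (Jet.mom μ P).d j p = ∫ x, (P x - ∫ y, P y ∂tlt μ p) * cen (tlt μ p) x j ∂tlt μ p := by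
  have hν := hμ.tlt p
  have hprob := hν.prob
  simp only [Jet.mom, bar, cen, M_eq]
  set a := ∫ y, P y ∂tlt μ p with ha
  set b := ∫ y, y j ∂tlt μ p with hb
  have e : (fun x => (P x - a) * (x j - b))
      = fun x => P x * x j + ((-b) * P x + ((-a) * x j + a * b)) := by funext x; ring
  rw [e, integral_add (hν.int_cont (by fun_prop)) (hν.int_cont (by fun_prop)),
    integral_add (hν.int_cont (by fun_prop)) (hν.int_cont (by fun_prop)),
    integral_add (hν.int_cont (by fun_prop)) (integrable_const _), integral_const_mul,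
    integral_const_mul, integral_const, ← ha, ← hb]
  simp
  ring

/-- Pointwise bound for the drift of the squared martingale. -/
theorem sq_drift_le {τ : ℝ} (h : IsSLC τ μ) (hτ : 0 ≤ τ) (hμ : Car μ R) (hn : 1 ≤ n) {q : ℕ}
    (hq : q ≠ 0) {r ρ K : ℝ} (hr : 0 < r) (hrρ : r ≤ ρ) (hK : (n : ℝ) ^ ((q : ℝ)⁻¹) ≤ K)
    (hyp : PotHyp μ q r K) {c : Mat n} (hc : cᵀ = c) (a : Fin n → ℝ) (N : ℕ) (p : Par n)
    (hp : 0 < p.1) :
    grad2 (Jet.mom μ fun x => qform c (shift a x)) p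
      ≤ 8 * (n : ℝ) ^ ((q : ℝ)⁻¹) * K * ρ ^ 2 * M μ (fun x => qnorm c (shift a x)) p
        + 32 / p.1 ^ 2
          * ((2 * ratio μ q (n * ρ ^ q) p) ^ N * M μ (fun x => qnorm c (shift a x)) p) := by
  have hρ : 0 < ρ := hr.trans_le hrρ
  have hn0 : (0 : ℝ) < n := by exact_mod_cast hn
  have hS : 0 < (n : ℝ) * ρ ^ q := by positivity
  have hν := hμ.tlt p
  have hPc : Continuous fun x => qform c (shift a x) := by fun_prop
  set Γ := M μ (fun x => qnorm c (shift a x)) p with hΓ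
  have hΓeq : Γ = ∫ x, qnorm c (shift a x) ∂tlt μ p := M_eq _ _
  have hΓ0 : 0 ≤ Γ := hΓeq ▸ integral_nonneg fun x => qnorm_nonneg _ _
  have hnr : 0 ≤ (n : ℝ) ^ ((q : ℝ)⁻¹) := by positivity
  have hK0 : 0 ≤ K := hnr.trans hK
  simp only [grad2, mom_d_eq hμ hPc]
  rcases le_or_gt (pot μ q p) ((n : ℝ) * ρ ^ q) with hgood | hbad
  · set m := (n : ℝ) ^ ((q : ℝ)⁻¹) * ρ with hm
    have hm0 : 0 ≤ m := by positivity
    have hop : ∀ v, v ⬝ᵥ covM (tlt μ p) *ᵥ v ≤ m * (v ⬝ᵥ v) := fun v =>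
      (op_le_trace hν hq v).trans (mul_le_mul_of_nonneg_right
        (rpow_root_le hq hn (pot_nonneg hμ q p) hρ.le hgood)
        (Finset.sum_nonneg fun i _ => mul_self_nonneg _))
    refine (grad_le hν hPc hm0 hop).trans ?_
    have hv := var_qform_le hν (hyp p hp ρ hrρ hgood) hop hc a
    rw [max_eq_left (mul_le_mul_of_nonneg_right hK hρ.le), ← hΓeq] at hv
    refine ((mul_le_mul_of_nonneg_left hv hm0).trans_eq ?_).trans
      (le_add_of_nonneg_right (mul_nonneg (by positivity)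
        (mul_nonneg (pow_nonneg (mul_nonneg two_pos.le (ratio_mem hμ q hS p).1) _) hΓ0)))
    rw [hm]; ring
  · have ht : 0 < τ + p.1 := by linarith
    have hle : 2 / (τ + p.1) ≤ 2 / p.1 :=
      div_le_div_of_nonneg_left two_pos.le hp (by linarith)
    have hop : ∀ v, v ⬝ᵥ covM (tlt μ p) *ᵥ v ≤ 2 / p.1 * (v ⬝ᵥ v) := fun v =>
      ((h.tlt p).op_le ht v).trans (mul_le_mul_of_nonneg_right hle
        (Finset.sum_nonneg fun i _ => mul_self_nonneg _))
    refine (grad_le hν hPc (by positivity) hop).trans ?_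
    have hv := var_qform_le hν (((h.tlt p).qbound ht).mono hle) hop hc a
    rw [max_self, ← hΓeq] at hv
    refine (le_trans (mul_le_mul_of_nonneg_left hv (by positivity)) ?_).trans
      (le_add_of_nonneg_left (by positivity))
    calc 2 / p.1 * (8 * (2 / p.1) * Γ) = 32 / p.1 ^ 2 * (1 * Γ) := by ring
      _ ≤ _ := mul_le_mul_of_nonneg_left
          (mul_le_mul_of_nonneg_right (one_le_weight hμ q hS hbad N) hΓ0) (by positivity)

/-- Expectation of a weighted squared gradient. -/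
theorem weighted_le {τ : ℝ} (h : IsSLC τ μ) (hτ : 0 ≤ τ) (hμ : Car μ R) (c : Mat n)
    (a : Fin n → ℝ) {W : Par n → ℝ} (hW : Obs W) {e t : ℝ} (he : 0 < e) (ht : 0 ≤ t)
    (hWe : Et μ t (fun p => W p ^ 2) ≤ e ^ 2) :
    Et μ t (fun p => W p * M μ (fun x => qnorm c (shift a x)) p)
      ≤ 2 ^ 11 * e * ∫ x, qnorm c (shift a x) ∂μ := by
  set φ := fun x => qnorm c (shift a x) with hφ
  have hφc : Continuous φ := by simp only [hφ]; fun_prop
  set G0 := ∫ x, φ x ∂μ with hG0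
  have hG00 : 0 ≤ G0 := integral_nonneg fun x => qnorm_nonneg _ _
  have hΓ := obs_M hμ (adm_continuous hφc R)
  have h2 : Et μ t (fun p => M μ φ p ^ 2) ≤ 2 ^ 22 * G0 ^ 2 := by
    refine le_trans (Et_mono hμ (hΓ.pow 2) (obs_M hμ (adm_continuous (hφc.pow 2) R)) t fun g => ?_)
      ((Et_M hμ (adm_continuous (hφc.pow 2) R) ht).trans_le (h.qnorm_sq hτ c a))
    simp only [M_eq]
    exact cs_integral_le (hμ.tlt _) hφc
  refine le_of_forall_pos_le_add fun δ hδ => ?_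
  set a' := 2 ^ 11 * (G0 + δ / (2 ^ 11 * e)) / e with ha'
  have ha0 : 0 < a' := by positivity
  calc Et μ t (fun p => W p * M μ φ p)
      ≤ Et μ t (fun p => a' / 2 * W p ^ 2 + 1 / (2 * a') * M μ φ p ^ 2) := by
        refine Et_mono hμ (hW.mul hΓ) (((Obs.const _).mul (hW.pow 2)).add
          ((Obs.const _).mul (hΓ.pow 2))) t fun g => ?_
        set p : Par n := (t, √t • g)
        have e : a' / 2 * W p ^ 2 + 1 / (2 * a') * M μ φ p ^ 2 - W p * M μ φ p
            = (a' * W p - M μ φ p) ^ 2 / (2 * a') := by field_simp; ring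
        linarith [show 0 ≤ (a' * W p - M μ φ p) ^ 2 / (2 * a') by positivity]
    _ ≤ a' / 2 * e ^ 2 + 1 / (2 * a') * (2 ^ 22 * (G0 + δ / (2 ^ 11 * e)) ^ 2) := by
        rw [Et_add hμ ((Obs.const _).mul (hW.pow 2)) ((Obs.const _).mul (hΓ.pow 2)), Et_smul,
          Et_smul]
        refine add_le_add (mul_le_mul_of_nonneg_left hWe (by positivity))
          (mul_le_mul_of_nonneg_left (h2.trans ?_) (by positivity))
        gcongr
        exact le_add_of_nonneg_right (by positivity)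
    _ = _ := by rw [ha']; field_simp; ring

theorem ratio_pow_le (hμ : Car μ R) (q : ℕ) {S₀ S₁ : ℝ} (h0 : 0 < S₀) (h1 : 0 < S₁) (N m : ℕ)
    (p : Par n) :
    ratio μ q S₁ p ^ N ≤ (2 * ratio μ q S₀ p) ^ m + (S₀ / S₁) ^ N := by
  obtain ⟨g0, g1⟩ := ratio_mem hμ q h1 p
  have hw : 0 ≤ (2 * ratio μ q S₀ p) ^ m :=
    pow_nonneg (mul_nonneg two_pos.le (ratio_mem hμ q h0 p).1) m
  rcases le_or_gt (pot μ q p) S₀ with h | h
  · refine le_trans (pow_le_pow_left₀ g0 ?_ N) (le_add_of_nonneg_left hw)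
    exact div_le_div₀ h0.le h h1 (by linarith [pot_nonneg hμ q p])
  · refine ((pow_le_one₀ g0 g1).trans (one_le_weight hμ q h0 h m)).trans
      (le_add_of_nonneg_right (by positivity))

/-- The class of measures with a given quadratic bound. -/
def QClass (q n : ℕ) (Λ K : ℝ) : Prop :=
  ∀ (μ : Measure (Space n)) (τ r : ℝ), IsSLC τ μ → 0 < τ → 0 < r → 1 ≤ Λ * τ * r →
    trace (covM μ ^ q) ≤ n * r ^ q → QBound μ (K * r)

theorem tlt_zero (μ : Measure (Space n)) [IsProbabilityMeasure μ] : tlt μ (0 : Par n) = μ := by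
  refine Eq.trans ?_ (tilted_const μ 0)
  simp only [tlt]
  congr 1
  funext x
  simp [ker]

/-- The jet of the squared martingale of a quadratic form. -/
def sqJet (μ : Measure (Space n)) (c : Mat n) (a : Fin n → ℝ) : Jet n :=
  (Jet.mom μ fun x => qform c (shift a x)).mul (Jet.mom μ fun x => qform c (shift a x))

theorem sqJet_valid (hμ : Car μ R) (c : Mat n) (a : Fin n → ℝ) : (sqJet μ c a).Valid :=
  (Jet.mom_valid hμ (adm_continuous (by fun_prop) R)).mul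
    (Jet.mom_valid hμ (adm_continuous (by fun_prop) R))

theorem sq_pow_eq (μ : Measure (Space n)) (q : ℕ) (S : ℝ) (N : ℕ) :
    (fun p : Par n => ((2 * ratio μ q S p) ^ N) ^ 2)
      = fun p => 2 ^ (N * 2) * ratio μ q S p ^ (N * 2) :=
  funext fun p => by rw [← pow_mul, mul_pow]

theorem obs_weight (hμ : Car μ R) (q : ℕ) (hn : 1 ≤ n) {ρ : ℝ} (hρ : 0 < ρ) (N : ℕ) :
    Obs (fun p : Par n => (2 * ratio μ q ((n : ℝ) * ρ ^ q) p) ^ N) :=
  ((Obs.const 2).mul (obs_ratio hμ q (mul_pos (by exact_mod_cast hn) (pow_pos hρ q)))).pow N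

/-- The expected drift of the squared martingale. -/
theorem sqJet_drift {τ : ℝ} (h : IsSLC τ μ) (hτ : 0 ≤ τ) (hμ : Car μ R) (hn : 1 ≤ n) {q : ℕ}
    (hq : q ≠ 0) {r ρ K : ℝ} (hr : 0 < r) (hρ : r ≤ ρ) (hK : (n : ℝ) ^ ((q : ℝ)⁻¹) ≤ K)
    (hyp : PotHyp μ q r K) {c : Mat n} (hc : cᵀ = c) (a : Fin n → ℝ) (N : ℕ) {t e : ℝ}
    (ht : 0 < t) (he : 0 < e)
    (hW : Et μ t (fun p => ((2 * ratio μ q ((n : ℝ) * ρ ^ q) p) ^ N) ^ 2) ≤ e ^ 2) :
    Et μ t (Lop μ (sqJet μ c a))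
      ≤ (∫ x, qnorm c (shift a x) ∂μ)
        * (8 * (n : ℝ) ^ ((q : ℝ)⁻¹) * K * ρ ^ 2 + 32 / t ^ 2 * (2 ^ 11 * e)) := by
  have hPa : Adm R fun x => qform c (shift a x) := adm_continuous (by fun_prop) R
  have hφa : Adm R fun x => qnorm c (shift a x) := adm_continuous (by fun_prop) R
  have hρ0 : 0 < ρ := hr.trans_le hρ
  set φ := fun x => qnorm c (shift a x)
  have o1 : Obs fun p => 8 * (n : ℝ) ^ ((q : ℝ)⁻¹) * K * ρ ^ 2 * M μ φ p :=
    (Obs.const _).mul (obs_M hμ hφa)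
  have o2 : Obs fun p => 32 / t ^ 2 * ((2 * ratio μ q ((n : ℝ) * ρ ^ q) p) ^ N * M μ φ p) :=
    (Obs.const _).mul ((obs_weight hμ q hn hρ0 N).mul (obs_M hμ hφa))
  calc Et μ t (Lop μ (sqJet μ c a))
      ≤ Et μ t (fun p => 8 * (n : ℝ) ^ ((q : ℝ)⁻¹) * K * ρ ^ 2 * M μ φ p
        + 32 / t ^ 2 * ((2 * ratio μ q ((n : ℝ) * ρ ^ q) p) ^ N * M μ φ p)) :=
        Et_mono hμ ((sqJet_valid hμ c a).obs_Lop hμ) (o1.add o2) t fun g => by
          rw [sqJet, Lop_mul, Lop_mom hμ hPa, zero_mul, mul_zero, add_zero, zero_add]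
          simp only [← sq]
          exact sq_drift_le h hτ hμ hn hq hr hρ hK hyp hc a N (t, √t • g) ht
    _ ≤ 8 * (n : ℝ) ^ ((q : ℝ)⁻¹) * K * ρ ^ 2 * (∫ x, φ x ∂μ)
        + 32 / t ^ 2 * (2 ^ 11 * e * ∫ x, φ x ∂μ) := by
        rw [Et_add hμ o1 o2, Et_smul, Et_smul, Et_M hμ hφa ht.le]
        exact add_le_add le_rfl (mul_le_mul_of_nonneg_left
          (weighted_le h hτ hμ c a (obs_weight hμ q hn hρ0 N) he ht.le hW) (by positivity))
    _ = _ := by ring

/-- The growth of the squared martingale over the initial interval. -/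
theorem phase_one {τ : ℝ} (h : IsSLC τ μ) (hτ : 0 ≤ τ) (hμ : Car μ R) (hn : 1 ≤ n) {q : ℕ}
    (hq : 4 ≤ q) {r K : ℝ} (hr : 0 < r) (hK : (n : ℝ) ^ ((q : ℝ)⁻¹) ≤ K)
    (hyp : PotHyp μ q r K) (hpot0 : pot μ q 0 ≤ n * r ^ q) {c : Mat n} (hc : cᵀ = c)
    (a : Fin n → ℝ) {u0 : ℝ} (hu00 : 0 < u0) (hu01 : u0 ≤ 1) :
    Et μ (u0 / (K * r)) (sqJet μ c a).v - Et μ 0 (sqJet μ c a).v
      ≤ (∫ x, qnorm c (shift a x) ∂μ) * (16 * (n : ℝ) ^ ((q : ℝ)⁻¹) * r
        + K * r * (2 ^ 19 * Real.exp (288 * (q : ℝ) ^ 2) * u0 ^ 2 / 2)) := by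
  set nq := (n : ℝ) ^ ((q : ℝ)⁻¹)
  set Γ0 := ∫ x, qnorm c (shift a x) ∂μ
  set E0 := Real.exp (288 * (q : ℝ) ^ 2) with hE0
  set B1 := 2 ^ 19 * E0 with hB1
  have hnq0 : 0 < nq := by
    have : (0 : ℝ) < n := by exact_mod_cast hn
    positivity
  have hΓ00 : 0 ≤ Γ0 := integral_nonneg fun x => qnorm_nonneg _ _
  have hK0 : 0 < K := hnq0.trans_le hK
  set v := K * r with hv
  have hv0 : 0 < v := by positivity
  set t0 := u0 / v with ht0
  have ht00 : 0 < t0 := by positivity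
  have hI := Et_sub_le hμ (sqJet_valid hμ c a) le_rfl ht00.le
    (B := fun t => Γ0 * (16 * nq * r * √(v * t) + B1 * v ^ 3 * t ^ 2 / 2))
    (B' := fun t => Γ0 * (8 * nq * r * v / √(v * t) + B1 * v ^ 3 * t)) (by fun_prop)
    (fun t ht => by
      have hvt : v * t ≠ 0 := (mul_pos hv0 ht.1).ne'
      refine ((((((hasDerivAt_id t).const_mul v).sqrt hvt).const_mul (16 * nq * r)).add
        (((hasDerivAt_pow 2 t).const_mul (B1 * v ^ 3)).div_const 2)).const_mul Γ0).congr_deriv ?_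
      simp only [id_eq, mul_one]
      push_cast
      field_simp
      ring)
    fun t ht => by
      set u := v * t with hu
      have hu0' : 0 < u := mul_pos hv0 ht.1
      have hu1 : u ≤ 1 := by
        have : u < u0 := by rw [hu, mul_comm, ← lt_div_iff₀ hv0]; exact ht.2
        linarith
      set s := √√u with hs
      have hs' : 0 < s := Real.sqrt_pos.2 (Real.sqrt_pos.2 hu0')
      have hs1 : s ≤ 1 := Real.sqrt_le_one.2 (Real.sqrt_le_one.2 hu1)
      have hs2 : s ^ 2 = √u := Real.sq_sqrt (Real.sqrt_nonneg _)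
      have hs4 : s ^ 4 = u := by
        rw [show 4 = 2 * 2 by rfl, pow_mul, hs2, Real.sq_sqrt hu0'.le]
      have hρ : r ≤ r / s := by rw [le_div_iff₀ hs']; exact mul_le_of_le_one_right hr.le hs1
      have hW : Et μ t (fun p => ((2 * ratio μ q ((n : ℝ) * (r / s) ^ q) p) ^ 3) ^ 2)
          ≤ (2 ^ 3 * (u ^ 3 * E0)) ^ 2 := by
        have h := growth_slow hμ hn (by omega : 3 ≤ q) hr hρ hK0.le hyp hpot0 4 ht.1.le
        rw [sq_pow_eq, Et_smul, show (3 : ℕ) * 2 = 4 + 2 from rfl, mul_pow ((2 : ℝ) ^ 3)]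
        refine (mul_le_mul_of_nonneg_left h (by positivity)).trans ?_
        rw [show ((2 : ℝ) ^ 3) ^ 2 = 2 ^ (4 + 2) by norm_num]
        refine mul_le_mul_of_nonneg_left ?_ (by positivity)
        rw [mul_pow, hE0, ← Real.exp_nat_mul, ← pow_mul, show r / (r / s) = s by field_simp]
        refine mul_le_mul ?_ (Real.exp_le_exp.2 ?_) (Real.exp_pos _).le (by positivity)
        · rw [← hs4, ← pow_mul]
          exact pow_le_pow_of_le_one hs'.le hs1 (by omega)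
        · have e : K * (r / s) * t = s ^ 3 := by
            have : v * t = s ^ 4 := by rw [hs4]
            rw [hv] at this
            field_simp
            linarith
          have hs31 : s ^ 3 ≤ 1 := pow_le_one₀ hs'.le hs1
          push_cast
          calc 16 * (4 + 2) ^ 2 * (q : ℝ) ^ 2 * (K * (r / s)) * t
              = 16 * (4 + 2) ^ 2 * (q : ℝ) ^ 2 * s ^ 3 := by rw [← e]; ring
            _ ≤ 16 * (4 + 2) ^ 2 * (q : ℝ) ^ 2 * 1 :=
                mul_le_mul_of_nonneg_left hs31 (by positivity)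
            _ = _ := by ring
      refine (sqJet_drift h hτ hμ hn (by omega) hr hρ hK hyp hc a 3 ht.1 (by positivity) hW).trans
        (le_of_eq ?_)
      rw [div_pow, hs2, hB1, hu, hv]
      simp only [nq, Γ0]
      field_simp
      ring
  refine hI.trans ?_
  rw [show v * t0 = u0 by rw [ht0, mul_div_cancel₀ _ hv0.ne'], mul_zero, Real.sqrt_zero]
  simp only [mul_zero, ne_eq, OfNat.ofNat_ne_zero, not_false_eq_true, zero_pow, zero_div, add_zero,
    sub_zero]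
  refine mul_le_mul_of_nonneg_left (add_le_add (mul_le_of_le_one_right (by positivity)
    (Real.sqrt_le_one.2 hu01)) (le_of_eq ?_)) hΓ00
  rw [ht0]; field_simp

/-- The smoothed exceedance moment on the final interval. -/
theorem late_weight {τ : ℝ} (h : IsSLC τ μ) (hτ : 0 ≤ τ) (hμ : Car μ R) (hn : 1 ≤ n) {q : ℕ}
    (hq : 4 ≤ q) {r K : ℝ} (hr : 0 < r) (hK : 0 < K)
    (hyp : PotHyp μ q r K) (hpot0 : pot μ q 0 ≤ n * r ^ q) (m : ℕ) {s0 w : ℝ} (hs00 : 0 < s0)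
    (hs01 : s0 ≤ 1) (hw0 : 0 < w)
    {t : ℝ} (ht : s0 ^ 4 / (K * r) ≤ t) (hT : t ≤ 64 / (K * r)) :
    Et μ t (fun p => ratio μ q ((n : ℝ) * (r / (s0 * w)) ^ q) p ^ (2 + 2))
      ≤ (2 ^ (m + 2) * (s0 ^ 4) ^ (m + 2) * Real.exp (16 * ((m : ℝ) + 2) ^ 2 * (q : ℝ) ^ 2)
          + w ^ (4 * q)) * (64 / s0 ^ 4) ^ (512 * q ^ 2) := by
  have hn0 : (0 : ℝ) < n := by exact_mod_cast hn
  have hS1 : 0 < (n : ℝ) * (r / (s0 * w)) ^ q := by positivity
  have hρ0 : r ≤ r / s0 := by rw [le_div_iff₀ hs00]; exact mul_le_of_le_one_right hr.le hs01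
  have hS0 : 0 < (n : ℝ) * (r / s0) ^ q := by positivity
  set v := K * r with hv
  have hv0 : 0 < v := by positivity
  set t0 := s0 ^ 4 / v with ht0
  have ht00 : 0 < t0 := by positivity
  refine (growth_fast h hτ hμ (by omega : 3 ≤ q) hS1 2 ht00 ht).trans ?_
  refine mul_le_mul ?_ ?_ (Real.exp_pos _).le (by positivity)
  · refine le_trans (Et_mono hμ ((obs_ratio hμ q hS1).pow _) ((obs_weight hμ q hn (hr.trans_le hρ0)
      (m + 2)).add (Obs.const _)) t0 fun g => ratio_pow_le hμ q hS0 hS1 (2 + 2) (m + 2) _) ?_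
    rw [Et_add hμ (obs_weight hμ q hn (hr.trans_le hρ0) (m + 2)) (Obs.const _),
      Et_const hμ _ ht00.le]
    simp only [mul_pow (2 : ℝ), Et_smul]
    refine add_le_add ?_ (le_of_eq ?_)
    · rw [mul_assoc]
      refine mul_le_mul_of_nonneg_left ((growth_slow hμ hn (by omega : 3 ≤ q) hr hρ0 hK.le
        hyp hpot0 m ht00.le).trans ?_) (by positivity)
      rw [show r / (r / s0) = s0 by field_simp]
      refine mul_le_mul ?_ (Real.exp_le_exp.2 ?_) (Real.exp_pos _).le (by positivity)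
      · rw [← pow_mul]
        exact pow_le_pow_of_le_one hs00.le hs01 (Nat.mul_le_mul_right _ hq)
      · refine mul_le_of_le_one_right (by positivity) ?_ |>.trans' (le_of_eq (mul_assoc _ _ _))
        have e : K * (r / s0) * t0 = s0 ^ 3 := by
          rw [ht0, hv]; field_simp
        rw [e]
        exact pow_le_one₀ hs00.le hs01
    · rw [pow_mul' _ 4 q]
      congr 1
      field_simp
      rw [← mul_pow]
      congr 1
      field_simp
  · have e : (64 / s0 ^ 4) ^ (512 * q ^ 2)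
        = Real.exp (((512 * q ^ 2 : ℕ) : ℝ) * (Real.log (64 / v) - Real.log t0)) := by
      rw [← Real.log_div (by positivity) ht00.ne',
        show 64 / v / t0 = 64 / s0 ^ 4 by rw [ht0]; field_simp,
        Real.exp_nat_mul, Real.exp_log (by positivity)]
    rw [e]
    refine Real.exp_le_exp.2 ?_
    push_cast
    calc 32 * (2 + 2) ^ 2 * (q : ℝ) ^ 2 * (Real.log t - Real.log t0)
        ≤ 32 * (2 + 2) ^ 2 * (q : ℝ) ^ 2 * (Real.log (64 / v) - Real.log t0) := by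
          gcongr; exact lt_of_lt_of_le ht00 ht
      _ = _ := by ring

/-- The growth of the squared martingale over the final interval. -/
theorem phase_two {τ : ℝ} (h : IsSLC τ μ) (hτ : 0 ≤ τ) (hμ : Car μ R) (hn : 1 ≤ n) {q : ℕ}
    (hq : 4 ≤ q) {r K : ℝ} (hr : 0 < r) (hK : (n : ℝ) ^ ((q : ℝ)⁻¹) ≤ K)
    (hyp : PotHyp μ q r K) (hpot0 : pot μ q 0 ≤ n * r ^ q) {c : Mat n} (hc : cᵀ = c)
    (a : Fin n → ℝ) (m : ℕ) {s0 w : ℝ} (hs00 : 0 < s0) (hs01 : s0 ≤ 1) (hw0 : 0 < w) (hw1 : w ≤ 1)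
    {X : ℝ}
    (hX : (2 ^ (m + 2) * (s0 ^ 4) ^ (m + 2) * Real.exp (16 * ((m : ℝ) + 2) ^ 2 * (q : ℝ) ^ 2)
          + w ^ (4 * q)) * (64 / s0 ^ 4) ^ (512 * q ^ 2) ≤ X) :
    Et μ (64 / (K * r)) (sqJet μ c a).v - Et μ (s0 ^ 4 / (K * r)) (sqJet μ c a).v
      ≤ (∫ x, qnorm c (shift a x) ∂μ) * (512 * (1 / (s0 * w)) ^ 2 * (n : ℝ) ^ ((q : ℝ)⁻¹) * r
        + K * r * (2 ^ 24 * √X / (s0 ^ 4) ^ 2)) := by
  set nq := (n : ℝ) ^ ((q : ℝ)⁻¹)
  set Γ0 := ∫ x, qnorm c (shift a x) ∂μ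
  have hnq0 : 0 < nq := by
    have : (0 : ℝ) < n := by exact_mod_cast hn
    positivity
  have hΓ00 : 0 ≤ Γ0 := integral_nonneg fun x => qnorm_nonneg _ _
  have hK0 : 0 < K := hnq0.trans_le hK
  have hX0 : 0 < X := lt_of_lt_of_le (by positivity) hX
  set v := K * r with hv
  have hv0 : 0 < v := by positivity
  set u0 := s0 ^ 4 with hu0
  have hu00 : 0 < u0 := by positivity
  have hu01 : u0 ≤ 1 := pow_le_one₀ hs00.le hs01
  set t0 := u0 / v with ht0
  have ht00 : 0 < t0 := by positivity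
  have hT0 : t0 ≤ 64 / v := (div_le_div_iff_of_pos_right hv0).2 (by linarith)
  set L := Γ0 * (8 * nq * K * (r / (s0 * w)) ^ 2 + 32 / t0 ^ 2 * (2 ^ 11 * (4 * √X))) with hL
  have hII := Et_sub_le hμ (sqJet_valid hμ c a) ht00.le hT0
    (B := fun t => L * t) (B' := fun _ => L) (by fun_prop)
    (fun t _ => ((hasDerivAt_id t).const_mul L).congr_deriv (mul_one _))
    fun t ht => by
      have htt : 0 < t := ht00.trans ht.1
      have hsw : s0 * w ≤ 1 := mul_le_one₀ hs01 hw0.le hw1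
      have hρ1 : r ≤ r / (s0 * w) := by
        rw [le_div_iff₀ (by positivity)]; exact mul_le_of_le_one_right hr.le hsw
      have hW : Et μ t (fun p => ((2 * ratio μ q ((n : ℝ) * (r / (s0 * w)) ^ q) p) ^ 2) ^ 2)
          ≤ (4 * √X) ^ 2 := by
        rw [sq_pow_eq, Et_smul, mul_pow (4 : ℝ), Real.sq_sqrt hX0.le,
          show (2 : ℝ) ^ (2 * 2) = 4 ^ 2 by norm_num]
        refine mul_le_mul_of_nonneg_left ?_ (by positivity)
        rw [show (2 : ℕ) * 2 = 2 + 2 from rfl]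
        exact (late_weight h hτ hμ hn hq hr hK0 hyp hpot0 m hs00 hs01 hw0 ht.1.le ht.2.le).trans hX
      refine (sqJet_drift h hτ hμ hn (by omega) hr hρ1 hK hyp hc a 2 htt (by positivity) hW).trans ?_
      refine mul_le_mul_of_nonneg_left (add_le_add le_rfl (mul_le_mul_of_nonneg_right ?_
        (by positivity))) hΓ00
      exact div_le_div_of_nonneg_left (by norm_num) (by positivity)
        (pow_le_pow_left₀ ht00.le ht.1.le 2)
  refine hII.trans ?_
  have hL0 : 0 ≤ L * t0 := by positivity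
  have e : L * (64 / v) = Γ0 * (512 * (1 / (s0 * w)) ^ 2 * nq * r
      + v * (2 ^ 24 * √X / u0 ^ 2)) := by
    rw [hL, ht0, hv]; field_simp; ring
  linarith

/-- The final conditional variance. -/
theorem phase_end {τ : ℝ} (h : IsSLC τ μ) (hτ : 0 ≤ τ) (hμ : Car μ R) {c : Mat n} (hc : cᵀ = c)
    (a : Fin n → ℝ) {T : ℝ} (hT : 0 < T) :
    var μ (fun x => qform c (shift a x))
      ≤ 8 / T * (∫ x, qnorm c (shift a x) ∂μ)
        + (Et μ T (sqJet μ c a).v - Et μ 0 (sqJet μ c a).v) := by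
  set P := fun x => qform c (shift a x) with hP
  have hPc : Continuous P := by simp only [hP]; fun_prop
  have hP2 : Adm R fun x => P x ^ 2 := adm_continuous (hPc.pow 2) R
  have hφa : Adm R fun x => qnorm c (shift a x) := adm_continuous (by fun_prop) R
  have o : Obs (sqJet μ c a).v := (sqJet_valid hμ c a).ov
  have hsecond : ∀ {ν : Measure (Space n)}, Car ν R →
      var ν P = ∫ x, P x ^ 2 ∂ν - (∫ x, P x ∂ν) ^ 2 := by
    intro ν hν
    have := hν.prob
    rw [var]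
    set b := ∫ y, P y ∂ν with hb
    have e : (fun x => (P x - b) ^ 2) = fun x => P x ^ 2 + ((-2 * b) * P x + b ^ 2) := by
      funext x; ring
    rw [e, integral_add (hν.int_cont (by fun_prop)) (hν.int_cont (by fun_prop)),
      integral_add (hν.int_cont (by fun_prop)) (integrable_const _), integral_const_mul,
      integral_const, ← hb]
    simp
    ring
  have hT2 : ∫ x, P x ^ 2 ∂μ - Et μ T (sqJet μ c a).v
      ≤ 8 / T * ∫ x, qnorm c (shift a x) ∂μ := by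
    rw [← Et_M hμ hP2 hT.le, ← Et_sub hμ (obs_M hμ hP2) o, ← Et_M hμ hφa hT.le, ← Et_smul]
    refine Et_mono hμ ((obs_M hμ hP2).sub o) ((Obs.const _).mul (obs_M hμ hφa)) T fun g => ?_
    set p : Par n := (T, √T • g)
    have e : M μ (fun x => P x ^ 2) p - (sqJet μ c a).v p = var (tlt μ p) P := by
      rw [hsecond (hμ.tlt p), sq (∫ x, P x ∂tlt μ p)]
      simp [sqJet, Jet.mul, Jet.mom, M_eq, hP]
    rw [e, M_eq]
    exact ((h.tlt p).var_qform (show 0 < τ + T by linarith) hc a).trans (mul_le_mul_of_nonneg_right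
      (div_le_div_of_nonneg_left (by norm_num) hT (show T ≤ τ + T by linarith))
      (integral_nonneg fun x => qnorm_nonneg _ _))
  have hJ0 : Et μ 0 (sqJet μ c a).v = (∫ x, P x ∂μ) ^ 2 := by
    rw [Et_zero hμ]
    simp [sqJet, Jet.mul, Jet.mom, M_zero hμ, sq, hP]
  rw [hsecond hμ, hJ0]
  linarith

/-- One improvement step of the fixed point. -/
theorem quad_step {q : ℕ} (hq : 4 ≤ q) :
    ∃ A : ℝ, 1 ≤ A ∧ ∀ n : ℕ, 1 ≤ n → ∀ Λ K : ℝ, 0 < Λ → (n : ℝ) ^ ((q : ℝ)⁻¹) ≤ K →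
      QClass q n Λ K → QClass q n Λ (K / 4 + A * (n : ℝ) ^ ((q : ℝ)⁻¹)) := by
  set C2 : ℕ := 512 * q ^ 2 with hC2
  set m : ℕ := C2 + 6 with hm
  set EM : ℝ := Real.exp (16 * ((m : ℝ) + 2) ^ 2 * (q : ℝ) ^ 2) with hEM
  set B1 : ℝ := 2 ^ 19 * Real.exp (288 * (q : ℝ) ^ 2) with hB1
  set big : ℝ := 2 ^ 50 * 64 ^ C2 * 2 ^ (m + 2) * EM with hbig
  have hB10 : 0 < B1 := by positivity
  have hbig0 : 0 < big := by positivity
  set u0 : ℝ := 1 / (2 * (B1 + big + 1)) with hu0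
  have hu00 : 0 < u0 := by positivity
  have hu01 : u0 ≤ 1 / 2 := by
    rw [hu0, one_div, one_div]
    exact inv_anti₀ two_pos (by linarith)
  have hbu : B1 * u0 ^ 2 ≤ 1 / 2 := by
    have : B1 * u0 ≤ 1 / 2 := by
      rw [hu0, mul_one_div, div_le_iff₀ (by positivity)]; linarith
    nlinarith
  have hbig4 : big * u0 ^ 4 ≤ 1 / 2 := by
    have h1 : big * u0 ≤ 1 / 2 := by
      rw [hu0, mul_one_div, div_le_iff₀ (by positivity)]; linarith
    have h2 : u0 ^ 3 ≤ 1 := pow_le_one₀ hu00.le (by linarith)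
    calc big * u0 ^ 4 = big * u0 * u0 ^ 3 := by ring
      _ ≤ 1 / 2 * 1 := mul_le_mul h1 h2 (by positivity) (by norm_num)
      _ = _ := mul_one _
  set s0 := √√u0 with hs0
  have hs00 : 0 < s0 := Real.sqrt_pos.2 (Real.sqrt_pos.2 hu00)
  have hs04 : s0 ^ 4 = u0 := by
    rw [hs0, show 4 = 2 * 2 by rfl, pow_mul, Real.sq_sqrt (Real.sqrt_nonneg _),
      Real.sq_sqrt hu00.le]
  have hs01 : s0 ≤ 1 := Real.sqrt_le_one.2 (Real.sqrt_le_one.2 (by linarith))
  set big2 : ℝ := 2 ^ 50 * (64 / u0) ^ C2 / u0 ^ 4 with hbig2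
  have hbig20 : 0 < big2 := by positivity
  set w : ℝ := 1 / (1 + 2 * big2) with hw
  have hw0 : 0 < w := by positivity
  have hw1 : w ≤ 1 := by rw [hw, div_le_one (by positivity)]; linarith
  set X : ℝ := (2 ^ (m + 2) * (s0 ^ 4) ^ (m + 2) * EM + w ^ (4 * q)) * (64 / s0 ^ 4) ^ C2 with hX
  have hX0 : 0 < X := by positivity
  have hX' : 2 ^ 48 * X / u0 ^ 4 ≤ 1 / 4 := by
    have e1 : 2 ^ 50 * ((64 / u0) ^ C2 * (2 ^ (m + 2) * u0 ^ (m + 2) * EM)) / u0 ^ 4
        = big * u0 ^ 4 := by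
      rw [hbig, hm, show C2 + 6 + 2 = C2 + 8 from rfl, div_pow, pow_add u0]
      field_simp
    have e2 : w ^ (4 * q) ≤ w := pow_le_of_le_one hw0.le hw1 (by omega)
    have e3 : big2 * w ≤ 1 / 2 := by
      rw [hw, mul_one_div, div_le_iff₀ (by positivity)]; linarith
    have e4 : 2 ^ 50 * ((64 / u0) ^ C2 * w ^ (4 * q)) / u0 ^ 4 ≤ 1 / 2 := by
      refine le_trans (le_of_eq ?_) ((mul_le_mul_of_nonneg_left e2 hbig20.le).trans e3)
      rw [hbig2]; ring
    have : 2 ^ 48 * X / u0 ^ 4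
        = (2 ^ 50 * ((64 / u0) ^ C2 * (2 ^ (m + 2) * u0 ^ (m + 2) * EM)) / u0 ^ 4
          + 2 ^ 50 * ((64 / u0) ^ C2 * w ^ (4 * q)) / u0 ^ 4) / 4 := by
      rw [hX, hs04]; ring
    rw [this, e1]
    linarith
  have hsqX : 2 ^ 24 * √X / u0 ^ 2 ≤ 1 / 2 := by
    refine le_of_sq_le_sq ?_ (by norm_num)
    rw [div_pow, mul_pow, Real.sq_sqrt hX0.le]
    norm_num at hX' ⊢
    refine le_trans (le_of_eq ?_) hX'
    ring
  refine ⟨8 + 128 * (1 / (s0 * w)) ^ 2, by linarith [sq_nonneg (1 / (s0 * w))],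
    fun n hn Λ K hΛ hK hcl => ?_⟩
  intro μ τ r hμs hτ hr hΛr hpot c hc
  obtain ⟨R, hμ⟩ := hμs.car
  have hprob := hμ.prob
  set a : Fin n → ℝ := fun i => ∫ y, y i ∂μ with ha
  rw [cen_eq_shift, ← ha]
  have hhyp : PotHyp μ q r K := by
    intro p hp r' hr' hpr
    refine hcl (tlt μ p) (τ + p.1) r' (hμs.tlt p) (by linarith) (hr.trans_le hr') ?_ hpr
    refine hΛr.trans ?_
    gcongr
    linarith
  have hpot0 : pot μ q 0 ≤ n * r ^ q := by rw [pot, tlt_zero μ]; exact hpot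
  have hK0 : 0 < K := lt_of_lt_of_le (by
    have : (0 : ℝ) < n := by exact_mod_cast hn
    positivity) hK
  have hI := phase_one hμs hτ.le hμ hn hq hr hK hhyp hpot0 hc a hu00 (by linarith : u0 ≤ 1)
  have hII := phase_two hμs hτ.le hμ hn hq hr hK hhyp hpot0 hc a m hs00 hs01 hw0 hw1
    (X := X) le_rfl
  have hE := phase_end hμs hτ.le hμ hc a (T := 64 / (K * r)) (by positivity)
  rw [hs04] at hII
  rw [← hB1] at hI
  rw [show 8 / (64 / (K * r)) = K * r / 8 by field_simp; ring] at hE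
  set Γ0 := ∫ x, qnorm c (shift a x) ∂μ
  set nq := (n : ℝ) ^ ((q : ℝ)⁻¹)
  have hΓ00 : 0 ≤ Γ0 := integral_nonneg fun x => qnorm_nonneg _ _
  have hnq : 0 ≤ nq := Real.rpow_nonneg n.cast_nonneg _
  have hv0 : 0 ≤ K * r := by positivity
  have k1 := mul_le_mul_of_nonneg_left (mul_le_mul_of_nonneg_left hbu hv0) hΓ00
  have k2 := mul_le_mul_of_nonneg_left (mul_le_mul_of_nonneg_left hsqX hv0) hΓ00
  have k3 : 0 ≤ Γ0 * (nq * r) := by positivity
  have k4 : 0 ≤ Γ0 * (K * r) := by positivity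
  nlinarith [k1, k2, k3, k4]

/-- The quadratic bound with constant of order `n ^ (1/q)`. -/
theorem quad_bound {q : ℕ} (hq : 4 ≤ q) :
    ∃ A : ℝ, 1 ≤ A ∧ ∀ (n : ℕ), 1 ≤ n → ∀ (μ : Measure (Space n)) (τ r : ℝ), IsSLC τ μ → 0 < τ →
      0 < r → trace (covM μ ^ q) ≤ n * r ^ q →
      QBound μ (A * (n : ℝ) ^ ((q : ℝ)⁻¹) * r) := by
  obtain ⟨A, hA, hstep⟩ := quad_step hq
  refine ⟨3 * A, by linarith, fun n hn μ τ r hμ hτ hr hpot => ?_⟩
  set nq := (n : ℝ) ^ ((q : ℝ)⁻¹) with hnq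
  have hnq0 : 0 < nq := by
    have : (0 : ℝ) < n := by exact_mod_cast hn
    positivity
  set Λ := 1 / (τ * r) with hΛ
  have hΛ0 : 0 < Λ := by positivity
  have hall : ∀ j : ℕ, QClass q n Λ (2 * Λ / 4 ^ j + 2 * A * nq) := by
    intro j
    induction j with
    | zero =>
      intro ν σ s hν hσ hs hsΛ _
      refine (hν.qbound hσ).mono ?_
      rw [div_le_iff₀ hσ, pow_zero, div_one]
      have : 0 ≤ 2 * A * nq * (s * σ) := by positivity
      nlinarith
    | succ j ih =>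
      have hK : nq ≤ 2 * Λ / 4 ^ j + 2 * A * nq := by
        have : nq ≤ 2 * A * nq := le_mul_of_one_le_left hnq0.le (by linarith)
        have : 0 ≤ 2 * Λ / 4 ^ j := by positivity
        linarith
      intro ν σ s hν hσ hs hsΛ hp
      refine (hstep n hn Λ _ hΛ0 hK ih ν σ s hν hσ hs hsΛ hp).mono
        (mul_le_mul_of_nonneg_right ?_ hs.le)
      rw [← hnq, pow_succ, show 2 * Λ / (4 ^ j * 4) = 2 * Λ / 4 ^ j / 4 from
        (div_div _ _ _).symm]
      nlinarith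
  obtain ⟨j, hj⟩ := pow_unbounded_of_one_lt (2 * Λ / (A * nq)) (show (1 : ℝ) < 4 by norm_num)
  refine (hall j μ τ r hμ hτ hr (le_of_eq ?_) hpot).mono (mul_le_mul_of_nonneg_right ?_ hr.le)
  · rw [hΛ]; field_simp
  · rw [div_lt_iff₀ (by positivity)] at hj
    have : 2 * Λ / 4 ^ j ≤ A * nq := by
      rw [div_le_iff₀ (by positivity)]; linarith
    linarith

end Vale.Agent.P245
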