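import Vale.Agent.P245.Drift
import Vale.Agent.P245.Borell

/-!
Facts about quadratic forms of a strongly log-concave vector.
-/

noncomputable section

open MeasureTheory Set Filter Topology Matrix

namespace Vale.Agent.P245

variable {n : ℕ} {ν : Measure (Space n)} {R : ℝ}

/-- Coordinates relative to a point. -/
def shift (a : Fin n → ℝ) (x : Space n) : Fin n → ℝ := fun i => x i - a i

@[fun_prop]
theorem continuous_shift (a : Fin n → ℝ) : Continuous (shift a) := by
  unfold shift; fun_prop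

theorem cen_eq_shift (ν : Measure (Space n)) : cen ν = shift (fun i => ∫ y, y i ∂ν) := rfl

theorem qform_eq (c : Mat n) (a : Fin n → ℝ) (x : Space n) :
    qform c (shift a x) = inner ℝ (toEuclideanCLM (𝕜 := ℝ) c (x - WithLp.toLp 2 a))
      (x - WithLp.toLp 2 a) := by
  simp only [qform, EuclideanSpace.inner_eq_star_dotProduct, Matrix.ofLp_toEuclideanCLM, star_trivial]
  rfl

theorem qnorm_eq (c : Mat n) (a : Fin n → ℝ) (x : Space n) :
    qnorm c (shift a x) = ‖toEuclideanCLM (𝕜 := ℝ) c (x - WithLp.toLp 2 a)‖ ^ 2 := by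
  rw [← real_inner_self_eq_norm_sq]
  simp only [qnorm, EuclideanSpace.inner_eq_star_dotProduct, Matrix.ofLp_toEuclideanCLM, star_trivial]
  rfl

theorem sym_clm {c : Mat n} (hc : cᵀ = c) (u v : Space n) :
    inner ℝ (toEuclideanCLM (𝕜 := ℝ) c v) u = inner ℝ (toEuclideanCLM (𝕜 := ℝ) c u) v := by
  simp only [EuclideanSpace.inner_eq_star_dotProduct, Matrix.ofLp_toEuclideanCLM, star_trivial]
  rw [Matrix.dotProduct_mulVec, ← Matrix.mulVec_transpose, hc, dotProduct_comm]

theorem IsSLC.var_qform {τ : ℝ} (h : IsSLC τ ν) (hτ : 0 < τ) {c : Mat n} (hc : cᵀ = c)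
    (a : Fin n → ℝ) :
    var ν (fun x => qform c (shift a x)) ≤ 8 / τ * ∫ x, qnorm c (shift a x) ∂ν := by
  set S := toEuclideanCLM (𝕜 := ℝ) c
  set b : Space n := WithLp.toLp 2 a
  have hsm : ContDiff ℝ 2 fun x : Space n => inner ℝ (S (x - b)) (x - b) :=
    (S.contDiff.comp (contDiff_id.sub contDiff_const)).inner ℝ (contDiff_id.sub contDiff_const)
  have hfd : ∀ x, fderiv ℝ (fun x : Space n => inner ℝ (S (x - b)) (x - b)) x
      = (2 : ℝ) • innerSL ℝ (S (x - b)) := by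
    intro x
    have h1 : HasFDerivAt (fun y : Space n => y - b) (ContinuousLinearMap.id ℝ (Space n)) x :=
      (hasFDerivAt_id x).sub_const b
    refine ((S.hasFDerivAt.comp x h1).inner ℝ h1).fderiv.trans ?_
    refine ContinuousLinearMap.ext fun v => ?_
    simp only [ContinuousLinearMap.comp_apply, ContinuousLinearMap.prod_apply,
      fderivInnerCLM_apply, ContinuousLinearMap.coe_id', id_eq, _root_.smul_apply, innerSL_apply_apply,
      Function.comp_apply, smul_eq_mul]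
    rw [sym_clm hc (x - b) v]
    ring
  have hP := h.poincare hτ hsm
  simp only [qform_eq, qnorm_eq]
  refine hP.trans_eq ?_
  simp only [dir, hfd, norm_smul, innerSL_apply_norm, mul_pow, integral_const_mul,
    Real.norm_eq_abs, abs_two]
  ring

theorem QBound.mono {Q Q' : ℝ} (h : QBound ν Q) (hle : Q ≤ Q') : QBound ν Q' := fun c hc =>
  (h c hc).trans (mul_le_mul_of_nonneg_right (by linarith) (integral_nonneg fun _ => qnorm_nonneg _ _))

theorem IsSLC.qbound {τ : ℝ} (h : IsSLC τ ν) (hτ : 0 < τ) : QBound ν (2 / τ) := fun c hc => by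
  have := h.var_qform hτ hc fun i => ∫ y, y i ∂ν
  rw [← cen_eq_shift] at this
  exact this.trans_eq (by ring)

theorem IsSLC.qnorm_sq {τ : ℝ} (h : IsSLC τ ν) (hτ : 0 ≤ τ) (c : Mat n) (a : Fin n → ℝ) :
    ∫ x, qnorm c (shift a x) ^ 2 ∂ν ≤ 2 ^ 22 * (∫ x, qnorm c (shift a x) ∂ν) ^ 2 := by
  have := (h.borell hτ (N := fun x => ‖toEuclideanCLM (𝕜 := ℝ) c (x - WithLp.toLp 2 a)‖)
    (by fun_prop) (fun x => norm_nonneg _)
    fun x y α h0 h1 => norm_affine_reverse _ _ x y α h0 h1).2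
  simp only [qnorm_eq]
  refine le_trans (le_of_eq ?_) this
  exact integral_congr_ae (ae_of_all _ fun x => by ring)

theorem cs_integral_le (hν : Car ν R) {f : Space n → ℝ} (hf : Continuous f) :
    (∫ x, f x ∂ν) ^ 2 ≤ ∫ x, f x ^ 2 ∂ν := by
  have := hν.prob
  simpa using cs_sq hν hf (continuous_const (y := (1 : ℝ)))

theorem integral_dot_sq (hν : Car ν R) (v : Fin n → ℝ) :
    ∫ x, (v ⬝ᵥ cen ν x) ^ 2 ∂ν = v ⬝ᵥ covM ν *ᵥ v := by
  simp only [dotProduct, Matrix.mulVec, sq, Finset.mul_sum, Finset.sum_mul, covM,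
    ← integral_const_mul, ← integral_mul_const]
  rw [integral_finsetSum _ fun i _ => hν.int_cont (by fun_prop)]
  refine Eq.trans (Finset.sum_congr rfl fun i _ =>
    integral_finsetSum _ fun l _ => hν.int_cont (by fun_prop)) ?_
  rw [Finset.sum_comm]
  exact Finset.sum_congr rfl fun i _ => Finset.sum_congr rfl fun l _ =>
    integral_congr_ae (ae_of_all _ fun x => by ring)

/-- The squared gradient of a tilted mean is controlled by the covariance. -/
theorem grad_le (hν : Car ν R) {P : Space n → ℝ} (hP : Continuous P) {m : ℝ} (hm : 0 ≤ m)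
    (hop : ∀ v, v ⬝ᵥ covM ν *ᵥ v ≤ m * (v ⬝ᵥ v)) :
    ∑ j, (∫ x, (P x - ∫ y, P y ∂ν) * cen ν x j ∂ν) ^ 2 ≤ m * var ν P := by
  set v : Fin n → ℝ := fun j => ∫ x, (P x - ∫ y, P y ∂ν) * cen ν x j ∂ν with hv
  have hvv : ∑ j, v j ^ 2 = v ⬝ᵥ v := by simp [dotProduct, sq]
  show ∑ j, v j ^ 2 ≤ _
  rw [hvv]
  have hvc : Continuous fun x => v ⬝ᵥ cen ν x := by unfold dotProduct; fun_prop
  have hv0 : 0 ≤ v ⬝ᵥ v := Finset.sum_nonneg fun j _ => mul_self_nonneg _
  have hvar : 0 ≤ var ν P := integral_nonneg fun x => sq_nonneg _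
  have e : v ⬝ᵥ v = ∫ x, (P x - ∫ y, P y ∂ν) * (v ⬝ᵥ cen ν x) ∂ν := by
    simp only [dotProduct, Finset.mul_sum]
    rw [integral_finsetSum _ fun j _ => hν.int_cont (by fun_prop)]
    refine Finset.sum_congr rfl fun j _ => ?_
    conv_lhs => arg 2; simp only [hv]
    rw [← integral_const_mul]
    exact integral_congr_ae (ae_of_all _ fun x => by ring)
  have h := cs_sq hν (hP.sub continuous_const) hvc (f := fun x => P x - ∫ y, P y ∂ν)
  rw [← e, integral_dot_sq hν] at h
  change (v ⬝ᵥ v) ^ 2 ≤ var ν P * _ at h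
  have h2 : (v ⬝ᵥ v) ^ 2 ≤ (m * var ν P) * (v ⬝ᵥ v) :=
    h.trans ((mul_le_mul_of_nonneg_left (hop v) hvar).trans_eq (by ring))
  rcases hv0.eq_or_lt with h0 | h0
  · rw [← h0]; exact mul_nonneg hm hvar
  · exact le_of_mul_le_mul_right (by rw [← sq]; exact h2) h0

/-- The variance of an uncentred quadratic form. -/
theorem var_qform_le (hν : Car ν R) {Q m : ℝ} (hQ : QBound ν Q)
    (hop : ∀ v, v ⬝ᵥ covM ν *ᵥ v ≤ m * (v ⬝ᵥ v)) {c : Mat n} (hc : cᵀ = c) (a : Fin n → ℝ) :
    var ν (fun x => qform c (shift a x)) ≤ 8 * max Q m * ∫ x, qnorm c (shift a x) ∂ν := by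
  have hprob := hν.prob
  set d : Fin n → ℝ := fun i => (∫ y, y i ∂ν) - a i with hd
  set w := c *ᵥ d with hw
  have hsplit : ∀ x, shift a x = cen ν x + d := fun x => by
    funext i; simp [shift, cen, hd]
  have hwc : Continuous fun x => w ⬝ᵥ cen ν x := by unfold dotProduct; fun_prop
  have hw0 : ∫ x, w ⬝ᵥ cen ν x ∂ν = 0 := by
    simp only [dotProduct]
    rw [integral_finsetSum _ fun j _ => hν.int_cont (by fun_prop)]
    simp [integral_const_mul, integral_cen hν]
  have hq : ∀ x, qform c (shift a x) = qform c (cen ν x) + 2 * (w ⬝ᵥ cen ν x) + qform c d := by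
    intro x
    have hs : cen ν x ⬝ᵥ c *ᵥ d = d ⬝ᵥ c *ᵥ cen ν x := by
      rw [Matrix.dotProduct_mulVec, ← Matrix.mulVec_transpose, hc, dotProduct_comm]
    rw [hsplit, qform, qform, qform, Matrix.mulVec_add, add_dotProduct, dotProduct_add,
      dotProduct_add, hw, dotProduct_comm (c *ᵥ d) (cen ν x), hs]
    ring
  have hnorm : ∫ x, qnorm c (shift a x) ∂ν
      = (∫ x, qnorm c (cen ν x) ∂ν) + w ⬝ᵥ w := by
    have e : ∀ x, qnorm c (shift a x)
        = qnorm c (cen ν x) + (2 * ((c *ᵥ w) ⬝ᵥ cen ν x) + w ⬝ᵥ w) := by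
      intro x
      have hs : (c *ᵥ cen ν x) ⬝ᵥ w = (c *ᵥ w) ⬝ᵥ cen ν x := by
        rw [dotProduct_comm, Matrix.dotProduct_mulVec, ← Matrix.mulVec_transpose, hc]
      rw [hsplit, qnorm, qnorm, Matrix.mulVec_add, add_dotProduct, dotProduct_add,
        dotProduct_add, ← hw, dotProduct_comm w (c *ᵥ cen ν x), hs]
      ring
    have hc0 : Continuous fun x => (c *ᵥ w) ⬝ᵥ cen ν x := by unfold dotProduct; fun_prop
    have h0 : ∫ x, (c *ᵥ w) ⬝ᵥ cen ν x ∂ν = 0 := by
      simp only [dotProduct]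
      rw [integral_finsetSum _ fun j _ => hν.int_cont (by fun_prop)]
      simp [integral_const_mul, integral_cen hν]
    rw [funext e, integral_add (hν.int_cont (by fun_prop)) (hν.int_cont (by fun_prop)),
      integral_add (hν.int_cont (hc0.const_mul 2)) (integrable_const _), integral_const_mul, h0]
    simp
  set Pc := fun x => qform c (cen ν x) with hPc
  have hPcc : Continuous Pc := by simp only [hPc]; fun_prop
  set μ0 := ∫ x, Pc x ∂ν with hμ0
  have hmean : ∫ x, qform c (shift a x) ∂ν = μ0 + qform c d := by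
    rw [funext hq, integral_add (f := fun x => Pc x + 2 * (w ⬝ᵥ cen ν x))
        (hν.int_cont (hPcc.add (hwc.const_mul 2))) (integrable_const _),
      integral_add (hν.int_cont hPcc) (hν.int_cont (hwc.const_mul 2)), integral_const_mul, hw0]
    simp [hμ0, hPc]
  have hle : var ν (fun x => qform c (shift a x))
      ≤ 2 * var ν Pc + 8 * ∫ x, (w ⬝ᵥ cen ν x) ^ 2 ∂ν := by
    rw [var, var, ← integral_const_mul, ← integral_const_mul, hmean,
      ← integral_add (f := fun x => 2 * (Pc x - μ0) ^ 2) (g := fun x => 8 * (w ⬝ᵥ cen ν x) ^ 2)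
        (hν.int_cont (by fun_prop)) (hν.int_cont ((hwc.pow 2).const_mul 8))]
    refine integral_mono (hν.int_cont (by fun_prop)) (hν.int_cont
      ((((hPcc.sub continuous_const).pow 2).const_mul 2).add ((hwc.pow 2).const_mul 8))) fun x => ?_
    simp only [hq x, hPc]
    nlinarith [sq_nonneg (qform c (cen ν x) - μ0 - 2 * (w ⬝ᵥ cen ν x))]
  rw [integral_dot_sq hν] at hle
  rw [hnorm]
  have h1 : 0 ≤ ∫ x, qnorm c (cen ν x) ∂ν := integral_nonneg fun _ => qnorm_nonneg _ _
  have h2 : 0 ≤ w ⬝ᵥ w := Finset.sum_nonneg fun j _ => mul_self_nonneg _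
  nlinarith [hQ c hc, hop w, mul_le_mul_of_nonneg_right (le_max_left Q m) h1,
    mul_le_mul_of_nonneg_right (le_max_right Q m) h2]

theorem var_dot_eq (hν : Car ν R) (v : Fin n → ℝ) :
    var ν (fun x => inner ℝ (WithLp.toLp 2 v) x) = v ⬝ᵥ covM ν *ᵥ v := by
  rw [← integral_dot_sq hν, var]
  refine integral_congr_ae (ae_of_all _ fun x => ?_)
  have e : ∀ y : Space n, inner ℝ (WithLp.toLp 2 v) y = ∑ i, v i * y i := fun y => by
    simp [PiLp.inner_apply, mul_comm]
  simp only [e]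
  rw [integral_finsetSum _ fun i _ => hν.int_cont (by fun_prop)]
  simp only [dotProduct, cen, integral_const_mul, mul_sub, Finset.sum_sub_distrib]

theorem IsSLC.op_le {τ : ℝ} (h : IsSLC τ ν) (hτ : 0 < τ) (v : Fin n → ℝ) :
    v ⬝ᵥ covM ν *ᵥ v ≤ 2 / τ * (v ⬝ᵥ v) := by
  obtain ⟨R, hR⟩ := h.car
  refine le_trans ((var_dot_eq hR v).symm.trans_le (h.var_inner hτ _)) (le_of_eq ?_)
  congr 1
  rw [← real_inner_self_eq_norm_sq, EuclideanSpace.inner_eq_star_dotProduct, star_trivial]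

theorem op_le_trace (hν : Car ν R) {q : ℕ} (hq : q ≠ 0) (v : Fin n → ℝ) :
    v ⬝ᵥ covM ν *ᵥ v ≤ trace (covM ν ^ q) ^ ((q : ℝ)⁻¹) * (v ⬝ᵥ v) :=
  let ⟨_, _, hE⟩ := exists_eig (posSemidef_covM hν); hE.quad_le hq v

end Vale.Agent.P245
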