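import Vale.Agent.P245.PL

/-!
Strongly log-concave measures: boundedness, the integrated Prekopa-Leindler inequality and
stability under Gaussian tilts.
-/

noncomputable section

open MeasureTheory Set
open scoped ENNReal

namespace Vale.Agent.P245

variable {n : ℕ} {τ : ℝ} {μ : Measure (Space n)}

theorem IsSLC.prob (h : IsSLC τ μ) : IsProbabilityMeasure μ := h.1

/-- A measure carried by a ball. -/
theorem IsSLC.bdd (h : IsSLC τ μ) : ∃ R, 0 ≤ R ∧ ∀ᵐ x ∂μ, ‖x‖ ≤ R := by
  obtain ⟨-, w, R, hw, rfl, hR, -⟩ := h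
  refine ⟨max R 0, le_max_right _ _, ?_⟩
  rw [ae_withDensity_iff hw]
  refine ae_of_all _ fun x hx => ?_
  by_contra hc
  exact hx (hR x (lt_of_le_of_lt (le_max_left _ _) (not_le.1 hc)))

/-- Continuous functions are integrable for a measure carried by a ball. -/
theorem integrable_of_ball [IsFiniteMeasure μ] {R : ℝ} (hR : ∀ᵐ x ∂μ, ‖x‖ ≤ R)
    {F : Type*} [NormedAddCommGroup F] [SecondCountableTopology F] [MeasurableSpace F] [BorelSpace F]
    {f : Space n → F} (hf : Continuous f) : Integrable f μ := by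
  obtain ⟨M, hM⟩ := (isCompact_closedBall (0 : Space n) R).exists_bound_of_continuousOn hf.continuousOn
  exact Integrable.of_bound hf.aestronglyMeasurable M
    (hR.mono fun x hx => hM x (by simpa [Metric.mem_closedBall] using hx))

theorem IsSLC.integrable (h : IsSLC τ μ) {F : Type*} [NormedAddCommGroup F]
    [SecondCountableTopology F] [MeasurableSpace F] [BorelSpace F] {f : Space n → F}
    (hf : Continuous f) : Integrable f μ := by
  have := h.prob
  obtain ⟨R, -, hR⟩ := h.bdd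
  exact integrable_of_ball hR hf

/-- The integrated inequality, for nonnegative extended functions. -/
theorem IsSLC.pl (h : IsSLC τ μ) : ∃ R, 0 ≤ R ∧ (∀ᵐ x ∂μ, ‖x‖ ≤ R) ∧
    ∀ {l : ℝ}, 0 < l → l < 1 → ∀ {A B C : Space n → ℝ≥0∞}, Measurable A → Measurable B →
      Measurable C →
      (∀ x y, ‖x‖ ≤ R → ‖y‖ ≤ R → A x ^ (1 - l) * B y ^ l ≤
        ENNReal.ofReal (Real.exp (τ * l * (1 - l) * ‖x - y‖ ^ 2 / 2)) * C ((1 - l) • x + l • y)) →
      (∫⁻ x, A x ∂μ) ^ (1 - l) * (∫⁻ x, B x ∂μ) ^ l ≤ ∫⁻ x, C x ∂μ := by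
  obtain ⟨hp, w, R, hw, rfl, hR, hlc⟩ := h
  refine ⟨max R 0, le_max_right _ _, ?_, ?_⟩
  · rw [ae_withDensity_iff hw]
    refine ae_of_all _ fun x hx => ?_
    by_contra hc
    exact hx (hR x (lt_of_le_of_lt (le_max_left _ _) (not_le.1 hc)))
  intro l h0 h1 A B C hA hB hC hyp
  rw [lintegral_withDensity_eq_lintegral_mul _ hw hA, lintegral_withDensity_eq_lintegral_mul _ hw hB,
    lintegral_withDensity_eq_lintegral_mul _ hw hC]
  refine prekopa h0 h1 (hw.mul hA) (hw.mul hB) (hw.mul hC) fun x y => ?_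
  simp only [Pi.mul_apply]
  rw [ENNReal.mul_rpow_of_nonneg _ _ (by linarith), ENNReal.mul_rpow_of_nonneg _ _ h0.le]
  rcases eq_or_ne (w x) 0 with hx | hx
  · simp [hx, ENNReal.zero_rpow_of_pos (show 0 < 1 - l by linarith)]
  rcases eq_or_ne (w y) 0 with hy | hy
  · simp [hy, ENNReal.zero_rpow_of_pos h0]
  have hbx : ∀ z, w z ≠ 0 → ‖z‖ ≤ max R 0 := fun z hz => by
    by_contra hc
    exact hz (hR z (lt_of_le_of_lt (le_max_left _ _) (not_le.1 hc)))
  calc w x ^ (1 - l) * A x ^ (1 - l) * (w y ^ l * B y ^ l)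
      = (w x ^ (1 - l) * w y ^ l) * (A x ^ (1 - l) * B y ^ l) := by ring
    _ ≤ (w x ^ (1 - l) * w y ^ l) *
        (ENNReal.ofReal (Real.exp (τ * l * (1 - l) * ‖x - y‖ ^ 2 / 2))
          * C ((1 - l) • x + l • y)) := mul_le_mul_right (hyp x y (hbx x hx) (hbx y hy)) _
    _ ≤ w ((1 - l) • x + l • y) * C ((1 - l) • x + l • y) := by
        rw [← mul_assoc]
        exact mul_le_mul_left (hlc l h0 h1 x y) _

/-- The integrated inequality for exponentials of continuous functions. -/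
theorem IsSLC.pl_exp (h : IsSLC τ μ) : ∃ R, 0 ≤ R ∧ (∀ᵐ x ∂μ, ‖x‖ ≤ R) ∧
    ∀ {l : ℝ}, 0 < l → l < 1 → ∀ {φ χ : Space n → ℝ}, Continuous φ → Continuous χ →
      (∀ x y, ‖x‖ ≤ R → ‖y‖ ≤ R →
        (1 - l) * φ x ≤ τ * l * (1 - l) * ‖x - y‖ ^ 2 / 2 + χ ((1 - l) • x + l • y)) →
      (∫ x, Real.exp (φ x) ∂μ) ^ (1 - l) ≤ ∫ x, Real.exp (χ x) ∂μ := by
  have hpr := h.prob
  obtain ⟨R, hR0, hR, hpl⟩ := h.pl
  refine ⟨R, hR0, hR, fun {l} h0 h1 {φ χ} hφ hχ hyp => ?_⟩
  have key := hpl h0 h1 (A := fun x => ENNReal.ofReal (Real.exp (φ x))) (B := fun _ => 1)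
    (C := fun x => ENNReal.ofReal (Real.exp (χ x))) (by fun_prop) measurable_const (by fun_prop)
    fun x y hx hy => by
      rw [ENNReal.one_rpow, mul_one, ENNReal.ofReal_rpow_of_pos (Real.exp_pos _),
        ← ENNReal.ofReal_mul (Real.exp_pos _).le, ← Real.exp_mul, ← Real.exp_add]
      exact ENNReal.ofReal_le_ofReal (Real.exp_le_exp.2 (by linarith [hyp x y hx hy]))
  have e : ∀ u : Space n → ℝ, Continuous u →
      ∫⁻ x, ENNReal.ofReal (Real.exp (u x)) ∂μ = ENNReal.ofReal (∫ x, Real.exp (u x) ∂μ) :=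
    fun u hu => (ofReal_integral_eq_lintegral_ofReal (integrable_of_ball hR (by fun_prop))
      (ae_of_all _ fun x => (Real.exp_pos _).le)).symm
  rw [e φ hφ, e χ hχ, lintegral_one, measure_univ, ENNReal.one_rpow, mul_one,
    ENNReal.ofReal_rpow_of_nonneg (integral_nonneg fun x => (Real.exp_pos _).le) (by linarith),
    ENNReal.ofReal_le_ofReal_iff (integral_nonneg fun x => (Real.exp_pos _).le)] at key
  exact key

/-- The exponent of a Gaussian tilt. -/
def ker (t : ℝ) (h x : Space n) : ℝ := inner ℝ h x - t * ‖x‖ ^ 2 / 2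

@[fun_prop]
theorem continuous_ker (t : ℝ) (h : Space n) : Continuous (ker t h) := by
  unfold ker; fun_prop

theorem ker_combo (t : ℝ) (h : Space n) (l : ℝ) (x y : Space n) :
    ker t h ((1 - l) • x + l • y) = (1 - l) * ker t h x + l * ker t h y
      + t * l * (1 - l) * ‖x - y‖ ^ 2 / 2 := by
  simp only [ker, inner_add_right, real_inner_smul_right, ← real_inner_self_eq_norm_sq,
    inner_add_left, inner_sub_left, inner_sub_right, real_inner_smul_left, real_inner_comm y x]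
  ring

/-- A Gaussian tilt raises the convexity parameter by `t`. -/
theorem IsSLC.tilt (h : IsSLC τ μ) (t : ℝ) (v : Space n) :
    IsSLC (τ + t) (μ.tilted (ker t v)) := by
  have hp := h.prob
  have hint : Integrable (fun x => Real.exp (ker t v x)) μ := h.integrable (by fun_prop)
  refine ⟨isProbabilityMeasure_tilted hint, ?_⟩
  obtain ⟨-, w, R, hw, rfl, hR, hlc⟩ := h
  set Z := ∫ x, Real.exp (ker t v x) ∂(volume.withDensity w) with hZ
  have hZ0 : 0 < Z := integral_exp_pos hint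
  let k : Space n → ℝ≥0∞ := fun x => ENNReal.ofReal (Real.exp (ker t v x) / Z)
  have hk : Measurable k := by simp only [k]; fun_prop
  refine ⟨w * k, R, hw.mul hk, ?_, fun x hx => by simp [hR x hx], fun l h0 h1 x y => ?_⟩
  · rw [Measure.tilted, ← hZ, withDensity_mul _ hw hk]
  · simp only [Pi.mul_apply, k]
    rw [ENNReal.mul_rpow_of_nonneg _ _ (by linarith), ENNReal.mul_rpow_of_nonneg _ _ h0.le]
    have e : ENNReal.ofReal (Real.exp (ker t v x) / Z) ^ (1 - l)
        * ENNReal.ofReal (Real.exp (ker t v y) / Z) ^ l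
        * ENNReal.ofReal (Real.exp ((τ + t) * l * (1 - l) * ‖x - y‖ ^ 2 / 2))
        = ENNReal.ofReal (Real.exp (τ * l * (1 - l) * ‖x - y‖ ^ 2 / 2))
          * ENNReal.ofReal (Real.exp (ker t v ((1 - l) • x + l • y)) / Z) := by
      rw [ENNReal.ofReal_rpow_of_pos (by positivity), ENNReal.ofReal_rpow_of_pos (by positivity),
        ← ENNReal.ofReal_mul (by positivity), ← ENNReal.ofReal_mul (by positivity),
        ← ENNReal.ofReal_mul (by positivity)]
      congr 1
      rw [← Real.exp_log hZ0]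
      simp only [← Real.exp_sub, ← Real.exp_mul, ← Real.exp_add]
      rw [ker_combo]
      congr 1
      ring
    calc _ = (w x ^ (1 - l) * w y ^ l) * (ENNReal.ofReal (Real.exp (ker t v x) / Z) ^ (1 - l)
          * ENNReal.ofReal (Real.exp (ker t v y) / Z) ^ l
          * ENNReal.ofReal (Real.exp ((τ + t) * l * (1 - l) * ‖x - y‖ ^ 2 / 2))) := by ring
      _ = (w x ^ (1 - l) * w y ^ l
            * ENNReal.ofReal (Real.exp (τ * l * (1 - l) * ‖x - y‖ ^ 2 / 2)))
          * ENNReal.ofReal (Real.exp (ker t v ((1 - l) • x + l • y)) / Z) := by rw [e]; ring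
      _ ≤ _ := mul_le_mul_left (hlc l h0 h1 x y) _

end Vale.Agent.P245
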